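import Vale.Agent.P073Z.ACC.Sk
import Vale.Agent.P073Z.RCX2
import Vale.Agent.P073Z.TOPO.Cov
import Vale.Agent.P073Z.GenBV

/-!
# The machine applied to given parameters
-/

open Set Metric Topology Filter MeasureTheory
open scoped ENNReal NNReal

namespace P073

open Vale.Agent.P073.HB

def MID : Prop := ∀ {p : ℝ}, 1 ≤ p → p < 2 → ∃ (τ₁ Cg : ℕ → ℝ) (c₀ : ℝ≥0) (c₁ : ℕ → ℝ≥0)
  (c₂ : ℕ → ℕ → ℝ≥0) (c₃ Mt : Ty → ℕ → ℝ≥0) (S : Ty → ℕ → Set E3),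
  (∀ b, 0 < τ₁ b ∧ 1 ≤ Cg b) ∧
  (∀ T m, MeasurableSet (S T m) ∧ ∀ y, μH[1] (S T m ∩ closedBall y 1) ≤ Mt T m) ∧
  ∀ {Ω Λ X : Set E3} {f f' : E3 → E3} {F : E3 → (E3 →L[ℝ] E3)} (P : Par) (τ : Fin P.N → ℝ)
    {β d ε₀ : ℝ} {ε : ℝ≥0∞}, IsOpen Ω → IsOpen Λ → IsConnected Ω → IsConnected Λ →
  Bornology.IsBounded Λ → HomeoOn f f' Ω Λ → GenBV f Ω → Measurable F → P.Ok Ω →
  (∀ j, 2 ≤ P.m j) → 0 < β → 0 < ε →
  (∀ j, 0 ≤ τ j ∧ τ j ≤ τ₁ (P.T j).b ∧ Cg (P.T j).b * τ j ≤ 1 ∧ ∀ x ∈ P.K j, ∀ y ∈ P.K j,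
    dist x y ≤ P.η → ‖f y - f x - (P.T j).A (y - x)‖ ≤ τ j * ‖y - x‖) →
  (∀ j, P.U j ⊆ X) → (∀ x ∈ X, ∀ y ∈ Ω, dist (f x) (f y) ≤ 20 * β → dist x y ≤ d) →
  (∀ j, 10 * (P.T j).b * P.m j * d ≤ P.η ∧ Cg (P.T j).b * P.ρ j ≤ β ∧
    ((P.T j).b + 1) * (P.T j).b * P.ρ j ≤ β) →
  cthickening (101 * β) (f '' X) ⊆ Λ →
  (∀ Q : RCx E3, Q.carrier = Ω → (∀ i, ∀ x ∈ Q.cell i, ∀ y ∈ Q.cell i, dist x y ≤ 2 * P.ς x) →
    ∃ (O : Q.ι → Set E3) (ϱ : Q.ι → ℝ), LFIn O Λ ∧ ∀ i, Convex ℝ (O i) ∧ O i ⊆ Λ ∧ 0 < ϱ i ∧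
      thickening (ϱ i) (f '' Q.cell i) ⊆ O i ∧ (∀ y ∈ O i, ∀ y' ∈ O i, dist y y' ≤ ε₀) ∧
      ((thickening (101 * β) (f '' X) ∩ f '' Q.cell i).Nonempty → 100 * β ≤ ϱ i)) →
  (∀ x ∈ Ω, ∀ y, dist y x ≤ P.ς x → dist (f y) (f x) ≤ ε₀) →
  (∀ x y : E3, segment ℝ x y ⊆ Ω → (∀ k, ∃ q : ℚ, x k = P.w k + q) →
    (∀ k, ∃ q : ℚ, y k = P.w k + q) → GoodSeg f F x (y - x)) →
  ∃ (k k' : E3 → E3) (Z : Set E3), HomeoOn k k' Ω Λ ∧ DiscreteIn Z Ω ∧ ConicalOn k (Ω \ Z) ∧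
    (∀ x ∈ Ω, dist (k x) (f x) ≤ 2 * ε₀) ∧
    ∫⁻ x in Ω, ‖fderiv ℝ k x - F x‖ₑ ^ p ≤
      c₀ * (P.farI Ω (fun x => ‖F x‖ₑ ^ p) + ∫⁻ x in Ω \ P.KK, ‖F x‖ₑ ^ p) +
      ∑ j, (c₁ (P.T j).b * (((P.m j : ℝ≥0∞)⁻¹ + ENNReal.ofReal (Cg (P.T j).b * τ j) ^ p +
          (P.n : ℝ≥0∞)⁻¹) * volume (P.U j)) +
        c₂ (P.T j).b (P.m j) * (ENNReal.ofReal P.η ^ 3 * (P.n : ℝ≥0∞)⁻¹ ^ (P.T j).r * P.vert j +
          ENNReal.ofReal P.η ^ 2 * P.lam j (P.U j) (fun x => ‖F x - (P.T j).A‖ₑ) +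
          ENNReal.ofReal P.η ^ 2 * P.endI j ((P.T j).b * P.m j * d / P.η) (fun x => ‖F x‖ₑ) +
          ENNReal.ofReal P.η ^ 2 * P.lam j (P.U j) (fun x => ‖F x - (P.T j).A‖ₑ ^ p) +
          volume (P.U j \ P.K j) + ∫⁻ x in P.U j, ‖F x - (P.T j).A‖ₑ ^ p) +
        c₃ (P.T j) (P.m j) * (ENNReal.ofReal P.η ^ 2 *
          P.nearI j (S (P.T j) (P.m j)) (fun x => ‖F x‖ₑ ^ p))) + ε

namespace Mid

/-- every cell has a vertex -/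
theorem exists_vertex {E : Type} [NormedAddCommGroup E] [NormedSpace ℝ E] (K : RCx E) (i : K.ι) :
    ∃ v, K.dim v = 0 ∧ K.cell v ⊆ K.cell i := by
  induction hn : K.dim i using Nat.strong_induction_on generalizing i with
  | _ n ih =>
    rcases Nat.eq_zero_or_pos n with h0 | h0
    · exact ⟨i, hn.trans h0, Subset.rfl⟩
    · obtain ⟨φ, hφ⟩ := (K.ball i).eq_preimage
      have : Nonempty (Fin (K.dim i)) := ⟨⟨0, hn ▸ h0⟩⟩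
      obtain ⟨y, hy⟩ : (sphere (0 : Fin (K.dim i) → ℝ) 1).Nonempty :=
        NormedSpace.sphere_nonempty.2 zero_le_one
      obtain ⟨j, -, h2, h3⟩ := K.bdry i (φ.invFun y) (hφ ▸ mem_image_of_mem _ hy)
      obtain ⟨v, hv, hs⟩ := ih _ (hn ▸ h3) j rfl
      exact ⟨v, hv, hs.trans (h2.trans (K.bd_subset i))⟩

theorem segVar_lt_top {f : E3 → E3} {F : E3 → (E3 →L[ℝ] E3)} {x y : E3}
    (h : GoodSeg f F x (y - x)) : segVar f x y < ⊤ := by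
  have h1 := GB.var_le_of_good h
  have e : (fun t : ℝ => f (x + t • (y - x))) = fun s : ℝ => f (AffineMap.lineMap x y s) := by
    funext t
    rw [AffineMap.lineMap_apply_module', add_comm]
  rw [e] at h1
  exact h1.trans_lt h.integrableOn.2

/-- the ends of an edge are vertices -/
theorem ends {Q : RCx E3} (hQ : Q.Cvx) {e : Q.ι} {x y : E3} (he : Q.dim e = 1)
    (hs : Q.cell e = segment ℝ x y) : x ≠ y ∧ (∃ v, Q.dim v = 0 ∧ x ∈ Q.cell v) ∧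
      ∃ v, Q.dim v = 0 ∧ y ∈ Q.cell v := by
  obtain ⟨a, b, j₁, j₂, hne, hseg, -, h1, h2, h3, h4, -⟩ := hQ.exists_segment he
  rcases TP.segment_ends (hs.symm.trans hseg) with ⟨rfl, rfl⟩ | ⟨rfl, rfl⟩
  · exact ⟨hne, ⟨j₁, h1, by rw [h3]; rfl⟩, j₂, h2, by rw [h4]; rfl⟩
  · exact ⟨hne.symm, ⟨j₂, h2, by rw [h4]; rfl⟩, j₁, h1, by rw [h3]; rfl⟩

/-- tolerances -/
theorem exists_tol {Q : RCx E3} (hQ : Q.Cvx) {p : ℝ} (hp : 1 ≤ p) (θ : Q.ι → ℝ≥0∞)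
    (hθ : ∀ i, 0 < θ i) : ∃ η : Q.ι → ℝ≥0∞, ∀ i, 0 < η i ∧ (2 ≤ Q.dim i → η i = θ i) ∧
      ∀ x y, Q.dim i = 1 → Q.cell i = segment ℝ x y → η i ^ p ≤ edist x y ^ (p - 1) * θ i := by
  have key : ∀ i, ∃ η : ℝ≥0∞, 0 < η ∧ (2 ≤ Q.dim i → η = θ i) ∧
      ∀ x y, Q.dim i = 1 → Q.cell i = segment ℝ x y → η ^ p ≤ edist x y ^ (p - 1) * θ i := by
    intro i
    by_cases h1 : Q.dim i = 1
    · obtain ⟨a, b, -, -, hne, hseg, -⟩ := hQ.exists_segment h1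
      have hp0 : 0 < p := by linarith
      refine ⟨(edist a b ^ (p - 1) * θ i) ^ p⁻¹, ?_, fun h => by omega, fun x y _ hs => ?_⟩
      · refine ENNReal.rpow_pos_of_nonneg ?_ (by positivity)
        exact ENNReal.mul_pos (ENNReal.rpow_pos_of_nonneg (edist_pos.2 hne) (by linarith)).ne'
          (hθ i).ne'
      · rw [ENNReal.rpow_inv_rpow hp0.ne', TP.edist_congr (hs.symm.trans hseg)]
    · exact ⟨θ i, hθ i, fun _ => rfl, fun _ _ h => absurd h h1⟩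
  choose η hη using key
  exact ⟨η, hη⟩

theorem ofReal_calc {b η m n τ' : ℝ} (hb : 0 ≤ b) (hη : 0 < η) (hm : 0 < m) (hn : 0 < n)
    (hτ : 0 < τ') : ENNReal.ofReal (6 * (b * η) ^ 3) * ENNReal.ofReal n⁻¹ *
      ENNReal.ofReal ((τ' * (η / (m * n)))⁻¹) =
      ENNReal.ofReal (6 * b ^ 3 * m / τ') * ENNReal.ofReal η ^ 2 := by
  rw [← ENNReal.ofReal_mul (by positivity), ← ENNReal.ofReal_mul (by positivity),
    ← ENNReal.ofReal_pow hη.le, ← ENNReal.ofReal_mul (by positivity)]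
  congr 1
  field_simp

/-- the count of the bad cells, weighted by their volume -/
theorem bad_le {Ω : Set E3} {P : Par} (hP : P.Ok Ω) (hc : CubeApi Ω P) (j : Fin P.N) {τ' : ℝ}
    (hτ : 0 < τ') {I₁ I₂ Lm : ℝ≥0∞} (h1 : (P.n : ℝ≥0∞)⁻¹ ^ ((P.T j).r - 1) * I₁ ≤ Lm) :
    P.vol j * (P.n : ℝ≥0∞)⁻¹ ^ (P.T j).r * (P.vert j + ENNReal.ofReal ((τ' * P.ρ j)⁻¹) * I₁ +
      ENNReal.ofReal ((P.ρ j)⁻¹) * I₂ + ((P.Inner j).encard : ℝ≥0∞)) ≤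
    (P.n : ℝ≥0∞)⁻¹ * volume (P.U j) +
      ENNReal.ofReal (6 * (P.T j).b ^ 3 * (1 + P.m j / τ' + P.m j)) *
        (ENNReal.ofReal P.η ^ 3 * (P.n : ℝ≥0∞)⁻¹ ^ (P.T j).r * P.vert j +
          ENNReal.ofReal P.η ^ 2 * Lm + ENNReal.ofReal P.η ^ 2 * I₂) := by
  have hη := hc.eta_pos
  have hm : (0:ℝ) < P.m j := by exact_mod_cast hP.m_pos j
  have hn : (0:ℝ) < P.n := by exact_mod_cast hP.n_pos
  have hb : (0:ℝ) ≤ (P.T j).b := Nat.cast_nonneg _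
  have hn1 : (P.n : ℝ≥0∞)⁻¹ ≤ 1 := ENNReal.inv_le_one.2 (by exact_mod_cast hP.n_pos)
  have hne : (P.n : ℝ≥0∞)⁻¹ = ENNReal.ofReal (P.n : ℝ)⁻¹ := by
    rw [ENNReal.ofReal_inv_of_pos hn, ENNReal.ofReal_natCast]
  obtain ⟨r, hr⟩ : ∃ r, (P.T j).r = r + 1 := ⟨(P.T j).r - 1, by have := (P.T j).r_pos; omega⟩
  rw [hr, Nat.add_sub_cancel] at h1
  have hv := hc.vol_le j
  set c := ENNReal.ofReal (6 * (P.T j).b ^ 3 * (1 + P.m j / τ' + P.m j)) with hcdef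
  have k0 : 0 ≤ (P.m j : ℝ) / τ' := by positivity
  have c1 : ENNReal.ofReal (6 * (P.T j).b ^ 3) ≤ c :=
    ENNReal.ofReal_le_ofReal (le_mul_of_one_le_right (by positivity) (by linarith))
  have c2 : ENNReal.ofReal (6 * (P.T j).b ^ 3 * P.m j / τ') ≤ c :=
    ENNReal.ofReal_le_ofReal (by rw [mul_div_assoc]; gcongr; linarith)
  have c3 : ENNReal.ofReal (6 * (P.T j).b ^ 3 * P.m j / 1) ≤ c :=
    ENNReal.ofReal_le_ofReal (by rw [div_one]; gcongr; linarith)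
  have t1 : P.vol j * (P.n : ℝ≥0∞)⁻¹ ^ (P.T j).r * P.vert j ≤
      c * (ENNReal.ofReal P.η ^ 3 * (P.n : ℝ≥0∞)⁻¹ ^ (P.T j).r * P.vert j) := by
    rw [← mul_assoc, ← mul_assoc]
    gcongr
    refine hv.trans ?_
    rw [mul_pow, ← mul_assoc, ENNReal.ofReal_mul (by positivity), ENNReal.ofReal_pow hη.le]
    gcongr
  have t2 : P.vol j * (P.n : ℝ≥0∞)⁻¹ ^ (P.T j).r * (ENNReal.ofReal ((τ' * P.ρ j)⁻¹) * I₁) ≤
      c * (ENNReal.ofReal P.η ^ 2 * Lm) := by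
    calc _ = P.vol j * (P.n : ℝ≥0∞)⁻¹ * ENNReal.ofReal ((τ' * P.ρ j)⁻¹) *
          ((P.n : ℝ≥0∞)⁻¹ ^ r * I₁) := by rw [hr]; ring
      _ ≤ ENNReal.ofReal (6 * ((P.T j).b * P.η) ^ 3) * ENNReal.ofReal (P.n : ℝ)⁻¹ *
          ENNReal.ofReal ((τ' * (P.η / (P.m j * P.n)))⁻¹) * Lm := by
          rw [← hne]; gcongr; rfl
      _ ≤ _ := by
          rw [ofReal_calc hb hη hm hn hτ, mul_assoc]; gcongr
  have t3 : P.vol j * (P.n : ℝ≥0∞)⁻¹ ^ (P.T j).r * (ENNReal.ofReal ((P.ρ j)⁻¹) * I₂) ≤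
      c * (ENNReal.ofReal P.η ^ 2 * I₂) := by
    calc _ = P.vol j * (P.n : ℝ≥0∞)⁻¹ * ENNReal.ofReal ((1 * P.ρ j)⁻¹) *
          ((P.n : ℝ≥0∞)⁻¹ ^ r * I₂) := by rw [hr, one_mul]; ring
      _ ≤ ENNReal.ofReal (6 * ((P.T j).b * P.η) ^ 3) * ENNReal.ofReal (P.n : ℝ)⁻¹ *
          ENNReal.ofReal ((1 * (P.η / (P.m j * P.n)))⁻¹) * I₂ := by
          rw [← hne]
          gcongr
          · rfl
          · exact mul_le_of_le_one_left' (pow_le_one' hn1 _)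
      _ ≤ _ := by
          rw [ofReal_calc hb hη hm hn one_pos, mul_assoc]; gcongr
  have t4 : P.vol j * (P.n : ℝ≥0∞)⁻¹ ^ (P.T j).r * ((P.Inner j).encard : ℝ≥0∞) ≤
      (P.n : ℝ≥0∞)⁻¹ * volume (P.U j) := by
    calc _ = (P.n : ℝ≥0∞)⁻¹ * ((P.n : ℝ≥0∞)⁻¹ ^ r * (((P.Inner j).encard : ℝ≥0∞) * P.vol j)) := by
          rw [hr]; ring
      _ ≤ _ := by
          gcongr
          exact (mul_le_of_le_one_left' (pow_le_one' hn1 _)).trans (hc.count_inner j)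
  rw [mul_add, mul_add, mul_add, mul_add c, mul_add c, add_comm _ (c * _ + c * _ + c * _)]
  gcongr

end Mid

theorem mid_of (hT : TOPO) (hM : MESH) (hG : GOOD) (hW : WIRE) (hCu : CUBE) (hCe : CELL)
    (hD : DET) : MID := by
  intro p hp hp2
  obtain ⟨κ₀, K₂, C, hκ, hT⟩ := hT hp hp2
  obtain ⟨M₀, Mt, S, hS, hM⟩ := hM
  obtain ⟨τ₁, τ', Cg, hτ, hG⟩ := hG κ₀ hκ
  obtain ⟨K₃, hW⟩ := hW hp K₂
  obtain ⟨c₀, c₁, c₂, c₃, hD⟩ := hD hp hp2 K₃ M₀ C Mt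
  refine ⟨τ₁, Cg, c₀, fun b => c₁ b * (Cg b).toNNReal, fun b m => c₂ b m +
    c₁ b * (Cg b).toNNReal * (6 * (b:ℝ) ^ 3 * (1 + m / τ' b + m)).toNNReal, c₃, Mt, S,
    fun b => ⟨(hτ b).1, (hτ b).2.2⟩, hS, ?_⟩
  intro Ω Λ X f f' F P τ β d ε₀ ε hΩ hΛ cΩ cΛ bΛ hf hBV hF hP hm hβ hε hτj hUX hmod hd hcth hO
    hosc hgood
  have hc := hCu P hΩ hP
  obtain ⟨𝓜⟩ := hM P hΩ hP
  have hce := hCe 𝓜 hΩ hP
  have hseg : ∀ e x y, 𝓜.Q.dim e = 1 → 𝓜.Q.cell e = segment ℝ x y → GoodSeg f F x (y - x) := by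
    intro e x y he hs
    obtain ⟨-, ⟨v, hv, hx⟩, v', hv', hy⟩ := Mid.ends 𝓜.cvx he hs
    refine hgood x y ?_ (𝓜.rat v hv x hx) (𝓜.rat v' hv' y hy)
    rw [← hs]
    exact (𝓜.Q.cell_subset_carrier e).trans 𝓜.carrier.le
  obtain ⟨γ, hγ1, hγ2⟩ := hG P 𝓜 τ hΩ hP hf.cont hF hβ
    (fun j => ⟨(hτj j).1, (hτj j).2.1, (hτj j).2.2.2⟩) (fun j x hx => hmod x (hUX j hx))
    (fun j => ⟨(hd j).1, (hd j).2.1⟩) hseg
  obtain ⟨O, ϱ, hLF, hO⟩ := hO 𝓜.Q 𝓜.carrier 𝓜.small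
  obtain ⟨D, hD⟩ := hD (Λ := Λ) 𝓜 hΩ hP hm fun T m => (hS T m).1
  have := 𝓜.Q.countable
  have hε2 : ε / 2 ≠ 0 := (ENNReal.half_pos hε.ne').ne'
  obtain ⟨θ, hθ, hθs⟩ := ENNReal.exists_pos_sum_of_countable
    (ε := ε / 2 / D) (ENNReal.div_pos hε2 ENNReal.coe_ne_top).ne' 𝓜.Q.ι
  obtain ⟨η, hη⟩ := Mid.exists_tol 𝓜.cvx hp (fun i => (θ i : ℝ≥0∞)) fun i => by exact_mod_cast hθ i
  have hAX : ∀ i ∈ γ.G, γ.A i '' 𝓜.Q.cell i ⊆ cthickening β (f '' X) := by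
    rintro i hi _ ⟨y, hy, rfl⟩
    obtain ⟨j, hj, hA⟩ := hγ1 i hi
    obtain ⟨v, hv, hvi⟩ := Mid.exists_vertex 𝓜.Q i
    obtain ⟨x, hx⟩ := 𝓜.Q.cell_nonempty v
    obtain ⟨hvG, -, -, hEq⟩ := γ.face i hi v hvi
    have e1 : γ.A i x = f x := (hEq hx).symm.trans (γ.vert v hvG hv hx)
    refine mem_cthickening_of_dist_le _ (f x) _ _
      ⟨x, hUX j (hc.buf_U j (hc.fine_buf j (hj (hvi hx)))), rfl⟩ ?_
    have h1 := hA x (hvi hx) y hy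
    have h2 := (hce.fine_flat j i hj x (hvi hx) y hy).2
    have h3 := hce.fine_diam j i hj x (hvi hx) y hy
    have h4 : ‖(P.T j).A (y - x)‖ ≤ (P.T j).b * ‖y - x‖ :=
      ((P.T j).A.le_opNorm _).trans (by gcongr; exact (P.T j).normA)
    have h5 : Cg (P.T j).b * τ j * ‖y - x‖ ≤ 1 * ‖y - x‖ := by gcongr; exact (hτj j).2.2.1
    have h6 : ‖y - x‖ ≤ (P.T j).b * P.ρ j := by
      have ha := (hc.a_pos j).le
      refine (h2.trans (mul_le_mul_of_nonneg_left h3 (by positivity))).trans_eq ?_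
      rw [Par.a, Par.ρ, mul_assoc, ← div_div, div_eq_mul_inv (P.η / P.m j)]
    have h7 := norm_add_le (γ.A i y - γ.A i x - (P.T j).A (y - x)) ((P.T j).A (y - x))
    rw [sub_add_cancel] at h7
    have h8 := mul_le_mul_of_nonneg_left h6 (by positivity : (0:ℝ) ≤ (P.T j).b + 1)
    have h9 := (hd j).2.2
    rw [dist_eq_norm, ← e1]
    linarith
  have hth : ∀ i ∈ γ.G, thickening (100 * β) (γ.A i '' 𝓜.Q.cell i) ⊆
      thickening (101 * β) (f '' X) := fun i hi => by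
    refine (thickening_subset_of_subset _ (hAX i hi)).trans ?_
    refine (thickening_cthickening_subset _ hβ.le _).trans_eq ?_
    congr 1; ring
  have hcth' : ∀ i ∈ γ.G, cthickening (100 * β) (γ.A i '' 𝓜.Q.cell i) ⊆ Λ := fun i hi => by
    refine ((cthickening_subset_of_subset _ (hAX i hi)).trans ?_).trans hcth
    refine (cthickening_cthickening_subset (by positivity) hβ.le _).trans_eq ?_
    congr 1; ring
  obtain ⟨h, h', Z, hh, hZ, hZs, hcon, hhO, hhA, hwire, hext⟩ := hT 𝓜.Q γ O ϱ 𝓜.nm 𝓜.M η hΩ hΛ cΩ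
    cΛ bΛ hβ hf hBV 𝓜.cvx 𝓜.carrier (fun e x y he hs => Mid.segVar_lt_top (hseg e x y he hs))
    (fun i => ⟨(hO i).1, (hO i).2.1, (hO i).2.2.1, (hO i).2.2.2.1, fun ⟨j, hj, y, hy⟩ =>
      (hO i).2.2.2.2.2 ⟨y, hth j hj hy.1, hy.2⟩⟩) hLF hcth' 𝓜.chart fun i => (hη i).1
  have hOut : Out 𝓜 (γ.G : Set 𝓜.Q.ι) F h p K₃ C (fun j => Cg (P.T j).b * τ j)
      fun i => (θ i : ℝ≥0∞) := by
    refine ⟨hF, fun j => ⟨mul_nonneg (by linarith [(hτ (P.T j).b).2.2]) (hτj j).1,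
      (hτj j).2.2.1⟩, fun i hi => ?_, fun e x y he hs μ A => ?_, fun i hi h2 => ?_⟩
    · obtain ⟨j, hj, hA⟩ := hγ1 i hi
      exact ⟨j, hj, fun x hx y hy => by rw [hhA i hi hx, hhA i hi hy]; exact hA x hx y hy⟩
    · rw [hs]
      exact hW (Mid.ends 𝓜.cvx he hs).1 hF (hseg e x y he hs) ((hη e).2.2 x y he hs)
        (fun u hu w hw => hwire e x y he hs u (hs ▸ hu) w (hs ▸ hw)) μ A
    · rw [← (hη i).2.1 h2]
      exact hext i hi h2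
  obtain ⟨k, k', Z', hk, hZ', hcon', hky, hbd⟩ := hD hOut hh hZ hZs hcon
    (ε := ε / 2) (pos_iff_ne_zero.2 hε2)
  refine ⟨k, k', Z', hk, hZ', hcon', fun x hx => ?_, hbd.trans ?_⟩
  · obtain ⟨y, hy, h1, h2⟩ := hky x hx
    obtain ⟨i, hi⟩ := 𝓜.Q.mem_carrier.1 (𝓜.carrier.ge hy)
    obtain ⟨l, hl, hil⟩ := TP.exists_top 𝓜.cvx (by rw [𝓜.carrier]; exact hΩ) i
    have h3 := (hO l).2.2.2.2.1 (h y) (hhO l hl ⟨y, hil hi, rfl⟩) (f y)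
      ((hO l).2.2.2.1 (self_subset_thickening (hO l).2.2.1 _ ⟨y, hil hi, rfl⟩))
    have h4 := hosc x hx y h1
    have h5 := dist_triangle (h y) (f y) (f x)
    rw [h2]
    linarith
  · rw [add_assoc]
    refine add_le_add (add_le_add le_rfl (Finset.sum_le_sum fun j _ => ?_)) ?_
    · refine add_le_add ?_ le_rfl
      have hb := Mid.bad_le hP hc j (hτ (P.T j).b).2.1
        (I₂ := P.endI j ((P.T j).b * P.m j * d / P.η) fun x => ‖F x‖ₑ)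
        (hce.fine_lam j (fun x => ‖F x - (P.T j).A‖ₑ) (hF.sub measurable_const).enorm)
      have hCg : (1 : ℝ≥0∞) ≤ ENNReal.ofReal (Cg (P.T j).b) :=
        ENNReal.one_le_ofReal.2 (hτ _).2.2
      have h1 : P.vol j * (P.n : ℝ≥0∞)⁻¹ ^ (P.T j).r *
          ({i | 𝓜.Q.cell i ⊆ P.Fine j ∧ i ∉ (γ.G : Set 𝓜.Q.ι)}.encard : ℝ≥0∞) ≤
          ENNReal.ofReal (Cg (P.T j).b) * _ :=
        ((mul_le_mul_right (hγ2 j) _).trans_eq (mul_left_comm _ _ _)).trans (mul_le_mul_right hb _)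
      simp only [ENNReal.coe_mul, ENNReal.coe_add]
      change _ ≤ c₁ (P.T j).b * ENNReal.ofReal (Cg (P.T j).b) * _ +
        (_ + c₁ (P.T j).b * ENNReal.ofReal (Cg (P.T j).b) * ENNReal.ofReal _) * _
      generalize ENNReal.ofReal (Cg (P.T j).b) = g at h1 hCg ⊢
      generalize ENNReal.ofReal (6 * ((P.T j).b : ℝ) ^ 3 * (1 + P.m j / τ' (P.T j).b + P.m j)) = s
        at h1 ⊢
      generalize ENNReal.ofReal P.η ^ 3 * (P.n : ℝ≥0∞)⁻¹ ^ (P.T j).r * P.vert j = a₁ at h1 ⊢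
      generalize ENNReal.ofReal P.η ^ 2 * P.lam j (P.U j) (fun x => ‖F x - (P.T j).A‖ₑ) = a₂
        at h1 ⊢
      generalize ENNReal.ofReal P.η ^ 2 *
        P.endI j ((P.T j).b * P.m j * d / P.η) (fun x => ‖F x‖ₑ) = a₃ at h1 ⊢
      generalize ENNReal.ofReal P.η ^ 2 * P.lam j (P.U j) (fun x => ‖F x - (P.T j).A‖ₑ ^ p) = a₄
      generalize volume (P.U j \ P.K j) = a₅
      generalize ∫⁻ x in P.U j, ‖F x - (P.T j).A‖ₑ ^ p = a₆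
      generalize (P.m j : ℝ≥0∞)⁻¹ + ENNReal.ofReal (Cg (P.T j).b * τ j) ^ p = u
      generalize volume (P.U j) = V at h1 ⊢
      generalize (c₁ (P.T j).b : ℝ≥0∞) = e₁
      generalize (c₂ (P.T j).b (P.m j) : ℝ≥0∞) = e₂
      calc _ ≤ e₁ * (g * (u * V) + g * ((P.n : ℝ≥0∞)⁻¹ * V + s * (a₁ + a₂ + a₃))) +
            e₂ * (a₄ + a₅ + a₆) := by
            exact add_le_add (mul_le_mul_right (add_le_add (le_mul_of_one_le_left' hCg) h1) _)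
              le_rfl
        _ ≤ e₁ * (g * (u * V) + g * ((P.n : ℝ≥0∞)⁻¹ * V + s * (a₁ + a₂ + a₃))) +
            e₂ * (a₄ + a₅ + a₆) + (e₂ * (a₁ + a₂ + a₃) + e₁ * g * s * (a₄ + a₅ + a₆)) := le_self_add
        _ = _ := by ring
    · refine (add_le_add_left ?_ _).trans_eq (ENNReal.add_halves ε)
      exact (mul_le_mul_right hθs.le _).trans ENNReal.mul_div_le

end P073
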