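import Vale.Agent.P073Z.ACC.Sk
import Vale.Agent.P073Z.AVG
import Vale.Agent.P073Z.RCX2
import Vale.Agent.P073Z.MAN
import Vale.Agent.P073Z.TOPO.Cov

/-!
# Tools for the accounting
-/

open Set Metric Topology Filter MeasureTheory
open scoped ENNReal NNReal

namespace P073

namespace AT

theorem segVar_le {f : E3 → E3} {F : E3 → (E3 →L[ℝ] E3)} {x y : E3} (hF : Measurable F)
    (hg : Vale.Agent.P073.HB.GoodSeg f F x (y - x)) (A : E3 →L[ℝ] E3) :
    segVar f x y ≤ (∫⁻ z in segment ℝ x y, ‖F z - A‖ₑ ∂(μH[1])) + ‖A (y - x)‖ₑ := by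
  have e : ∀ t : ℝ, AffineMap.lineMap x y t = x + t • (y - x) := fun t => by
    simp only [AffineMap.lineMap_apply, vsub_eq_sub, vadd_eq_add, add_comm]
  have h0 : segVar f x y ≤ ∫⁻ t in Ioc (0:ℝ) 1, ‖F (x + t • (y - x)) (y - x)‖ₑ := by
    have := GB.var_le_of_good hg
    simpa only [segVar, e] using this
  refine h0.trans ?_
  rw [AV.lintegral_segment x y (hF.sub_const A).enorm,
    ← lintegral_const_mul' _ _ (edist_ne_top x y)]
  refine (lintegral_mono (g := fun t => edist x y * ‖F (x + t • (y - x)) - A‖ₑ + ‖A (y - x)‖ₑ)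
    fun t => ?_).trans (le_of_eq ?_)
  · have h1 : F (x + t • (y - x)) (y - x) = (F (x + t • (y - x)) - A) (y - x) + A (y - x) := by
      simp
    show ‖F (x + t • (y - x)) (y - x)‖ₑ ≤ _
    rw [h1]
    refine (enorm_add_le _ _).trans (add_le_add ?_ le_rfl)
    rw [edist_comm, edist_eq_enorm_sub, mul_comm]
    exact ContinuousLinearMap.le_opENorm _ _
  · rw [lintegral_add_right _ measurable_const, setLIntegral_const, Real.volume_Ioc, sub_zero,
      ENNReal.ofReal_one, mul_one]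

theorem image_seg (μ : E3 ≃ᴬ[ℝ] E3) (x y : E3) :
    μ '' segment ℝ x y = segment ℝ (μ x) (μ y) :=
  image_segment ℝ μ.toAffineEquiv.toAffineMap x y

theorem edist_line (x y : E3) (s t : ℝ) :
    edist (AffineMap.lineMap x y s) (AffineMap.lineMap x y t) = edist s t * edist x y := by
  rw [edist_nndist, nndist_lineMap_lineMap, ENNReal.coe_mul, ← edist_nndist, ← edist_nndist]

/-- the energy on a segment from a two point bound -/
theorem en_seg {p : ℝ} (hp : 0 < p) {h : E3 → E3} {x y : E3} {V : ℝ≥0∞} (hxy : x ≠ y)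
    (H : ∀ u ∈ segment ℝ x y, ∀ w ∈ segment ℝ x y, edist (h u) (h w) * edist x y ≤ V * edist u w)
    (μ : E3 ≃ᴬ[ℝ] E3) :
    En 1 p (h ∘ μ.symm) (μ '' segment ℝ x y) ≤ V ^ p * edist (μ x) (μ y) ^ (1 - p) := by
  have h0 : edist x y ≠ 0 := by simpa using hxy
  have h0' : edist (μ x) (μ y) ≠ 0 := by simpa using hxy
  have hm : MeasurableSet (μ '' segment ℝ x y) := by
    rw [image_seg]
    exact (isClosed_segment' _ _).measurableSet
  have key : ∀ ξ ∈ μ '' segment ℝ x y,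
      lipAt (h ∘ μ.symm) (μ '' segment ℝ x y) ξ ≤ V / edist (μ x) (μ y) := by
    rintro _ ⟨w, hw, rfl⟩
    refine Cone.lipAt_le (eventually_nhdsWithin_of_forall ?_)
    rintro _ ⟨u, hu, rfl⟩
    have h1 := H u hu w hw
    rw [segment_eq_image_lineMap] at hu hw
    obtain ⟨s, -, rfl⟩ := hu
    obtain ⟨t, -, rfl⟩ := hw
    have e : ∀ s : ℝ, μ (AffineMap.lineMap x y s) = AffineMap.lineMap (μ x) (μ y) s := fun s =>
      μ.toAffineEquiv.toAffineMap.apply_lineMap x y s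
    simp only [Function.comp, ContinuousAffineEquiv.symm_apply_apply]
    rw [edist_line, ← mul_assoc] at h1
    rw [e, e, edist_line, mul_comm (edist s t), ← mul_assoc,
      ENNReal.div_mul_cancel h0' (edist_ne_top _ _)]
    exact (ENNReal.mul_le_mul_iff_left h0 (edist_ne_top _ _)).1 h1
  unfold En
  calc ∫⁻ ξ in μ '' segment ℝ x y, lipAt (h ∘ μ.symm) (μ '' segment ℝ x y) ξ ^ p
        ∂(μH[((1:ℕ) : ℝ)])
      ≤ ∫⁻ _ in μ '' segment ℝ x y, (V / edist (μ x) (μ y)) ^ p ∂(μH[((1:ℕ) : ℝ)]) :=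
        setLIntegral_mono' hm fun ξ hξ => ENNReal.rpow_le_rpow (key ξ hξ) hp.le
    _ = _ := by
        rw [setLIntegral_const, Nat.cast_one, image_seg, hausdorffMeasure_segment,
          ENNReal.div_rpow_of_nonneg _ _ hp.le, ENNReal.rpow_sub _ _ h0' (edist_ne_top _ _),
          ENNReal.rpow_one, div_eq_mul_inv, div_eq_mul_inv]
        ring

theorem lipAt_add {H G : E3 → E3} {X : Set E3} {c : ℝ≥0∞} (x : E3)
    (hG : ∀ u, edist (G u) (G x) ≤ c * edist u x) :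
    lipAt (fun ξ => H ξ + G ξ) X x ≤ lipAt H X x + c := by
  have := Cone.le_of_forall_gt_aff (a := lipAt (fun ξ => H ξ + G ξ) X x) (l := lipAt H X x)
    (K := 1) (e := c) one_ne_zero ENNReal.one_ne_top fun d hd => by
    refine Cone.lipAt_le ?_
    filter_upwards [Cone.ev_of_lipAt_lt hd] with u hu
    refine (edist_add_add_le _ _ _ _).trans ?_
    rw [one_mul, add_mul]
    exact add_le_add hu (hG u)
  rwa [one_mul] at this

theorem en_add (k : ℕ) {p : ℝ} (H : E3 → E3) (B : E3 →L[ℝ] E3) (X : Set E3) (hp : 1 ≤ p) :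
    En k p (fun ξ => H ξ + B ξ) X ≤ 2 ^ p * (En k p H X + ‖B‖ₑ ^ p * μH[(k : ℝ)] X) := by
  unfold En
  rw [← setLIntegral_const, ← lintegral_add_right _ measurable_const,
    ← lintegral_const_mul' _ _ (ENNReal.rpow_ne_top_of_nonneg (by linarith) ENNReal.ofNat_ne_top)]
  refine lintegral_mono fun x => ?_
  have h1 := lipAt_add (H := H) (G := fun ξ => B ξ) (X := X) (c := ‖B‖ₑ) x fun u => by
    rw [edist_eq_enorm_sub, edist_eq_enorm_sub, ← map_sub]
    exact ContinuousLinearMap.le_opENorm _ _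
  refine (ENNReal.rpow_le_rpow h1 (by linarith)).trans
    ((ENNReal.rpow_add_le_mul_rpow_add_rpow _ _ hp).trans (mul_le_mul_left ?_ _))
  exact ENNReal.rpow_le_rpow_of_exponent_le one_le_two (by linarith)

theorem sum_le_tsum_ind {ι : Type} (s : Finset ι) {S : Set ι} (a : ι → ℝ≥0∞)
    (h : ∀ j ∈ s, j ∈ S) : ∑ j ∈ s, a j ≤ ∑' j, S.indicator a j :=
  le_trans (le_of_eq (Finset.sum_congr rfl fun j hj => (indicator_of_mem (h j hj) a).symm))
    (ENNReal.sum_le_tsum s)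

theorem ena1 (K : RCx E3) (μ : E3 ≃ᴬ[ℝ] E3) (k : ℕ) {p : ℝ} (H : E3 → E3) {X : Set E3}
    (hp : 0 < p) (hX : K.Sub X) (hc : IsCompact X) (hd : ∀ j, K.cell j ⊆ X → K.dim j ≤ k) :
    En k p H (μ '' X) ≤
      ∑' j, {j | K.cell j ⊆ X ∧ K.dim j = k}.indicator (fun j => En k p H (μ '' K.cell j)) j := by
  have hfin : {j | K.cell j ⊆ X ∧ K.dim j = k}.Finite :=
    (K.finite_subset hc hX.subset_carrier).subset fun _ hj => hj.1
  let ψ := ConHomeo.ofAffine μ (X := univ) (IsOpen.conicalSet isOpen_univ)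
  have hi : ∀ j, (K.image ψ (subset_univ _)).cell j ⊆ μ '' X ↔ K.cell j ⊆ X := fun j =>
    K.image_subset_iff ψ (subset_univ _) (subset_univ X)
  have := enu (K.image ψ (subset_univ _)) k H hfin.toFinset (X := μ '' X) hp
    (hX.image ψ (subset_univ _)) (hc.image μ.continuous) (fun j hj => hd j ((hi j).1 hj))
    (fun j => hfin.mem_toFinset.trans (and_congr (hi j).symm Iff.rfl))
  exact this.trans (sum_le_tsum_ind hfin.toFinset (fun j => En k p H (μ '' K.cell j))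
    fun j hj => hfin.mem_toFinset.1 hj)

theorem ena3 (K : RCx E3) (s : Set K.ι) (g : E3 → ℝ≥0∞) {X : Set E3}
    (h : ∀ e ∈ s, K.dim e = 1 ∧ K.cell e ⊆ X) :
    ∑' e, s.indicator (fun e => ∫⁻ x in K.cell e, g x ∂(μH[1])) e ≤ ∫⁻ x in X, g x ∂(μH[1]) := by
  have := K.countable
  have hpt : ∀ a : E3, (μH[1] : Measure E3) {a} = 0 := fun a => by
    simpa using (conBall_zero a).hausdorff_zero (k := 1) one_pos
  have h1 : ∀ e : s, ∫⁻ x in K.cell e, g x ∂(μH[1]) = ∫⁻ x in K.ocell e, g x ∂(μH[1]) := by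
    intro e
    refine setLIntegral_congr (sdiff_ae_eq_self.2 ?_).symm
    obtain ⟨a, b, -, -, -, hb, -⟩ := K.exists_edge (h e e.2).1
    refine measure_mono_null inter_subset_right ?_
    rw [hb, insert_eq]
    exact measure_union_null (hpt a) (hpt b)
  rw [← tsum_subtype s fun e => ∫⁻ x in K.cell e, g x ∂(μH[1])]
  simp only [h1]
  rw [← lintegral_iUnion (s := fun e : s => K.ocell e)
    (fun e => (K.isClosed_cell e).measurableSet.diff (K.isClosed_bd e).measurableSet)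
    (fun e e' hne => K.disj _ _ fun h' => hne (Subtype.ext h'))]
  exact lintegral_mono_set (iUnion_subset fun e => (K.ocell_subset _).trans (h e e.2).2)

theorem volume_skel (K : RCx E3) : volume (K.skel 2) = 0 := by
  have := K.countable
  have e : (μH[((3:ℕ) : ℝ)] : Measure E3) = volume := by
    simpa using hausdorffMeasure_pi_real (ι := Fin 3)
  rw [← e]
  exact measure_iUnion_null fun i => measure_iUnion_null fun hi =>
    (K.ball i).hausdorff_zero (Nat.lt_succ_of_le hi)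

theorem ena4 (K : RCx E3) (s : Set K.ι) (h : E3 → E3) {p : ℝ} {X : Set E3} (hp : 0 < p)
    (hK : K.Cvx) (hX : X ⊆ K.carrier)
    (hs : ∀ i, K.dim i = 3 → (K.ocell i ∩ X).Nonempty → i ∈ s) :
    ∫⁻ x in X, ‖fderiv ℝ h x‖ₑ ^ p ≤ ∑' i, s.indicator (fun i => En 3 p h (K.cell i)) i := by
  have := K.countable
  rw [← tsum_subtype s fun i => En 3 p h (K.cell i)]
  refine le_trans (lintegral_mono_set' (t := ⋃ i : s, interior (K.cell i)) ?_)
    ((lintegral_iUnion_le _ _).trans (ENNReal.tsum_le_tsum fun i => (end_thm hp).2))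
  filter_upwards [measure_eq_zero_iff_ae_notMem.1 (volume_skel K)] with x hx hxX
  obtain ⟨i, hi⟩ := K.exists_ocell (hX hxX)
  have h3 : K.dim i = 3 := by
    have h1 := TP.dim_le_three hK i
    have h2 : ¬ K.dim i ≤ 2 := fun h' => hx ((K.mem_skel_iff_dim hi).2 h')
    omega
  refine mem_iUnion.2 ⟨⟨i, hs i h3 ⟨x, hi, hxX⟩⟩, ?_⟩
  rw [← self_sdiff_frontier, ← TP.bd_eq_frontier hK h3]
  exact hi

theorem ena5 (K : RCx E3) (i e : K.ι) (hi : K.dim i = 3) (he : K.dim e = 1) :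
    {φ | K.dim φ = 2 ∧ K.cell e ⊆ K.cell φ ∧ K.cell φ ⊆ K.cell i}.encard ≤ 2 := by
  by_cases h : K.cell e ⊆ K.cell i
  · have hb : ConBall (2 + 1) (K.cell i) (K.bd i) := by
      have := K.ball i
      rwa [hi] at this
    obtain ⟨j₁, j₂, hne, hj⟩ := (man K (n := 1) (K.sub_bd i) hb.conSphere.plMan).2.2.2.1 e
      (K.subset_bd_of_dim_lt h (by omega)) he
    rw [← encard_pair hne]
    refine encard_le_encard fun φ hφ => (hj φ).1 ⟨hφ.2.1, ?_, hφ.1⟩
    exact K.subset_bd_of_dim_lt hφ.2.2 (by rw [hφ.1, hi]; norm_num)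
  · rw [eq_empty_of_forall_notMem (s := {φ | K.dim φ = 2 ∧ K.cell e ⊆ K.cell φ ∧
      K.cell φ ⊆ K.cell i}) fun φ hφ => h (hφ.2.1.trans hφ.2.2)]
    simp

theorem ena6 (z : Fin 3 → ℤ) (J : Finset (Fin 3)) :
    μH[((3 - J.card : ℕ) : ℝ)] (uface z J) ≤ 1 := by
  classical
  let ι : ({i : Fin 3 // i ∉ J} → ℝ) → E3 := fun u i => if h : i ∈ J then z i else u ⟨i, h⟩
  have hι : LipschitzWith 1 ι := by
    refine LipschitzWith.of_dist_le_mul fun u v => ?_
    rw [NNReal.coe_one, one_mul, dist_pi_le_iff dist_nonneg]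
    intro i
    by_cases h : i ∈ J
    · simp [ι, h]
    · simp only [ι, dif_neg h]
      exact dist_le_pi_dist u v _
  have hsub : uface z J ⊆ ι '' Icc (fun i => (z i.1 : ℝ)) (fun i => (z i.1 : ℝ) + 1) := by
    intro ξ hξ
    refine ⟨fun i => ξ i.1, ⟨fun i => hξ.1.1 i.1, fun i => hξ.1.2 i.1⟩, ?_⟩
    funext i
    by_cases h : i ∈ J
    · simp only [ι, dif_pos h]
      exact (hξ.2 i h).symm
    · simp only [ι, dif_neg h]
  have hc : Fintype.card {i : Fin 3 // i ∉ J} = 3 - J.card := by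
    rw [Fintype.card_subtype_compl, Fintype.card_fin, Fintype.card_coe]
  refine (measure_mono hsub).trans
    ((hι.hausdorffMeasure_image_le (Nat.cast_nonneg _) _).trans (le_of_eq ?_))
  rw [← hc, hausdorffMeasure_pi_real, Real.volume_Icc_pi]
  simp

end AT

theorem wire : WIRE := by
  intro p hp K₂
  refine ⟨(2 * K₂ + 1) ^ p, ?_⟩
  intro f h F x y η θ hxy hF hg hη H μ A
  have hp0 : 0 < p := by linarith
  refine (AT.en_seg hp0 hxy H μ).trans ?_
  set W := ‖A (y - x)‖ₑ ^ p + edist x y ^ (p - 1) *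
    ((∫⁻ z in segment ℝ x y, ‖F z - A‖ₑ ^ p ∂(μH[1])) + θ) with hW
  have key : ∀ a : ℝ≥0∞, a ^ p ≤ W → a ≤ W ^ p⁻¹ := fun a ha =>
    (ENNReal.le_rpow_inv_iff hp0).2 ha
  have h1 : ‖A (y - x)‖ₑ ≤ W ^ p⁻¹ := key _ le_self_add
  have h2 : ∫⁻ z in segment ℝ x y, ‖F z - A‖ₑ ∂(μH[1]) ≤ W ^ p⁻¹ :=
    key _ ((segv A hp hxy hF hg).2.2.2.2.trans
      (le_add_left (mul_le_mul_right le_self_add _)))
  have h3 : η ≤ W ^ p⁻¹ := key _ (hη.trans (le_add_left (mul_le_mul_right le_add_self _)))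
  have h4 : K₂ * segVar f x y + η ≤ ((2 * K₂ + 1 : ℝ≥0) : ℝ≥0∞) * W ^ p⁻¹ := by
    calc K₂ * segVar f x y + η ≤ K₂ * (W ^ p⁻¹ + W ^ p⁻¹) + W ^ p⁻¹ :=
          add_le_add (mul_le_mul_right ((AT.segVar_le hF hg A).trans (add_le_add h2 h1)) _) h3
      _ = _ := by
          push_cast
          ring
  have h5 := ENNReal.rpow_le_rpow h4 hp0.le
  rw [ENNReal.mul_rpow_of_nonneg _ _ hp0.le, ENNReal.rpow_inv_rpow hp0.ne',
    ← ENNReal.coe_rpow_of_nonneg _ hp0.le] at h5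
  rw [mul_right_comm]
  exact mul_le_mul_left h5 _

theorem scale : SCALE := by
  intro p d X Y h μ ν K L c θ hp hX hY hK hL H
  have key : ∀ (k : ℕ) (μ ν : E3 ≃ᴬ[ℝ] E3) {K L : ℝ≥0} {Z : Set E3}, IsCompact Z →
      LipschitzWith K (ν ∘ μ.symm) → LipschitzWith L (μ ∘ ν.symm) →
      En k p (h ∘ μ.symm) (μ '' Z) ≤
        (K : ℝ≥0∞) ^ p * (L : ℝ≥0∞) ^ k * En k p (h ∘ ν.symm) (ν '' Z) := by
    intro k μ ν K L Z hZ hK hL
    have e : h ∘ μ.symm = (h ∘ ν.symm) ∘ (ν ∘ μ.symm) := by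
      funext x
      simp
    rw [e]
    refine EN.en_comp_le hp (ψ := μ ∘ ν.symm) (hZ.image ν.continuous).measurableSet ?_ ?_
      (fun x _ => by simp) (fun x _ => by simp) hK.lipschitzOnWith hL.lipschitzOnWith
    · rintro _ ⟨x, hx, rfl⟩
      exact ⟨x, hx, by simp⟩
    · rintro _ ⟨x, hx, rfl⟩
      exact ⟨x, hx, by simp⟩
  refine (key _ μ ν hX hK hL).trans ?_
  refine (mul_le_mul_right (H.trans (add_le_add
    (mul_le_mul_right (key d ν μ hY hL hK) c) le_rfl)) _).trans (le_of_eq ?_)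
  rw [ENNReal.mul_rpow_of_nonneg _ _ hp.le]
  ring

theorem ena : ENA := by
  refine ⟨fun K μ k _ H _ hp hX hc hd => AT.ena1 K μ k H hp hX hc hd, ?_,
    fun K s g _ h => AT.ena3 K s g h, fun K s h _ _ hp hK hX hs => AT.ena4 K s h hp hK hX hs,
    AT.ena5, AT.ena6⟩
  intro k p H B X hp _
  constructor
  · have := AT.en_add k H (-B) X hp
    rw [← ofReal_norm, norm_neg, ofReal_norm] at this
    simpa only [neg_apply, ← sub_eq_add_neg] using this
  · have := AT.en_add k (fun ξ => H ξ - B ξ) B X hp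
    simpa only [sub_add_cancel] using this

theorem chain : CHAIN := by
  classical
  intro K i p h g θ c₁ c₂ c₃ D hp hi h3 h2 h1
  set G := ∑' e, {e | K.dim e = 1 ∧ K.cell e ⊆ K.cell i}.indicator
    (fun e => ∫⁻ x in K.cell e, g x ∂(μH[1])) e with hG
  set T := ∑' j, {j | K.cell j ⊆ K.cell i}.indicator θ j with hT
  set S := (K.finite_faces i).toFinset with hS
  have hmem : ∀ j, j ∈ S ↔ K.cell j ⊆ K.cell i := fun j => (K.finite_faces i).mem_toFinset
  set S₂ := S.filter fun j => K.dim j = 2 with hS₂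
  set S₁ := S.filter fun j => K.dim j = 1 with hS₁
  have m₂ : ∀ j, j ∈ S₂ ↔ K.cell j ⊆ K.cell i ∧ K.dim j = 2 := fun j => by
    rw [hS₂, Finset.mem_filter, hmem]
  have m₁ : ∀ j, j ∈ S₁ ↔ K.cell j ⊆ K.cell i ∧ K.dim j = 1 := fun j => by
    rw [hS₁, Finset.mem_filter, hmem]
  have hθ : ∀ s : Finset K.ι, (∀ j ∈ s, K.cell j ⊆ K.cell i) → ∑ j ∈ s, θ j ≤ T :=
    fun s hs => AT.sum_le_tsum_ind s θ hs
  have a1 : ∑ e ∈ S₁, En 1 p h (K.cell e) ≤ c₁ * (G + T) := by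
    refine (Finset.sum_le_sum fun e he => h1 e ((m₁ e).1 he).2 ((m₁ e).1 he).1).trans ?_
    rw [← Finset.mul_sum, Finset.sum_add_distrib]
    exact mul_le_mul_right (add_le_add (AT.sum_le_tsum_ind S₁ _ fun e he => ((m₁ e).1 he).symm)
      (hθ _ fun e he => ((m₁ e).1 he).1)) _
  have a2 : ∑ φ ∈ S₂, En 1 p h (K.bd φ) ≤ 2 * ∑ e ∈ S₁, En 1 p h (K.cell e) := by
    calc ∑ φ ∈ S₂, En 1 p h (K.bd φ)
        ≤ ∑ φ ∈ S₂, ∑ e ∈ S₁.filter (fun e => K.cell e ⊆ K.cell φ), En 1 p h (K.cell e) := by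
          refine Finset.sum_le_sum fun φ hφ => enc K 1 h _ φ hp ((m₂ φ).1 hφ).2 fun e => ?_
          rw [Finset.mem_filter, m₁]
          exact ⟨fun he => ⟨K.subset_bd_of_dim_lt he.2 (by rw [he.1.2, ((m₂ φ).1 hφ).2]; norm_num),
            he.1.2⟩, fun he => ⟨⟨(he.1.trans (K.bd_subset φ)).trans ((m₂ φ).1 hφ).1, he.2⟩,
            he.1.trans (K.bd_subset φ)⟩⟩
      _ = ∑ e ∈ S₁, ∑ _ ∈ S₂.filter (fun φ => K.cell e ⊆ K.cell φ), En 1 p h (K.cell e) := by
          simp only [Finset.sum_filter]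
          exact Finset.sum_comm
      _ ≤ _ := by
          rw [Finset.mul_sum]
          refine Finset.sum_le_sum fun e he => ?_
          rw [Finset.sum_const, nsmul_eq_mul]
          refine mul_le_mul_left ?_ _
          have h5 := (encard_le_encard (s := ((S₂.filter fun φ => K.cell e ⊆ K.cell φ : Finset K.ι) :
            Set K.ι)) fun φ hφ => ?_).trans (AT.ena5 K i e hi ((m₁ e).1 he).2)
          · rw [encard_coe_eq_coe_finsetCard] at h5
            exact_mod_cast h5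
          · have h6 := Finset.mem_filter.1 (Finset.mem_coe.1 hφ)
            exact ⟨((m₂ φ).1 h6.1).2, h6.2, ((m₂ φ).1 h6.1).1⟩
  have a3 : En 2 p h (K.bd i) ≤ c₂ * (2 * (c₁ * (G + T))) + D * T := by
    refine (enc K 2 h S₂ i hp hi fun φ => ?_).trans ?_
    · rw [m₂]
      exact ⟨fun hφ => ⟨K.subset_bd_of_dim_lt hφ.1 (by rw [hφ.2, hi]; norm_num), hφ.2⟩,
        fun hφ => ⟨hφ.1.trans (K.bd_subset i), hφ.2⟩⟩
    · refine (Finset.sum_le_sum fun φ hφ => h2 φ ((m₂ φ).1 hφ).2 ((m₂ φ).1 hφ).1).trans ?_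
      rw [Finset.sum_add_distrib, ← Finset.mul_sum, ← Finset.mul_sum]
      exact add_le_add (mul_le_mul_right (a2.trans (mul_le_mul_right a1 _)) _)
        (mul_le_mul_right (hθ _ fun φ hφ => ((m₂ φ).1 hφ).1) _)
  have a4 : θ i ≤ T := by
    simpa using hθ {i} fun j hj => by rw [Finset.mem_singleton.1 hj]
  refine h3.trans ((add_le_add (mul_le_mul_right a3 _) (mul_le_mul_right a4 _)).trans
    (le_of_eq ?_))
  ring

end P073
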