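import Vale.Agent.P073Z.ACC.Cube.Lin
import Vale.Agent.P073Z.ACC.Cube.Vol

/-!
# AC-2: the facts about the parameters
-/

namespace P073

open Cube in
theorem cube_thm : CUBE := fun _ _ hO =>
  { eta_pos := eta_pos
    eta_le := eta_le
    a_pos := a_pos hO
    nu_lam := nu_lam hO
    lam_nu := lam_nu hO
    lam_le := lam_le hO
    lam_flat := lam_flat hO
    lam_ge := lam_ge hO
    lam_dgs := lam_dgs hO
    B_le := B_le hO
    B_ker := B_ker
    card_I := card_I
    vol_cube := vol_cube (nu_lam hO) (lam_nu hO)
    vol_le := vol_le eta_pos.le (lam_le hO)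
    vol_map := vol_map (nu_lam hO) (lam_nu hO)
    compact_box := compact_box hO
    compact_cube := compact_cube hO
    inner_fin := inner_fin hO
    buf_fin := buf_fin hO
    inner_buf := inner_buf
    thick_buf := thick_buf hO
    cthick_buf := cthick_buf hO
    thick_U := thick_U hO
    fine_buf := fine_buf
    buf_U := buf_U hO
    U_sub := U_sub hO
    K_U := K_U
    U_disj := U_disj hO
    K_inner := K_inner
    K_disj := K_disj
    inner_int := inner_int hO
    count_inner := count_inner (nu_lam hO) (lam_nu hO) inner_buf (buf_U hO)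
    count_buf := count_buf (nu_lam hO) (lam_nu hO) (buf_U hO) K_disj
    sum_lam := sum_lam (buf_U hO)
    sum_U := sum_U (U_sub hO) (U_disj hO) }

end P073
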