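import Vale.Agent.P073Z.RCX

/-!
# General tools for the accounting
-/

open Set Metric Topology Filter MeasureTheory
open scoped ENNReal NNReal

namespace P073

namespace ACC

/-- tolerances which are summable against given finite weights -/
theorem exists_tol {ι : Type} [Countable ι] (W : ι → ℝ≥0∞) (hW : ∀ i, W i ≠ ⊤) {ε : ℝ≥0∞}
    (hε : ε ≠ 0) : ∃ η : ι → ℝ≥0∞, (∀ i, 0 < η i ∧ η i ≤ 1) ∧ ∑' i, W i * η i ≤ ε := by
  obtain ⟨e, he, hs⟩ := ENNReal.exists_pos_sum_of_countable hε ι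
  refine ⟨fun i => min 1 (e i / (W i + 1)), fun i => ⟨lt_min one_pos
    (ENNReal.div_pos (by exact_mod_cast (he i).ne') (ENNReal.add_ne_top.2 ⟨hW i, by simp⟩)),
    min_le_left _ _⟩, le_trans (ENNReal.tsum_le_tsum fun i => ?_) hs.le⟩
  calc W i * min 1 (e i / (W i + 1)) ≤ (W i + 1) * (e i / (W i + 1)) :=
        mul_le_mul' le_self_add (min_le_right _ _)
    _ ≤ e i := ENNReal.mul_div_le

/-- a bijection which is the identity off `S` preserves `S` -/
theorem mapsTo_of_id {α : Type} {g : α → α} {S : Set α} (hi : Function.Injective g)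
    (h : ∀ x, x ∉ S → g x = x) : MapsTo g S S := fun x hx => by
  by_contra hn
  exact hn ((hi (h _ hn)).symm ▸ hx)

/-- composition of finitely many maps with disjoint supports -/
theorem patch {ι : Type} (s : Finset ι) (Θ : ι → ConHomeo (univ : Set E3) (univ : Set E3))
    (S : ι → Set E3) (hS : ∀ i ∈ s, ∀ j ∈ s, i ≠ j → Disjoint (S i) (S j))
    (hΘ : ∀ i ∈ s, ∀ x, x ∉ S i → (Θ i).toFun x = x) :
    ∃ Ψ : ConHomeo (univ : Set E3) (univ : Set E3), (∀ i ∈ s, EqOn Ψ.toFun (Θ i).toFun (S i)) ∧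
      ∀ x, (∀ i ∈ s, x ∉ S i) → Ψ.toFun x = x := by
  classical
  induction s using Finset.induction_on with
  | empty =>
    exact ⟨ConHomeo.refl (IsOpen.conicalSet isOpen_univ), by simp,
      fun _ _ => rfl⟩
  | insert j s hj ih =>
    obtain ⟨Ψ, h1, h2⟩ := ih
      (fun i hi k hk => hS i (Finset.mem_insert_of_mem hi) k (Finset.mem_insert_of_mem hk))
      (fun i hi => hΘ i (Finset.mem_insert_of_mem hi))
    have hjs := Finset.mem_insert_self j s
    refine ⟨Ψ.trans (Θ j), fun i hi x hx => ?_, fun x hx => ?_⟩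
    · show (Θ j).toFun (Ψ.toFun x) = _
      rcases Finset.mem_insert.1 hi with rfl | hi'
      · rw [h2 x fun k hk hxk => disjoint_left.1
          (hS i hjs k (Finset.mem_insert_of_mem hk) fun h => hj (h ▸ hk)) hx hxk]
      · rw [h1 i hi' hx]
        refine hΘ j hjs _ fun hm => disjoint_left.1 (hS i hi j hjs fun h => hj (h ▸ hi')) ?_ hm
        exact mapsTo_of_id (injOn_univ.1 (Θ i).injOn) (hΘ i hi) hx
    · show (Θ j).toFun (Ψ.toFun x) = _
      rw [h2 x fun k hk => hx k (Finset.mem_insert_of_mem hk), hΘ j hjs x (hx j hjs)]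

/-- a Borel version of the weak derivative which vanishes off the domain -/
theorem exists_borel {Ω : Set E3} {f : E3 → E3} {F : E3 → (E3 →L[ℝ] E3)} {p : ℝ}
    (hΩ : IsOpen Ω) (hb : Bornology.IsBounded Ω) (hp : 1 ≤ p)
    (hF : AEStronglyMeasurable F (volume.restrict Ω)) (hi : ∫⁻ x in Ω, ‖F x‖ₑ ^ p < ⊤)
    (hw : Vale.Agent.P073.HB.WeakDeriv volume Ω f F) :
    ∃ G : E3 → (E3 →L[ℝ] E3), Measurable G ∧ (∀ x, x ∉ Ω → G x = 0) ∧
      G =ᵐ[volume.restrict Ω] F ∧ Integrable G volume ∧ ∫⁻ x, ‖G x‖ₑ ^ p < ⊤ ∧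
      Vale.Agent.P073.HB.WeakDeriv volume Ω f G := by
  have hp0 : 0 < p := lt_of_lt_of_le one_pos hp
  have hm := hΩ.measurableSet
  have he : Ω.indicator (hF.mk F) =ᵐ[volume.restrict Ω] F :=
    (indicator_ae_eq_restrict hm).trans hF.ae_eq_mk.symm
  have : IsFiniteMeasure (volume.restrict Ω : Measure E3) :=
    isFiniteMeasure_restrict.2 hb.measure_lt_top.ne
  have hLp : MemLp F (ENNReal.ofReal p) (volume.restrict Ω) := by
    refine ⟨hF, ?_⟩
    rw [eLpNorm_lt_top_iff_lintegral_rpow_enorm_lt_top (by simpa using hp0) ENNReal.ofReal_ne_top,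
      ENNReal.toReal_ofReal hp0.le]
    exact hi
  have hint : IntegrableOn F Ω := hLp.integrable (by simpa using hp)
  refine ⟨Ω.indicator (hF.mk F), hF.stronglyMeasurable_mk.measurable.indicator hm,
    fun x hx => indicator_of_notMem hx _, he, ?_, ?_, fun φ h1 h2 h3 v => ?_⟩
  · have h1 : IntegrableOn (hF.mk F) Ω := hint.congr hF.ae_eq_mk
    have h2 : IntegrableOn (fun x => ‖hF.mk F x‖) Ω := h1.norm
    refine (h2.integrable_indicator hm).mono'
      (hF.stronglyMeasurable_mk.indicator hm).aestronglyMeasurable (ae_of_all _ fun x => ?_)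
    by_cases hx : x ∈ Ω
    · rw [indicator_of_mem hx, indicator_of_mem hx]
    · rw [indicator_of_notMem hx, indicator_of_notMem hx, norm_zero]
  · have : ∀ x, ‖Ω.indicator (hF.mk F) x‖ₑ ^ p = Ω.indicator (fun x => ‖hF.mk F x‖ₑ ^ p) x := by
      intro x
      by_cases hx : x ∈ Ω
      · simp [indicator_of_mem hx]
      · rw [indicator_of_notMem hx, indicator_of_notMem hx,
          show ‖(0 : E3 →L[ℝ] E3)‖ₑ = 0 from by rw [← ofReal_norm, norm_zero, ENNReal.ofReal_zero],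
          ENNReal.zero_rpow_of_pos hp0]
    simp_rw [this]
    rw [lintegral_indicator hm]
    refine lt_of_eq_of_lt (lintegral_congr_ae ?_) hi
    filter_upwards [hF.ae_eq_mk] with x hx
    rw [hx]
  · rw [← hw φ h1 h2 h3 v]
    refine integral_congr_ae ?_
    filter_upwards [he] with x hx
    rw [hx]

/-- precomposition with a PL homeomorphism supported in the domain -/
theorem comp_theta {Ω Λ Z S : Set E3} {h h' : E3 → E3} (hΩ : IsOpen Ω) (hh : HomeoOn h h' Ω Λ)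
    (hZ : DiscreteIn Z Ω) (hc : ConicalOn h (Ω \ Z))
    (Ψ : ConHomeo (univ : Set E3) (univ : Set E3)) (hS : S ⊆ Ω)
    (hΨ : ∀ x, x ∉ S → Ψ.toFun x = x) :
    HomeoOn (h ∘ Ψ.toFun) (Ψ.invFun ∘ h') Ω Λ ∧ DiscreteIn (Ψ.toFun ⁻¹' Z) Ω ∧
      ConicalOn (h ∘ Ψ.toFun) (Ω \ Ψ.toFun ⁻¹' Z) ∧ MapsTo Ψ.toFun Ω Ω := by
  have hinj : Function.Injective Ψ.toFun := injOn_univ.1 Ψ.injOn
  have hl : ∀ x, Ψ.invFun (Ψ.toFun x) = x := fun x => Ψ.left_inv (mem_univ x)
  have hr : ∀ x, Ψ.toFun (Ψ.invFun x) = x := fun x => Ψ.right_inv (mem_univ x)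
  have m1 : MapsTo Ψ.toFun Ω Ω := mapsTo_of_id hinj fun x hx => hΨ x fun h => hx (hS h)
  have m2 : MapsTo Ψ.invFun Ω Ω := fun x hx => by
    by_contra hn
    have := hΨ _ fun h => hn (hS h)
    rw [hr] at this
    exact hn (this ▸ hx)
  have c1 : Continuous Ψ.toFun := continuousOn_univ.1 Ψ.cont
  have c2 : Continuous Ψ.invFun := continuousOn_univ.1 Ψ.cont_inv
  have hZo : IsOpen (Ω \ Z) := by
    rw [isOpen_iff_mem_nhds]
    intro x hx
    obtain ⟨U, hU, hfin⟩ := hZ.2 x hx.1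
    filter_upwards [hΩ.mem_nhds hx.1, hU,
      hfin.isClosed.isOpen_compl.mem_nhds (fun h => hx.2 h.1)] with y h1 h2 h3
    exact ⟨h1, fun h => h3 ⟨h, h2⟩⟩
  refine ⟨⟨hh.mapsTo.comp m1, m2.comp hh.mapsTo_inv, fun x hx => ?_, fun y hy => ?_,
    hh.cont.comp c1.continuousOn m1, c2.comp_continuousOn hh.cont_inv⟩, ⟨fun x hx => ?_,
    fun x hx => ?_⟩, ?_, m1⟩
  · simp only [Function.comp]
    rw [hh.left_inv (m1 hx), hl]
  · simp only [Function.comp]
    rw [hr, hh.right_inv hy]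
  · have := m2 (hZ.1 hx)
    rwa [hl] at this
  · obtain ⟨U, hU, hfin⟩ := hZ.2 _ (m1 hx)
    exact ⟨Ψ.toFun ⁻¹' U, c1.continuousAt hU, hfin.preimage (f := Ψ.toFun) hinj.injOn⟩
  · have ho : IsOpen (Ω \ Ψ.toFun ⁻¹' Z) := by
      have : Ω \ Ψ.toFun ⁻¹' Z = Ω ∩ Ψ.toFun ⁻¹' (Ω \ Z) := by
        ext x
        exact ⟨fun h => ⟨h.1, m1 h.1, h.2⟩, fun h => ⟨h.1, h.2.2⟩⟩
      rw [this]
      exact hΩ.inter (hZo.preimage c1)
    exact hc.comp (Ψ.conical.mono (IsOpen.conicalSet ho) (subset_univ _))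
      (fun x hx => ⟨m1 hx.1, hx.2⟩) c1.continuousOn

/-- Markov: the choice of the shift -/
theorem exists_shift {η : ℝ} (hη : 0 < η) {Φ : E3 → ℝ≥0∞} (hΦ : Measurable Φ) {δ : ℝ≥0∞}
    (hi : ∫⁻ w in closedBall (0 : E3) η, Φ w ≤ ENNReal.ofReal (η ^ 3) * δ) {p : E3 → Prop}
    (hp : ∀ᵐ w, p w) : ∃ w ∈ closedBall (0 : E3) η, p w ∧ Φ w ≤ δ := by
  have hv : volume (closedBall (0 : E3) η) = ENNReal.ofReal ((2 * η) ^ 3) := by
    rw [Real.volume_pi_closedBall _ hη.le]; simp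
  have h0 : volume (closedBall (0 : E3) η) ≠ 0 := by
    rw [hv]; exact (ENNReal.ofReal_pos.2 (by positivity)).ne'
  have ht : volume (closedBall (0 : E3) η) ≠ ⊤ := by rw [hv]; exact ENNReal.ofReal_ne_top
  have h1 := measure_le_setLAverage_pos h0 ht hΦ.aemeasurable
  rw [← measure_sdiff_null (ae_iff.1 hp)] at h1
  obtain ⟨w, ⟨hw, hw'⟩, hwp⟩ := nonempty_of_measure_ne_zero h1.ne'
  refine ⟨w, hw, not_not.1 hwp, hw'.trans ?_⟩
  rw [setLAverage_eq]
  refine ENNReal.div_le_of_le_mul' (hi.trans ?_)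
  rw [hv]
  gcongr
  linarith

end ACC

end P073
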