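import Vale.Agent.P073Z.ACC.Sk

/-!
# Calculus of means and the choice of the shift
-/

open Set Metric Topology Filter MeasureTheory
open scoped ENNReal NNReal

namespace P073

theorem Mean.add {η : ℝ} {Φ Ψ : E3 → ℝ≥0∞} {a b : ℝ≥0∞} (h : Mean η Φ a) (h' : Mean η Ψ b) :
    Mean η (fun w => Φ w + Ψ w) (a + b) :=
  ⟨h.1.add h'.1, by rw [lintegral_add_left h.1, add_mul]; exact add_le_add h.2 h'.2⟩

theorem Mean.const_mul {η : ℝ} {Φ : E3 → ℝ≥0∞} {a : ℝ≥0∞} (c : ℝ≥0∞) (h : Mean η Φ a) :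
    Mean η (fun w => c * Φ w) (c * a) :=
  ⟨h.1.const_mul c, by rw [lintegral_const_mul c h.1, mul_assoc]; exact mul_le_mul_right h.2 c⟩

theorem Mean.sum {η : ℝ} {ι : Type} (s : Finset ι) {Φ : ι → E3 → ℝ≥0∞} {a : ι → ℝ≥0∞}
    (h : ∀ j ∈ s, Mean η (Φ j) (a j)) : Mean η (fun w => ∑ j ∈ s, Φ j w) (∑ j ∈ s, a j) :=
  ⟨Finset.measurable_sum s fun j hj => (h j hj).1, by
    rw [lintegral_finsetSum s fun j hj => (h j hj).1, Finset.sum_mul]
    exact Finset.sum_le_sum fun j hj => (h j hj).2⟩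

theorem Mean.mono {η : ℝ} {Φ : E3 → ℝ≥0∞} {a b : ℝ≥0∞} (h : Mean η Φ a) (hab : a ≤ b) :
    Mean η Φ b := ⟨h.1, h.2.trans (mul_le_mul_left hab _)⟩

theorem mark : MARK := by
  refine ⟨fun h h' => h.add h', fun c h => h.const_mul c,
    fun h => Mean.sum _ fun j _ => h j, ?_⟩
  intro Ω f F η Φ a hΩ hf hF hw hη hΦ
  have hae := Vale.Agent.P073.HB.ae_goodSeg_countable (μ := volume) hΩ hf hF hw
    (ι := (Fin 3 → ℚ) × (Fin 3 → ℚ)) (fun q i => (q.1 i : ℝ)) (fun q i => (q.2 i : ℝ) - q.1 i)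
  have h0 : volume (closedBall (0 : E3) η) ≠ 0 := (measure_closedBall_pos _ _ hη).ne'
  have ht : volume (closedBall (0 : E3) η) ≠ ⊤ := measure_closedBall_lt_top.ne
  have h1 := measure_le_setLAverage_pos h0 ht hΦ.1.aemeasurable
  rw [← measure_sdiff_null (ae_iff.1 hae)] at h1
  obtain ⟨w, ⟨-, hw'⟩, hwp⟩ := nonempty_of_measure_ne_zero h1.ne'
  refine ⟨w, hw'.trans ?_, fun x y hxy hx hy => ?_⟩
  · rw [setLAverage_eq]
    exact ENNReal.div_le_of_le_mul hΦ.2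
  · choose q hq using hx
    choose q' hq' using hy
    have e1 : x = w + fun i => (q i : ℝ) := funext hq
    have e2 : y - x = fun i => (q' i : ℝ) - q i := funext fun i => by
      simp only [Pi.sub_apply, hq i, hq' i]; ring
    have := not_not.1 hwp (q, q')
    simp only [← e1, ← e2] at this
    refine this fun s hs => hxy ?_
    rw [segment_eq_image']
    exact ⟨s, hs, rfl⟩

end P073
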