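import Vale.Agent.P073Z.ACC.Sk
import Vale.Agent.P073Z.RCX
import Vale.Agent.P073Z.DISC2.Path

/-!
# Cells in boxes
-/

open Set Metric Topology Filter MeasureTheory
open scoped ENNReal NNReal

namespace P073.Cell

theorem mem_uface {z : Fin 3 → ℤ} {J : Finset (Fin 3)} {ξ : E3} : ξ ∈ uface z J ↔
    (∀ i, (z i : ℝ) ≤ ξ i ∧ ξ i ≤ z i + 1) ∧ ∀ i ∈ J, ξ i = z i :=
  ⟨fun h => ⟨fun i => ⟨h.1.1 i, h.1.2 i⟩, h.2⟩,
    fun h => ⟨⟨fun i => (h.1 i).1, fun i => (h.1 i).2⟩, h.2⟩⟩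

theorem uface_empty (z : Fin 3 → ℤ) : uface z ∅ = ucube z := by
  ext ξ
  simp [uface]

theorem box_eq (lo : Fin 3 → ℤ) (J : Finset (Fin 3)) {hi : Fin 3 → ℤ}
    (h1 : ∀ i ∈ J, hi i = lo i) (h2 : ∀ i, i ∉ J → hi i = lo i + 1) :
    Icc (fun i => (lo i : ℝ)) (fun i => (hi i : ℝ)) = uface lo J := by
  ext ξ
  rw [mem_uface, mem_Icc, Pi.le_def, Pi.le_def]
  constructor
  · rintro ⟨a, b⟩
    refine ⟨fun i => ⟨a i, ?_⟩, fun i hJ => le_antisymm (by simpa [h1 i hJ] using b i) (a i)⟩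
    by_cases hJ : i ∈ J
    · have := b i
      rw [h1 i hJ] at this
      linarith
    · simpa [h2 i hJ] using b i
  · rintro ⟨a, b⟩
    refine ⟨fun i => (a i).1, fun i => ?_⟩
    by_cases hJ : i ∈ J
    · rw [h1 i hJ]; exact (b i hJ).le
    · rw [h2 i hJ]; push_cast; exact (a i).2

theorem isBox (z : Fin 3 → ℤ) (J : Finset (Fin 3)) : IsBox (uface z J) :=
  ⟨z, fun i => if i ∈ J then z i else z i + 1, fun i => by by_cases h : i ∈ J <;> simp [h],
    (box_eq z J (fun _ h => if_pos h) fun _ h => if_neg h).symm⟩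

/-- every box is a lower face of a cube -/
theorem _root_.P073.IsBox.eq_uface {X : Set E3} (h : IsBox X) : ∃ z J, X = uface z J := by
  obtain ⟨lo, hi, h1, rfl⟩ := h
  refine ⟨lo, Finset.univ.filter fun i => hi i = lo i, box_eq lo _ (fun i h => ?_) fun i h => ?_⟩
  · exact (Finset.mem_filter.1 h).2
  · exact (h1 i).resolve_left fun e => h (Finset.mem_filter.2 ⟨Finset.mem_univ i, e⟩)

theorem corner_mem (z : Fin 3 → ℤ) (J : Finset (Fin 3)) : (fun i => (z i : ℝ)) ∈ uface z J :=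
  mem_uface.2 ⟨fun _ => ⟨le_rfl, by linarith⟩, fun _ _ => rfl⟩

theorem corner_mem' (z : Fin 3 → ℤ) {J : Finset (Fin 3)} {k : Fin 3} (hk : k ∉ J) :
    (fun i => (z i : ℝ)) + Pi.single k 1 ∈ uface z J := by
  refine mem_uface.2 ⟨fun i => ?_, fun i hi => ?_⟩
  · by_cases h : i = k
    · subst h; simp
    · simp [Pi.single_eq_of_ne h]
  · have h : i ≠ k := fun e => hk (e ▸ hi)
    simp [Pi.single_eq_of_ne h]

theorem finrank_uface (z : Fin 3 → ℤ) (J : Finset (Fin 3)) :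
    Module.finrank ℝ (vectorSpan ℝ (uface z J)) + J.card = 3 := by
  have h1 : vectorSpan ℝ (uface z J) =
      Submodule.span ℝ (range fun k : {k // k ∉ J} => (Pi.single k.1 1 : E3)) := by
    apply le_antisymm
    · rw [vectorSpan_def, Submodule.span_le]
      rintro _ ⟨a, ha, b, hb, rfl⟩
      show a - b ∈ _
      rw [← Finset.univ_sum_single (a - b), SetLike.mem_coe]
      refine Submodule.sum_mem _ fun k _ => ?_
      by_cases hk : k ∈ J
      · rw [Pi.sub_apply, ha.2 k hk, hb.2 k hk, sub_self, Pi.single_zero]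
        exact Submodule.zero_mem _
      · have : (Pi.single k ((a - b) k) : E3) = (a - b) k • (Pi.single k 1 : E3) := by
          rw [← Pi.single_smul, smul_eq_mul, mul_one]
        rw [this]
        exact Submodule.smul_mem _ _ (Submodule.subset_span ⟨⟨k, hk⟩, rfl⟩)
    · rw [Submodule.span_le]
      rintro _ ⟨k, rfl⟩
      have := vsub_mem_vectorSpan ℝ (corner_mem' z k.2) (corner_mem z J)
      rwa [vsub_eq_sub, add_sub_cancel_left] at this
  have h2 : LinearIndependent ℝ fun k : {k // k ∉ J} => (Pi.single k.1 1 : E3) := by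
    have := (Pi.basisFun ℝ (Fin 3)).linearIndependent.comp
      (Subtype.val : {k // k ∉ J} → Fin 3) Subtype.val_injective
    simpa [Function.comp_def] using this
  rw [h1, finrank_span_eq_card h2, Fintype.card_subtype_compl, Fintype.card_coe, Fintype.card_fin]
  have := J.card_le_univ
  rw [Fintype.card_fin] at this
  omega

theorem finrank_preimage (μ : E3 ≃ᴬ[ℝ] E3) (X : Set E3) :
    Module.finrank ℝ (vectorSpan ℝ (μ ⁻¹' X)) = Module.finrank ℝ (vectorSpan ℝ X) := by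
  have h1 := AffineMap.map_vectorSpan μ.toAffineEquiv.toAffineMap
    (s := μ ⁻¹' X)
  have h2 : μ.toAffineEquiv.toAffineMap '' (μ ⁻¹' X) = X := image_preimage_eq X μ.surjective
  rw [h2] at h1
  rw [← h1]
  exact (LinearEquiv.finrank_map_eq μ.toAffineEquiv.linear _).symm

theorem frontier_box (μ : E3 ≃ᴬ[ℝ] E3) {z : Fin 3 → ℤ} {J : Finset (Fin 3)} {x : E3}
    (hx : x ∈ intrinsicFrontier ℝ (μ ⁻¹' uface z J)) (h : μ x ∈ uface z J) :
    ∃ k, k ∉ J ∧ (μ x k = z k ∨ μ x k = z k + 1) := by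
  by_contra hn
  push Not at hn
  obtain ⟨y, hy, rfl⟩ := mem_intrinsicFrontier.1 hx
  refine hy.2 (mem_interior_iff_mem_nhds.2 ?_)
  have h1 : ∀ᶠ w : affineSpan ℝ (μ ⁻¹' uface z J) in 𝓝 y, ∀ k, k ∉ J →
      (z k : ℝ) < μ w k ∧ μ w k < z k + 1 := by
    refine eventually_all.2 fun k => ?_
    by_cases hk : k ∈ J
    · exact Eventually.of_forall fun _ h => absurd hk h
    · have hc : Continuous fun w : affineSpan ℝ (μ ⁻¹' uface z J) => μ w k :=
        (continuous_apply k).comp (μ.continuous.comp continuous_subtype_val)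
      obtain ⟨a, b⟩ := (mem_uface.1 h).1 k
      filter_upwards [hc.continuousAt.eventually_const_lt (lt_of_le_of_ne a (hn k hk).1.symm),
        hc.continuousAt.eventually_lt_const (lt_of_le_of_ne b (hn k hk).2)] with w c d _ using
        ⟨c, d⟩
  filter_upwards [h1] with w hw
  have h2 : ∀ k ∈ J, μ w k = z k := fun k hk =>
    AffineMap.eqOn_affineSpan (f := (AffineMap.proj k).comp μ.toAffineEquiv.toAffineMap)
      (g := AffineMap.const ℝ E3 (z k : ℝ)) (fun v hv => hv.2 k hk) w.2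
  refine mem_uface.2 ⟨fun k => ?_, h2⟩
  by_cases hk : k ∈ J
  · rw [h2 k hk]; exact ⟨le_rfl, by linarith⟩
  · exact ⟨(hw k hk).1.le, (hw k hk).2.le⟩

theorem uface_eq {z z' : Fin 3 → ℤ} {J J' : Finset (Fin 3)} (h : uface z' J' ⊆ uface z J)
    (hc : J'.card = J.card) : uface z' J' = uface z J := by
  have h0 := mem_uface.1 (h (corner_mem z' J'))
  have h1 : J ⊆ J' := fun k hk => by
    by_contra hn
    have a := (mem_uface.1 (h (corner_mem' z' hn))).2 k hk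
    have b := h0.2 k hk
    simp only [Pi.add_apply, Pi.single_eq_same] at a b
    linarith
  obtain rfl : J = J' := Finset.eq_of_subset_of_card_le h1 hc.le
  have h2 : z' = z := funext fun k => by
    by_cases hk : k ∈ J
    · exact_mod_cast h0.2 k hk
    · have a := ((mem_uface.1 (h (corner_mem' z' hk))).1 k).2
      have b := (h0.1 k).1
      simp only [Pi.add_apply, Pi.single_eq_same] at a b
      exact_mod_cast le_antisymm (show (z' k : ℝ) ≤ z k by linarith) b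
  rw [h2]

theorem face_sub (z : Fin 3 → ℤ) (J : Finset (Fin 3)) (k : Fin 3) (hk : k ∉ J) :
    uface z (insert k J) ⊆ uface z J ∧ uface (z + Pi.single k 1) (insert k J) ⊆ uface z J := by
  refine ⟨fun ξ h => ⟨h.1, fun i hi => h.2 i (Finset.mem_insert_of_mem hi)⟩, fun ξ h => ?_⟩
  obtain ⟨a, b⟩ := mem_uface.1 h
  refine mem_uface.2 ⟨fun i => ?_, fun i hi => ?_⟩
  · by_cases e : i = k
    · subst e
      rw [b i (Finset.mem_insert_self _ _)]
      simp
    · simpa [Pi.single_eq_of_ne e] using a i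
  · have e : i ≠ k := fun e => hk (e ▸ hi)
    simpa [Pi.single_eq_of_ne e] using b i (Finset.mem_insert_of_mem hi)

theorem sum_encard_le {ι α : Type} (s : Finset ι) (A : ι → Set α) {X : Set α}
    (hd : ∀ i ∈ s, ∀ j ∈ s, i ≠ j → Disjoint (A i) (A j)) (hX : ∀ i ∈ s, A i ⊆ X) :
    ∑ i ∈ s, ((A i).encard : ℝ≥0∞) ≤ (X.encard : ℝ≥0∞) := by
  classical
  induction s using Finset.induction_on generalizing X with
  | empty => simp
  | insert a s ha ih =>
    have h1 := ih (X := X \ A a)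
      (fun i hi j hj => hd i (Finset.mem_insert_of_mem hi) j (Finset.mem_insert_of_mem hj))
      fun i hi => subset_sdiff.2 ⟨hX i (Finset.mem_insert_of_mem hi),
        hd i (Finset.mem_insert_of_mem hi) a (Finset.mem_insert_self _ _) fun e => ha (e ▸ hi)⟩
    rw [Finset.sum_insert ha, ← encard_sdiff_add_encard_of_subset
      (hX a (Finset.mem_insert_self _ _)), ENat.toENNReal_add, add_comm]
    exact add_le_add_left h1 _

variable {Ω : Set E3} {P : Par} {M₀ : ℝ≥0} {Mt : Ty → ℕ → ℝ≥0} {S : Ty → ℕ → Set E3}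
  (𝓜 : Mesh Ω P M₀ Mt S)

theorem nu_eq (j : Fin P.N) : P.nu j = 𝓜.ν j := funext fun x => (𝓜.ν_eq j x).symm

theorem sub_box : ∀ j, ∀ z ∈ P.Buf j, ∀ z' J, uface z' J ⊆ ucube z → 𝓜.Q.Sub (P.box j z' J) :=
  fun j z hz z' J h => 𝓜.sub_box j z hz _ (isBox z' J) h

theorem sub_buf (j : Fin P.N) : 𝓜.Q.Sub (P.BufSet j) := by
  rintro x ⟨z, hz, hx⟩
  obtain ⟨i, h1, h2⟩ := 𝓜.sub_box j z hz _ (uface_empty z ▸ isBox z ∅) Subset.rfl x hx
  exact ⟨i, h1, fun y hy => ⟨z, hz, h2 hy⟩⟩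

theorem dim_box {j : Fin P.N} {z : Fin 3 → ℤ} {J : Finset (Fin 3)} {i : 𝓜.Q.ι}
    (h : 𝓜.Q.cell i = P.box j z J) : 𝓜.Q.dim i + J.card = 3 := by
  rw [(𝓜.cvx i).2.2, h, Par.box, nu_eq 𝓜, finrank_preimage, finrank_uface]

theorem box_dim : ∀ j z J i, 𝓜.Q.cell i ⊆ P.box j z J → 𝓜.Q.dim i + J.card ≤ 3 := by
  intro j z J i h
  have h1 := Submodule.finrank_mono (vectorSpan_mono ℝ h)
  rw [← (𝓜.cvx i).2.2, Par.box, nu_eq 𝓜, finrank_preimage] at h1
  have h2 := finrank_uface z J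
  omega

/-- a coarse cell of a buffer is a box -/
theorem coarse_box {j : Fin P.N} {i : 𝓜.Q.ι} (h : 𝓜.Q.cell i ⊆ P.BufSet j)
    (hf : ¬ 𝓜.Q.cell i ⊆ P.Fine j) : ∃ z J, 𝓜.Q.cell i = P.box j z J := by
  obtain ⟨X, hX, e⟩ := 𝓜.coarse j i h hf
  obtain ⟨z, J, rfl⟩ := hX.eq_uface
  exact ⟨z, J, e⟩

theorem box_cell : ∀ j z J i, 𝓜.Q.cell i ⊆ P.BufSet j → 𝓜.Q.cell i ⊆ P.box j z J →
    𝓜.Q.dim i + J.card = 3 → ¬ 𝓜.Q.cell i ⊆ P.Fine j → 𝓜.Q.cell i = P.box j z J ∧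
    ∀ x ∈ 𝓜.Q.bd i, ∃ k, k ∉ J ∧ (x ∈ P.box j z (insert k J) ∨
      x ∈ P.box j (z + Pi.single k 1) (insert k J)) := by
  intro j z J i h hs hd hf
  obtain ⟨z', J', e⟩ := coarse_box 𝓜 h hf
  have h1 := dim_box 𝓜 e
  have h2 : uface z' J' ⊆ uface z J := by
    rw [e, Par.box, Par.box, nu_eq 𝓜] at hs
    exact (preimage_subset_preimage_iff (by rw [(𝓜.ν j).surjective.range_eq]; simp)).1 hs
  have h3 : 𝓜.Q.cell i = P.box j z J := by
    rw [e, Par.box, uface_eq h2 (by omega), Par.box]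
  refine ⟨h3, fun x hx => ?_⟩
  have h4 : 𝓜.ν j x ∈ uface z J := by
    have := hs (𝓜.Q.bd_subset i hx)
    rwa [Par.box, nu_eq 𝓜] at this
  rw [(𝓜.cvx i).2.1, h3, Par.box, nu_eq 𝓜] at hx
  obtain ⟨k, hk, h5⟩ := frontier_box (𝓜.ν j) hx h4
  obtain ⟨a, b⟩ := mem_uface.1 h4
  refine ⟨k, hk, h5.imp (fun h6 => ?_) fun h6 => ?_⟩
  · rw [Par.box, nu_eq 𝓜]
    exact mem_uface.2 ⟨a, Finset.forall_mem_insert _ _ _ |>.2 ⟨h6, b⟩⟩
  · rw [Par.box, nu_eq 𝓜]
    refine mem_uface.2 ⟨fun l => ?_, Finset.forall_mem_insert _ _ _ |>.2 ⟨by simpa using h6,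
      fun l hl => ?_⟩⟩
    · by_cases e : l = k
      · subst e
        rw [h6]
        simp
      · simpa [Pi.single_eq_of_ne e] using a l
    · have e : l ≠ k := fun e => hk (e ▸ hl)
      simpa [Pi.single_eq_of_ne e] using b l hl

theorem out_inner (hc : CubeApi Ω P) : ∀ i j, 𝓜.Q.dim i = 3 → ¬ 𝓜.Q.cell i ⊆ P.BufSet j →
    ∀ z ∈ P.Inner j, Disjoint (𝓜.Q.cell i) (P.cube j z) := by
  intro i j _ h z hz
  refine Set.disjoint_left.2 fun x h1 h2 => h ?_
  obtain ⟨y, h3, h4⟩ := mem_closure_iff.1 ((𝓜.Q.ball i).subset_closure_int h1) _ isOpen_interior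
    (hc.inner_int j z hz h2)
  exact (sub_buf 𝓜 j).cell_subset h4 (interior_subset h3)

theorem edge_len_coarse : ∀ j e x y, 𝓜.Q.dim e = 1 → 𝓜.Q.cell e = segment ℝ x y →
    𝓜.Q.cell e ⊆ P.BufSet j → ¬ 𝓜.Q.cell e ⊆ P.Fine j → edist (P.nu j x) (P.nu j y) = 1 := by
  intro j e x y hd hs h hf
  obtain ⟨z, J, h1⟩ := coarse_box 𝓜 h hf
  have h2 := dim_box 𝓜 h1
  obtain ⟨k, hk⟩ : ∃ k, k ∉ J := by
    by_contra hn
    push Not at hn
    rw [Finset.eq_univ_of_forall hn, Finset.card_univ, Fintype.card_fin] at h2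
    omega
  have h3 : segment ℝ (𝓜.ν j x) (𝓜.ν j y) = uface z J := by
    have h4 := image_segment ℝ (𝓜.ν j).toAffineEquiv.toAffineMap x y
    rw [← hs, h1, Par.box, nu_eq 𝓜] at h4
    exact h4.symm.trans (image_preimage_eq _ (𝓜.ν j).surjective)
  rw [nu_eq 𝓜, edist_dist, ← ENNReal.ofReal_one]
  congr 1
  apply le_antisymm
  · have a := (mem_uface.1 (h3 ▸ left_mem_segment ℝ (𝓜.ν j x) (𝓜.ν j y))).1
    have b := (mem_uface.1 (h3 ▸ right_mem_segment ℝ (𝓜.ν j x) (𝓜.ν j y))).1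
    refine (dist_pi_le_iff zero_le_one).2 fun l => ?_
    rw [Real.dist_eq, abs_le]
    constructor <;> linarith [(a l).1, (a l).2, (b l).1, (b l).2]
  · have h5 := dist_le_diam_of_mem (isCompact_Icc.isBounded.subset (sep_subset _ _))
      (corner_mem' z hk) (corner_mem z J)
    change _ ≤ diam (uface z J) at h5
    rw [← h3, ← convexHull_pair, convexHull_diam, diam_pair, dist_eq_norm, add_sub_cancel_left,
      Pi.norm_single, norm_one] at h5
    exact h5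

theorem fine_sum (hc : CubeApi Ω P) : ∀ j (s : Finset (Fin 3 → ℤ)) (X : Set 𝓜.Q.ι),
    (s : Set (Fin 3 → ℤ)) ⊆ P.Inner j →
    ∑ z ∈ s, ({i | 𝓜.Q.cell i ⊆ P.box j z (P.T j).I ∧ 𝓜.Q.dim i = (P.T j).r ∧ i ∉ X}.encard : ℝ≥0∞) ≤
      ({i | 𝓜.Q.cell i ⊆ P.Fine j ∧ i ∉ X}.encard : ℝ≥0∞) := by
  intro j s X hs
  have key : ∀ z z' k i, z k < z' k → 𝓜.Q.cell i ⊆ P.box j z (P.T j).I →
      𝓜.Q.cell i ⊆ P.box j z' (P.T j).I → 𝓜.Q.dim i ≠ (P.T j).r := by
    intro z z' k i hlt h1 h2 hd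
    have h3 : (z k : ℝ) + 1 ≤ z' k := by exact_mod_cast hlt
    by_cases hk : k ∈ (P.T j).I
    · obtain ⟨x, hx⟩ := 𝓜.Q.cell_nonempty i
      have a := (mem_uface.1 (h1 hx)).2 k hk
      have b := (mem_uface.1 (h2 hx)).2 k hk
      linarith
    · have h4 := box_dim 𝓜 j z' (insert k (P.T j).I) i fun x hx => mem_uface.2
        ⟨(mem_uface.1 (h2 hx)).1, Finset.forall_mem_insert _ _ _ |>.2 ⟨le_antisymm
          (((mem_uface.1 (h1 hx)).1 k).2.trans h3) ((mem_uface.1 (h2 hx)).1 k).1,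
          (mem_uface.1 (h2 hx)).2⟩⟩
      rw [Finset.card_insert_of_notMem hk] at h4
      have h5 := hc.card_I j
      omega
  refine sum_encard_le s _ (fun z _ z' _ hne => Set.disjoint_left.2 fun i h1 h2 => ?_)
    fun z hz i hi => ⟨fun x hx => ⟨z, hs hz, hi.1 hx⟩, hi.2.2⟩
  obtain ⟨k, hk⟩ := Function.ne_iff.1 hne
  rcases lt_or_gt_of_ne hk with h | h
  · exact key z z' k i h h1.1 h2.1 h1.2.1
  · exact key z' z k i h h2.1 h1.1 h1.2.1

end P073.Cell
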