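import Vale.Agent.P073Z.ACC.Mark

/-!
# The choice of the shift
-/

open Set Metric Topology Filter MeasureTheory
open scoped ENNReal NNReal

namespace P073

theorem Mean.const {η : ℝ} (a : ℝ≥0∞) : Mean η (fun _ => a) a :=
  ⟨measurable_const, by rw [setLIntegral_const]⟩

theorem Par.Ok.shift {P : Par} {Ω : Set E3} (h : P.Ok Ω) (w : E3) : (P.shift w).Ok Ω :=
  ⟨h.m_pos, h.n_pos, h.compact, h.lip, h.pos, h.big, h.sep⟩

namespace ACC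

theorem exists_w (hM : MEAN) : ∃ (e₀ : ℝ≥0) (e : ℕ → ℕ → ℝ≥0), ∀ {Ω : Set E3} {f : E3 → E3}
    {F : E3 → (E3 →L[ℝ] E3)} (P : Par) (p : ℝ) (δ : Fin P.N → ℝ) (c₀ : ℝ≥0∞)
    (X c₂ c₃ : Fin P.N → ℝ≥0∞) (S : Fin P.N → Set E3) (M : Fin P.N → ℝ≥0),
    IsOpen Ω → P.Ok Ω → ContinuousOn f Ω → Measurable F → LocallyIntegrableOn F Ω volume →
    Vale.Agent.P073.HB.WeakDeriv volume Ω f F → (∀ j, 0 < δ j) →
    (∀ j, MeasurableSet (S j) ∧ ∀ y, μH[1] (S j ∩ closedBall y 1) ≤ M j) →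
    ∃ w : E3, (∀ x y : E3, segment ℝ x y ⊆ Ω → (∀ k, ∃ q : ℚ, x k = w k + q) →
        (∀ k, ∃ q : ℚ, y k = w k + q) → Vale.Agent.P073.HB.GoodSeg f F x (y - x)) ∧
      c₀ * ((P.shift w).farI Ω (fun x => ‖F x‖ₑ ^ p) + ∫⁻ x in Ω \ P.KK, ‖F x‖ₑ ^ p) +
        ∑ j, (X j + c₂ j *
          (ENNReal.ofReal P.η ^ 3 * (P.n : ℝ≥0∞)⁻¹ ^ (P.T j).r * (P.shift w).vert j +
            ENNReal.ofReal P.η ^ 2 * (P.shift w).lam j (P.U j) (fun x => ‖F x - (P.T j).A‖ₑ) +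
            ENNReal.ofReal P.η ^ 2 * (P.shift w).endI j (δ j) (fun x => ‖F x‖ₑ) +
            ENNReal.ofReal P.η ^ 2 * (P.shift w).lam j (P.U j) (fun x => ‖F x - (P.T j).A‖ₑ ^ p) +
            volume (P.U j \ P.K j) + ∫⁻ x in P.U j, ‖F x - (P.T j).A‖ₑ ^ p) +
          c₃ j * (ENNReal.ofReal P.η ^ 2 * (P.shift w).nearI j (S j) (fun x => ‖F x‖ₑ ^ p))) ≤
      c₀ * ((e₀ + 1) * ∫⁻ x in Ω \ P.KK, ‖F x‖ₑ ^ p) +
        ∑ j, (X j + c₂ j * (e (P.T j).b (P.m j) *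
          (volume (P.U j \ P.K j) + (∫⁻ x in P.U j, ‖F x - (P.T j).A‖ₑ) +
            (ENNReal.ofReal (δ j) * ∫⁻ x in P.U j, ‖F x‖ₑ) +
            ∫⁻ x in P.U j, ‖F x - (P.T j).A‖ₑ ^ p)) +
          c₃ j * (M j * ∫⁻ x in P.U j \ P.K j, ‖F x‖ₑ ^ p)) := by
  obtain ⟨e₀, e, hM⟩ := hM
  refine ⟨e₀, fun b m => e b m + 1, ?_⟩
  intro Ω f F P p δ c₀ X c₂ c₃ S M hΩ hP hf hF hFi hw hδ hS
  have hη : 0 < P.η := by unfold Par.η; positivity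
  have m1 : Measurable fun x => ‖F x‖ₑ := hF.enorm
  have m2 : Measurable fun x => ‖F x‖ₑ ^ p := m1.pow_const p
  have m3 : ∀ j, Measurable fun x => ‖F x - (P.T j).A‖ₑ := fun j => (hF.sub_const _).enorm
  have m4 : ∀ j, Measurable fun x => ‖F x - (P.T j).A‖ₑ ^ p := fun j => (m3 j).pow_const p
  have key := (((hM P _ hΩ hP m2).1.add (Mean.const (∫⁻ x in Ω \ P.KK, ‖F x‖ₑ ^ p))).const_mul
    c₀).add (Mean.sum Finset.univ fun j _ => ((Mean.const (X j)).add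
      ((((((((hM P _ hΩ hP m1).2 j).2.2.1.add ((hM P _ hΩ hP (m3 j)).2 j).1).add
        (((hM P _ hΩ hP m1).2 j).2.2.2 (δ j) (hδ j))).add ((hM P _ hΩ hP (m4 j)).2 j).1).add
        (Mean.const (volume (P.U j \ P.K j)))).add
        (Mean.const (∫⁻ x in P.U j, ‖F x - (P.T j).A‖ₑ ^ p))).const_mul (c₂ j))).add
      ((((hM P _ hΩ hP m2).2 j).2.1 (S j) (M j) (hS j).1 (hS j).2).const_mul (c₃ j)))
  obtain ⟨w, hw1, hw2⟩ := mark.2.2.2 hΩ hf hFi hw hη key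
  refine ⟨w, hw2, hw1.trans (add_le_add ?_ (Finset.sum_le_sum fun j _ => ?_))⟩
  · rw [add_mul, one_mul]
  · refine add_le_add (add_le_add le_rfl (mul_le_mul_right ?_ _)) le_rfl
    push_cast
    generalize (e (P.T j).b (P.m j) : ℝ≥0∞) = c
    generalize volume (P.U j \ P.K j) = a₁
    generalize (∫⁻ x in P.U j, ‖F x - (P.T j).A‖ₑ) = a₂
    generalize (∫⁻ x in P.U j, ‖F x‖ₑ) = a₃
    generalize (∫⁻ x in P.U j, ‖F x - (P.T j).A‖ₑ ^ p) = a₄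
    generalize ENNReal.ofReal (δ j) = a₅
    calc c * a₁ + c * a₂ + c * a₅ * a₃ + c * a₄ + a₁ + a₄
        ≤ c * a₁ + c * a₂ + c * a₅ * a₃ + c * a₄ + a₁ + a₄ + (a₂ + a₅ * a₃) := le_self_add
      _ = _ := by ring

end ACC

end P073
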