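import Vale.Agent.P073Z.ACC.Sk
import Vale.Agent.P073Z.Gauge
import Vale.Agent.P073Z.RCX

/-!
# The outer scale function and the convex targets
-/

open Set Metric Topology Filter

namespace P073

namespace ACC

theorem exists_delta' {Λ : Set E3} (hΛ : IsOpen Λ) {ε : ℝ} (hε : 0 < ε) :
    ∃ δ : E3 → ℝ, (∀ y ∈ Λ, 0 < δ y) ∧ (∀ y, δ y ≤ ε / 4) ∧
      (∀ y y', δ y ≤ δ y' + dist y y' / 10) ∧ ∀ y ∈ Λ, closedBall y (5 * δ y) ⊆ Λ := by
  obtain ⟨r, hr, hl, -, hp⟩ := exists_gauge (X := Λ) (p := fun y a => closedBall y a ⊆ Λ)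
    (fun x _ a b _ hab hb => (closedBall_subset_closedBall hab).trans hb) (by
    intro x hx
    obtain ⟨a, ha, hab⟩ := Metric.nhds_basis_closedBall.mem_iff.1 (hΛ.mem_nhds hx)
    refine ⟨a / 2, half_pos ha, ?_⟩
    filter_upwards [mem_nhdsWithin_of_mem_nhds (ball_mem_nhds x (half_pos ha))] with y hy z hz
    rw [mem_ball] at hy
    rw [mem_closedBall] at hz
    exact hab (mem_closedBall.2 (by linarith [dist_triangle z y x])))
  refine ⟨fun y => min (ε / 4) (r y / 10), fun y hy =>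
    lt_min (by positivity) (div_pos (hr.2 y hy) (by norm_num)), fun y => min_le_left _ _,
    fun y y' => ?_, fun y hy => (closedBall_subset_closedBall ?_).trans (hp y hy)⟩
  · have h1 := hl y y'
    have h2 : 0 ≤ dist y y' := dist_nonneg
    beta_reduce
    rcases le_total (ε / 4) (r y' / 10) with h | h
    · rw [min_eq_left h]; linarith [min_le_left (ε / 4) (r y / 10)]
    · rw [min_eq_right h]; linarith [min_le_right (ε / 4) (r y / 10)]
  · linarith [min_le_right (ε / 4) (r y / 10), hr.2 y hy]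

/-- modulus of continuity of the inverse near a compact set -/
theorem exists_modulus {Ω Λ X : Set E3} {f f' : E3 → E3} (hΛ : IsOpen Λ) (hf : HomeoOn f f' Ω Λ)
    (hX : IsCompact X) (hXΩ : X ⊆ Ω) {d : ℝ} (hd : 0 < d) :
    ∃ c > (0:ℝ), ∀ x ∈ X, ∀ y ∈ Ω, dist (f x) (f y) ≤ c → dist x y ≤ d := by
  have hY : IsCompact (f '' X) := hX.image_of_continuousOn (hf.cont.mono hXΩ)
  have hYΛ : f '' X ⊆ Λ := by rintro _ ⟨x, hx, rfl⟩; exact hf.mapsTo (hXΩ hx)
  obtain ⟨c, hc, hcΛ⟩ := hY.exists_cthickening_subset_open hΛ hYΛ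
  obtain ⟨c', hc', h⟩ := Metric.uniformContinuousOn_iff_le.1
    (hY.cthickening.uniformContinuousOn_of_continuous (hf.cont_inv.mono hcΛ)) d hd
  refine ⟨min c c', lt_min hc hc', fun x hx y hy hxy => ?_⟩
  have h1 : f x ∈ cthickening c (f '' X) := self_subset_cthickening _ ⟨x, hx, rfl⟩
  have h2 : f y ∈ cthickening c (f '' X) :=
    mem_cthickening_of_dist_le _ (f x) _ _ ⟨x, hx, rfl⟩
      (by rw [dist_comm]; exact hxy.trans (min_le_left _ _))
  have := h _ h1 _ h2 (hxy.trans (min_le_right _ _))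
  rwa [hf.left_inv (hXΩ hx), hf.left_inv hy] at this

end ACC

open ACC in
theorem gauge_thm : GAUGE := by
  intro Ω Λ f f' ε hΩ hΛ _ hf hε
  obtain ⟨δ, hδ0, hδε, hδl, hδb⟩ := exists_delta' hΛ hε
  obtain ⟨r, hr, hrl, -, hrp⟩ := exists_gauge (X := Ω)
    (p := fun x a => closedBall x a ⊆ Ω ∧ ∀ y ∈ Ω, dist y x ≤ a → dist (f y) (f x) < δ (f x))
    (fun x _ a b _ hab hb => ⟨(closedBall_subset_closedBall hab).trans hb.1,
      fun y hy h => hb.2 y hy (h.trans hab)⟩) (by
    intro x hx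
    have h0 := hδ0 _ (hf.mapsTo hx)
    have hc : ContinuousAt f x := hf.cont.continuousAt (hΩ.mem_nhds hx)
    have h1 : ∀ᶠ y in 𝓝 x, y ∈ Ω ∧ dist (f y) (f x) < δ (f x) / 4 :=
      (hΩ.eventually_mem hx).and (hc.eventually (ball_mem_nhds _ (by positivity)))
    obtain ⟨a, ha, hab⟩ := Metric.nhds_basis_closedBall.mem_iff.1 h1
    refine ⟨a / 2, half_pos ha, ?_⟩
    filter_upwards [mem_nhdsWithin_of_mem_nhds (ball_mem_nhds x (half_pos ha))] with y hy
    rw [mem_ball] at hy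
    have key : ∀ z, dist z y ≤ a / 2 → z ∈ closedBall x a := fun z hz => by
      rw [mem_closedBall]; linarith [dist_triangle z y x]
    refine ⟨fun z hz => (hab (key z hz)).1, fun z _ hz => ?_⟩
    have a1 := (hab (key z hz)).2
    have a2 := (hab (key y (by rw [dist_self]; linarith))).2
    have a3 := hδl (f x) (f y)
    have a4 := dist_triangle_right (f z) (f y) (f x)
    rw [dist_comm] at a3
    linarith)
  refine ⟨fun x => r x / 10, ?_, fun x hx => ⟨div_pos (hr.2 x hx) (by norm_num),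
    (closedBall_subset_closedBall (by linarith [hr.2 x hx])).trans (hrp x hx).1, fun y hy => ?_⟩,
    fun X d hX hXΩ hd => ?_⟩
  · refine LipschitzWith.of_le_add_mul _ fun x y => ?_
    have := hrl x y
    push_cast
    linarith
  · have h1 : dist y x ≤ r x := by linarith [hr.2 x hx]
    linarith [(hrp x hx).2 y ((hrp x hx).1 h1) h1, hδε (f x)]
  have hY : IsCompact (f '' X) := hX.image_of_continuousOn (hf.cont.mono hXΩ)
  have hYΛ : f '' X ⊆ Λ := by rintro _ ⟨x, hx, rfl⟩; exact hf.mapsTo (hXΩ hx)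
  generalize f '' X = Y at hY hYΛ ⊢
  obtain ⟨c', hc', hmod⟩ := exists_modulus hΛ hf hX hXΩ hd
  have hδc : Continuous δ := by
    refine (LipschitzWith.of_le_add_mul (1 / 10) fun x y => ?_).continuous
    have := hδl x y
    push_cast
    linarith
  obtain ⟨c, hc, hcY⟩ := Gauge.exists_lower (r := δ) (X := Λ) ⟨hδc.continuousOn, hδ0⟩ hY hYΛ
  refine ⟨min (c / 400) (c' / 20), lt_min (by positivity) (by positivity), fun β _ hβ' => ?_⟩
  have hβ : β ≤ c / 400 := hβ'.trans (min_le_left _ _)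
  have hβ2 : β ≤ c' / 20 := hβ'.trans (min_le_right _ _)
  refine ⟨fun x hx y hy hxy => hmod x hx y hy (by linarith), fun z hz => ?_, fun K hK hs => ?_⟩
  · have h1 : z ∈ thickening c Y :=
      cthickening_subset_thickening' hc (by linarith) Y hz
    obtain ⟨y, hy, hzy⟩ := mem_thickening_iff.1 h1
    refine hδb y (hYΛ hy) (mem_closedBall.2 ?_)
    linarith [hcY y hy]
  choose x hx using K.cell_nonempty
  have hcell : ∀ i, K.cell i ⊆ Ω := fun i => hK ▸ K.cell_subset_carrier i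
  have hxΛ : ∀ i, f (x i) ∈ Λ := fun i => hf.mapsTo (hcell i (hx i))
  have hnear : ∀ i, ∀ y ∈ K.cell i, dist (f y) (f (x i)) < δ (f (x i)) := fun i y hy =>
    (hrp _ (hcell i (hx i))).2 y (hcell i hy) (by
      have := hs i _ (hx i) y hy
      rw [dist_comm]
      linarith [hr.2 _ (hcell i (hx i))])
  refine ⟨fun i => ball (f (x i)) (2 * δ (f (x i))), fun i => δ (f (x i)), fun y hy => ?_, fun i =>
    ⟨convex_ball _ _, ?_, hδ0 _ (hxΛ i), ?_, fun y hy y' hy' => ?_, ?_⟩⟩
  · have h0 := hδ0 y hy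
    have hC : closedBall y (5 * δ y) ⊆ Λ := hδb y hy
    have hC' : IsCompact (f' '' closedBall y (5 * δ y)) :=
      (isCompact_closedBall _ _).image_of_continuousOn (hf.cont_inv.mono hC)
    refine ⟨ball y (δ y), ball_mem_nhds _ h0, (K.finite_meet hC' (hK ▸ ?_)).subset ?_⟩
    · rintro _ ⟨z, hz, rfl⟩
      exact hf.mapsTo_inv (hC hz)
    · rintro i ⟨z, hz, hz'⟩
      refine ⟨x i, hx i, f (x i), ?_, hf.left_inv (hcell i (hx i))⟩
      rw [mem_ball] at hz hz'
      have a1 := hδl (f (x i)) y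
      have a2 := dist_triangle_left (f (x i)) y z
      rw [mem_closedBall]
      linarith
  · exact (ball_subset_closedBall.trans (closedBall_subset_closedBall
      (by linarith [hδ0 _ (hxΛ i)]))).trans (hδb _ (hxΛ i))
  · intro z hz
    obtain ⟨_, ⟨y, hy, rfl⟩, hzy⟩ := mem_thickening_iff.1 hz
    rw [mem_ball]
    linarith [hnear i y hy, dist_triangle z (f y) (f (x i))]
  · rw [mem_ball] at hy hy'
    linarith [dist_triangle_right y y' (f (x i)), hδε (f (x i))]
  · rintro ⟨_, hz, y, hy, rfl⟩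
    obtain ⟨y₀, hy₀, hzy⟩ := mem_thickening_iff.1 hz
    have a1 := hδl y₀ (f y)
    have a2 := hδl (f y) (f (x i))
    have a3 := hnear i y hy
    have a4 := hcY y₀ hy₀
    rw [dist_comm] at a1
    linarith

end P073
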