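import Vale.Agent.P073Z.ACC.Sk
import Vale.Agent.P073Z.Gauge

/-!
# The choice of the base scale
-/

open Set Metric Topology Filter MeasureTheory
open scoped ENNReal NNReal

namespace P073

/-- the same parameters with another base scale and another fine subdivision -/
def Par.upd (P : Par) (k n : ℕ) : Par := { P with k₀ := k, n := n }

namespace ACC

theorem ev_mul_le (a : ℝ) {c : ℝ} (hc : 0 < c) : ∀ᶠ η in 𝓝[>] (0:ℝ), a * η ≤ c := by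
  have h : Tendsto (fun η : ℝ => a * η) (𝓝[>] 0) (𝓝 0) := by
    have : Continuous fun η : ℝ => a * η := by fun_prop
    simpa using (this.tendsto 0).mono_left nhdsWithin_le_nhds
  exact h.eventually (ge_mem_nhds hc)

theorem ev_small {Ω K : Set E3} (hK : IsClosed K) {G : E3 → ℝ≥0∞}
    (hG : ∫⁻ x in Ω, G x ≠ ⊤) {a : ℝ} (ha : 0 < a) {δ : ℝ≥0∞} (hδ : δ ≠ 0) :
    ∀ᶠ η in 𝓝[>] (0:ℝ), thickening (a * η) K ⊆ Ω → ∫⁻ x in thickening (a * η) K \ K, G x ≤ δ := by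
  set μ : Measure E3 := (volume.restrict (Ω \ K)).withDensity G with hμ
  have hμa : ∀ X, MeasurableSet X → μ X = ∫⁻ x in X ∩ (Ω \ K), G x := fun X hX => by
    rw [hμ, withDensity_apply _ hX, Measure.restrict_restrict hX]
  have h1 := tendsto_measure_thickening_of_isClosed (μ := μ) (s := K) ⟨1, one_pos, by
    rw [hμa _ isOpen_thickening.measurableSet]
    exact ne_top_of_le_ne_top hG (lintegral_mono_set fun x hx => hx.2.1)⟩ hK
  have h2 : μ K = 0 := by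
    rw [hμa _ hK.measurableSet, show K ∩ (Ω \ K) = ∅ from
      eq_empty_of_forall_notMem fun x hx => hx.2.2 hx.1]
    simp
  rw [h2] at h1
  have h3 : Tendsto (fun η : ℝ => a * η) (𝓝[>] 0) (𝓝[>] 0) := by
    refine tendsto_nhdsWithin_iff.2 ⟨?_, ?_⟩
    · have : Continuous fun η : ℝ => a * η := by fun_prop
      simpa using (this.tendsto 0).mono_left nhdsWithin_le_nhds
    · filter_upwards [self_mem_nhdsWithin] with η hη using mul_pos ha hη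
  filter_upwards [(h1.comp h3).eventually (ge_mem_nhds (pos_iff_ne_zero.2 hδ))] with η hη hs
  refine le_trans ?_ hη
  rw [Function.comp, hμa _ isOpen_thickening.measurableSet]
  exact lintegral_mono_set fun x hx => ⟨hx.1, hs hx.1, hx.2⟩

theorem split_le {U K : Set E3} (hK : MeasurableSet K) (hKU : K ⊆ U) {G : E3 → ℝ≥0∞}
    {t δ : ℝ≥0∞} (h1 : ∀ x ∈ K, G x ≤ t) (h2 : ∫⁻ x in U \ K, G x ≤ δ) :
    ∫⁻ x in U, G x ≤ t * volume U + δ := by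
  rw [← lintegral_inter_add_sdiff G U hK, inter_eq_self_of_subset_right hKU]
  refine add_le_add ((setLIntegral_mono' hK h1).trans ?_) h2
  rw [setLIntegral_const]
  exact mul_le_mul_right (measure_mono hKU) _

theorem rpow_sub_le (X A : E3 →L[ℝ] E3) {p : ℝ} (hp : 1 ≤ p) :
    ‖X - A‖ₑ ^ p ≤ 2 ^ (p - 1) * (‖X‖ₑ ^ p + ‖A‖ₑ ^ p) := by
  refine le_trans (ENNReal.rpow_le_rpow ?_ (zero_le_one.trans hp))
    (ENNReal.rpow_add_le_mul_rpow_add_rpow _ _ hp)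
  rw [← ofReal_norm, ← ofReal_norm, ← ofReal_norm,
    ← ENNReal.ofReal_add (norm_nonneg _) (norm_nonneg _)]
  exact ENNReal.ofReal_le_ofReal (norm_sub_le _ _)

theorem le_one_add_rpow (a : ℝ≥0∞) {p : ℝ} (hp : 1 ≤ p) : a ≤ 1 + a ^ p := by
  rcases le_total a 1 with h | h
  · exact h.trans le_self_add
  · refine le_trans ?_ le_add_self
    conv_lhs => rw [← ENNReal.rpow_one a]
    exact ENNReal.rpow_le_rpow_of_exponent_le h hp

theorem lint_sub_ne_top {Ω : Set E3} (hb : Bornology.IsBounded Ω) {F : E3 → (E3 →L[ℝ] E3)}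
    {p : ℝ} (hp : 1 ≤ p) (hi : ∫⁻ x in Ω, ‖F x‖ₑ ^ p ≠ ⊤) (A : E3 →L[ℝ] E3) :
    ∫⁻ x in Ω, ‖F x - A‖ₑ ^ p ≠ ⊤ ∧ ∫⁻ x in Ω, ‖F x - A‖ₑ ≠ ⊤ := by
  have hv : volume Ω ≠ ⊤ := hb.measure_lt_top.ne
  have h2 : (2 : ℝ≥0∞) ^ (p - 1) ≠ ⊤ := ENNReal.rpow_ne_top_of_nonneg (by linarith) (by simp)
  have h1 : ∫⁻ x in Ω, ‖F x - A‖ₑ ^ p ≠ ⊤ := by
    refine ne_top_of_le_ne_top ?_ (lintegral_mono fun x => rpow_sub_le (F x) A hp)
    rw [lintegral_const_mul' _ _ h2, lintegral_add_right _ measurable_const, setLIntegral_const]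
    exact ENNReal.mul_ne_top h2 (ENNReal.add_ne_top.2 ⟨hi, ENNReal.mul_ne_top
      (ENNReal.rpow_ne_top_of_nonneg (by linarith) enorm_ne_top) hv⟩)
  refine ⟨h1, ne_top_of_le_ne_top ?_ (lintegral_mono fun x => le_one_add_rpow _ hp)⟩
  rw [lintegral_add_left measurable_const, setLIntegral_const, one_mul]
  exact ENNReal.add_ne_top.2 ⟨hv, h1⟩

/-- the base scale -/
theorem exists_eta {Ω : Set E3} {F : E3 → (E3 →L[ℝ] E3)} {p r₁ : ℝ} (P : Par)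
    (τ : Fin P.N → ℝ) {δ : ℝ≥0∞} (hb : Bornology.IsBounded Ω) (hp : 1 ≤ p)
    (hi : ∫⁻ x in Ω, ‖F x‖ₑ ^ p ≠ ⊤) (hr : 0 < r₁) (hm : ∀ j, 1 ≤ P.m j)
    (hK : ∀ j, IsCompact (P.K j) ∧ cthickening r₁ (P.K j) ⊆ Ω ∧
      ∀ x ∈ P.K j, ‖F x - (P.T j).A‖ ≤ τ j)
    (hs : ∀ j j', j ≠ j' → ∀ x ∈ P.K j, ∀ y ∈ P.K j', r₁ ≤ dist x y)
    (hς : LipschitzWith (1 / 10) P.ς) (hς' : ∀ x ∈ Ω, 0 < P.ς x ∧ closedBall x (P.ς x) ⊆ Ω)
    (hδ : δ ≠ 0) :
    ∃ k : ℕ, (∀ n, 1 ≤ n → (P.upd k n).Ok Ω) ∧ ∀ n, 3 * (P.upd k n).η ≤ r₁ ∧ ∀ j,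
      100 * (P.T j).b * (P.upd k n).η ≤ r₁ ∧
      volume ((P.upd k n).U j \ P.K j) ≤ δ ∧
      ∫⁻ x in (P.upd k n).U j \ P.K j, ‖F x‖ₑ ^ p ≤ δ ∧
      ∫⁻ x in (P.upd k n).U j, ‖F x - (P.T j).A‖ₑ ≤
        ENNReal.ofReal (τ j) * volume ((P.upd k n).U j) + δ ∧
      ∫⁻ x in (P.upd k n).U j, ‖F x - (P.T j).A‖ₑ ^ p ≤
        ENNReal.ofReal (τ j) ^ p * volume ((P.upd k n).U j) + δ := by
  have hb0 : ∀ j, (0:ℝ) < (P.T j).b := fun j => by exact_mod_cast (P.T j).b_pos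
  have hg : Gauge P.ς Ω := ⟨hς.continuous.continuousOn, fun x hx => (hς' x hx).1⟩
  choose c hc hcK using fun j => hg.exists_lower (hK j).1.cthickening (hK j).2.1
  have h1 : ∫⁻ _ in Ω, (1 : ℝ≥0∞) ≠ ⊤ := by
    rw [setLIntegral_const, one_mul]; exact hb.measure_lt_top.ne
  have hev : ∀ᶠ η in 𝓝[>] (0:ℝ), 3 * η ≤ r₁ ∧
      (∀ j j', 200 * (((P.T j).b : ℝ) + (P.T j').b) * η ≤ r₁) ∧ ∀ j,
      100 * ((P.T j).b : ℝ) * η ≤ r₁ ∧ 10 * ((P.T j).b : ℝ) * η ≤ c j ∧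
      (thickening (20 * (P.T j).b * η) (P.K j) ⊆ Ω →
        ∫⁻ _ in thickening (20 * (P.T j).b * η) (P.K j) \ P.K j, (1 : ℝ≥0∞) ≤ δ) ∧
      (thickening (20 * (P.T j).b * η) (P.K j) ⊆ Ω →
        ∫⁻ x in thickening (20 * (P.T j).b * η) (P.K j) \ P.K j, ‖F x‖ₑ ^ p ≤ δ) ∧
      (thickening (20 * (P.T j).b * η) (P.K j) ⊆ Ω →
        ∫⁻ x in thickening (20 * (P.T j).b * η) (P.K j) \ P.K j, ‖F x - (P.T j).A‖ₑ ≤ δ) ∧
      (thickening (20 * (P.T j).b * η) (P.K j) ⊆ Ω →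
        ∫⁻ x in thickening (20 * (P.T j).b * η) (P.K j) \ P.K j, ‖F x - (P.T j).A‖ₑ ^ p ≤ δ) := by
    refine (ev_mul_le _ hr).and ((eventually_all.2 fun j => eventually_all.2 fun j' =>
      ev_mul_le _ hr).and (eventually_all.2 fun j => ?_))
    have ha : (0:ℝ) < 20 * (P.T j).b := by linarith [hb0 j]
    have hcl := (hK j).1.isClosed
    have h2 := lint_sub_ne_top hb hp hi (P.T j).A
    exact (ev_mul_le _ hr).and ((ev_mul_le _ (hc j)).and ((ev_small hcl h1 ha hδ).and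
      ((ev_small hcl hi ha hδ).and ((ev_small hcl h2.2 ha hδ).and (ev_small hcl h2.1 ha hδ)))))
  have ht : Tendsto (fun k : ℕ => (2:ℝ)⁻¹ ^ k) atTop (𝓝[>] 0) :=
    tendsto_nhdsWithin_iff.2 ⟨tendsto_pow_atTop_nhds_zero_of_lt_one (by norm_num) (by norm_num),
      Eventually.of_forall fun k => by simp⟩
  obtain ⟨k, e1, e2, e3⟩ := (ht.eventually hev).exists
  have hη : (0:ℝ) < (2:ℝ)⁻¹ ^ k := by positivity
  refine ⟨k, fun n hn => ⟨hm, hn, fun j => (hK j).1, hς, hς', fun j x hx => ?_,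
    fun j j' hj x hx y hy => (e2 j j').trans (hs j j' hj x hx y hy)⟩, fun n => ⟨e1, fun j => ?_⟩⟩
  · have hx' : x ∈ cthickening r₁ (P.K j) := cthickening_mono (e3 j).1 _ hx
    exact ⟨(hK j).2.1 hx', (e3 j).2.1.trans (hcK j x hx')⟩
  · obtain ⟨a1, -, a3, a4, a5, a6⟩ := e3 j
    have hU : thickening (20 * (P.T j).b * (2:ℝ)⁻¹ ^ k) (P.K j) ⊆ Ω :=
      (thickening_subset_cthickening_of_le (by nlinarith [mul_pos (hb0 j) hη]) _).trans (hK j).2.1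
    have hKU : P.K j ⊆ (P.upd k n).U j :=
      self_subset_thickening (mul_pos (mul_pos (by norm_num) (hb0 j)) hη) _
    have hτ : ∀ x ∈ P.K j, ‖F x - (P.T j).A‖ₑ ≤ ENNReal.ofReal (τ j) := fun x hx => by
      rw [← ofReal_norm]
      exact ENNReal.ofReal_le_ofReal ((hK j).2.2 x hx)
    refine ⟨a1, ?_, a4 hU, split_le (hK j).1.measurableSet hKU hτ (a5 hU),
      split_le (hK j).1.measurableSet hKU
        (fun x hx => ENNReal.rpow_le_rpow (hτ x hx) (zero_le_one.trans hp)) (a6 hU)⟩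
    have := a3 hU
    rwa [setLIntegral_const, one_mul] at this

end ACC

end P073
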