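import Vale.Agent.P073Z.ACC.Mark
import Vale.Agent.P073Z.AVG
import Vale.Agent.P073Z.Dens2

/-!
# Means over the shift
-/

open Set Metric Topology Filter MeasureTheory
open scoped ENNReal NNReal

namespace P073

namespace Mn

open Dens

theorem shift_int (d : ℝ) {S : Set E3} (hS : MeasurableSet S) (g : E3 → ℝ≥0∞) (w : E3) :
    ∫⁻ x in {x | x - w ∈ S}, g x ∂(μH[d]) = ∫⁻ x in S, g (w + x) ∂(μH[d]) := by
  have h : MeasurableSet {x : E3 | x - w ∈ S} := (measurable_id.sub_const w) hS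
  rw [← lintegral_indicator h, ← lintegral_indicator hS,
    ← lintegral_add_left_eq_self (fun x => {x : E3 | x - w ∈ S}.indicator g x) w]
  refine lintegral_congr fun x => ?_
  by_cases hx : x ∈ S
  · rw [indicator_of_mem hx, indicator_of_mem (by simpa using hx)]
  · rw [indicator_of_notMem hx, indicator_of_notMem (by simpa using hx)]

theorem core (k : ℕ) {d : ℝ} (hd : (k : ℝ) = d) {S : Set E3} {g : E3 → ℝ≥0∞} {η a c D : ℝ}
    (hη : 0 < η) (hS : MeasurableSet S) (hg : Measurable g)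
    (h : ∀ y, μH[d] (S ∩ closedBall y η) ≤ ENNReal.ofReal D) (ha : 0 ≤ a) (hc : 0 ≤ c)
    (hac : a * D ≤ c * η ^ 3) :
    Mean η (fun w => ENNReal.ofReal a * ∫⁻ x in {x | x - w ∈ S}, g x ∂(μH[d]))
      (ENNReal.ofReal c * ∫⁻ x, g x) := by
  subst hd
  obtain ⟨h1, h2⟩ := avg k hη ENNReal.ofReal_ne_top hS hg h
  simp only [shift_int _ hS]
  refine ⟨h1.const_mul _, ?_⟩
  rw [lintegral_const_mul _ h1, Real.volume_pi_closedBall _ hη.le, Fintype.card_fin,
    mul_right_comm, ← ENNReal.ofReal_mul hc]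
  refine (mul_le_mul_right h2 _).trans ?_
  rw [← mul_assoc, ← ENNReal.ofReal_mul ha]
  refine mul_le_mul_left (ENNReal.ofReal_le_ofReal (hac.trans ?_)) _
  gcongr
  linarith

theorem mean_tsum {η : ℝ} {Φ : ℕ → E3 → ℝ≥0∞} {a : ℕ → ℝ≥0∞} (h : ∀ k, Mean η (Φ k) (a k)) :
    Mean η (fun w => ∑' k, Φ k w) (∑' k, a k) :=
  ⟨Measurable.tsum fun k => (h k).1, by
    rw [lintegral_tsum fun k => (h k).1.aemeasurable, ← ENNReal.tsum_mul_right]
    exact ENNReal.tsum_le_tsum fun k => (h k).2⟩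

theorem zone_count (P : Par) (A : Set E3) (g : E3 → ℝ≥0∞) (x : E3) :
    ∑' k, (A ∩ P.zone k).indicator g x ≤ 5 * A.indicator g x := by
  classical
  have h0 : ∀ k, (A ∩ P.zone k).indicator g x ≤ A.indicator g x := fun k =>
    indicator_le_indicator_of_subset inter_subset_left (fun _ => zero_le) x
  by_cases h : ∃ k, x ∈ P.zone k
  · have h1 := Nat.find_spec h
    rw [tsum_eq_sum (s := Finset.Icc (Nat.find h) (Nat.find h + 4)) fun k hk => ?_]
    · refine (Finset.sum_le_card_nsmul _ _ _ fun k _ => h0 k).trans_eq ?_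
      rw [Nat.card_Icc, show Nat.find h + 4 + 1 - Nat.find h = 5 by omega, nsmul_eq_mul]
      rfl
    · refine indicator_of_notMem (fun hx => hk ?_) _
      have h2 := Nat.find_min' h hx.2
      refine Finset.mem_Icc.2 ⟨h2, not_lt.1 fun h3 => ?_⟩
      have h4 := hx.2.2.2 (by have := h1.1; omega)
      have h5 : (2:ℝ)⁻¹ ^ k ≤ 2⁻¹ ^ (Nat.find h + 5) :=
        pow_le_pow_of_le_one (by norm_num) (by norm_num) h3
      have h6 : (0:ℝ) < 2⁻¹ ^ Nat.find h := by positivity
      rw [pow_add] at h5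
      have h7 := h1.2.1
      linarith
  · push Not at h
    rw [ENNReal.tsum_eq_zero.2 fun k => indicator_of_notMem (fun hx => h k hx.2) _]
    exact zero_le

theorem measurableSet_zone {P : Par} (h : Continuous P.ς) (k : ℕ) : MeasurableSet (P.zone k) :=
  (MeasurableSet.const _).inter ((measurableSet_le measurable_const h.measurable).inter
    ((MeasurableSet.const _).imp (measurableSet_le h.measurable measurable_const)))

theorem far {Ω : Set E3} (P : Par) {g : E3 → ℝ≥0∞} (hΩ : IsOpen Ω) (hP : P.Ok Ω)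
    (hg : Measurable g) :
    Mean P.η (fun w => (P.shift w).farI Ω g) ((15360 : ℝ≥0) * ∫⁻ x in Ω \ P.KK, g x) := by
  have hA : MeasurableSet (Ω \ P.KK) := hΩ.measurableSet.diff
    (MeasurableSet.iUnion fun j => (hP.compact j).measurableSet)
  have hm : ∀ k, Measurable (((Ω \ P.KK) ∩ P.zone k).indicator g) := fun k =>
    hg.indicator (hA.inter (measurableSet_zone hP.lip.continuous k))
  have hη := P.η_pos
  have key : ∀ k : ℕ, Mean P.η (fun w => (4 : ℝ≥0∞)⁻¹ ^ k * lint {v | (2:ℝ) ^ (k + 2) • v ∈ gridLines}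
      (((Ω \ P.KK) ∩ P.zone k).indicator g) w)
      (ENNReal.ofReal 3072 * ∫⁻ x, ((Ω \ P.KK) ∩ P.zone k).indicator g x) := by
    intro k
    by_cases hk : P.k₀ ≤ k
    · have h1 : 1 ≤ (2:ℝ) ^ (k + 2) * P.η := by
        obtain ⟨l, rfl⟩ := Nat.exists_eq_add_of_le hk
        rw [Par.η, add_assoc, pow_add, mul_right_comm, ← mul_pow, mul_inv_cancel₀ two_ne_zero,
          one_pow, one_mul]
        exact one_le_pow₀ one_le_two
      have h2 : (4 : ℝ≥0∞)⁻¹ ^ k = ENNReal.ofReal (4⁻¹ ^ k) := by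
        rw [ENNReal.ofReal_pow (by norm_num), ENNReal.ofReal_inv_of_pos (by norm_num)]
        norm_num
      rw [h2]
      refine core 1 Nat.cast_one hη (measurable_const_smul _ measurableSet_gridLines) (hm k)
        (hm_grid_smul (by positivity) h1) (by positivity) (by norm_num) (le_of_eq ?_)
      rw [← pow_mul, mul_comm (k + 2), pow_mul, pow_add, inv_pow]
      field_simp
      norm_num [mul_comm]
    · have h1 : (Ω \ P.KK) ∩ P.zone k = ∅ := eq_empty_of_forall_notMem fun x hx => hk hx.2.1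
      simp only [h1, indicator_empty, lint, lintegral_const, zero_mul, mul_zero]
      exact ⟨measurable_const, by simp⟩
  refine (mean_tsum key).mono ?_
  rw [ENNReal.tsum_mul_left, ← lintegral_tsum fun k => (hm k).aemeasurable]
  refine (mul_le_mul_right (lintegral_mono (zone_count P _ g)) _).trans_eq ?_
  rw [lintegral_const_mul _ (hg.indicator hA), lintegral_indicator hA, ← mul_assoc]
  norm_num

theorem measurableSet_Lc (n c : ℕ) : MeasurableSet (Lc n c) := by
  have h : Lc n c = ⋃ v : Fin 3 → ℤ, ⋃ u : Fin 3 → ℤ, ⋃ J : Finset (Fin 3),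
      ⋃ _ : J.card = c ∧ (∀ i, u i = 0 ∨ u i = 1) ∧ ∀ i ∈ J, u i = 0 ∧ (n : ℤ) ∣ v i,
      (fun ξ : E3 => (n : ℝ) • ξ - zc v) ⁻¹' (Submodule.span ℝ {zc u} : Submodule ℝ E3) := by
    ext ξ
    simp only [Lc, mem_ofPred_eq, mem_iUnion, mem_preimage, SetLike.mem_coe,
      Submodule.mem_span_singleton, funext_iff, Pi.smul_apply, Pi.sub_apply, zc, smul_eq_mul]
    constructor
    · rintro ⟨v, u, J, t, h1, h2, h3, h4⟩
      exact ⟨v, u, J, ⟨h1, h2, h3⟩, t, fun i => by rw [h4 i]; ring⟩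
    · rintro ⟨v, u, J, ⟨h1, h2, h3⟩, t, h4⟩
      exact ⟨v, u, J, t, h1, h2, h3, fun i => by rw [h4 i]; ring⟩
  rw [h]
  refine MeasurableSet.iUnion fun v => MeasurableSet.iUnion fun u => MeasurableSet.iUnion fun J =>
    MeasurableSet.iUnion fun _ => ?_
  exact ((Submodule.closed_of_finiteDimensional _).preimage (by fun_prop)).measurableSet

theorem Lc_sub {n c : ℕ} {ξ : E3} (h : ξ ∈ Lc n c) :
    (n : ℝ) • ξ ∈ ⋃ J : {J : Finset (Fin 3) // J.card = c}, kwire ∩ flat J n := by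
  obtain ⟨v, u, J, t, h1, h2, h3, h4⟩ := h
  refine mem_iUnion.2 ⟨⟨J, h1⟩, ⟨fun i => v i + ⌊t⌋ * u i, fun i => v i + (⌊t⌋ + 1) * u i,
    fun i => ?_, ?_⟩, fun i hi => ?_⟩
  · rcases h2 i with h | h <;> simp [h]
  · rw [segment_eq_image']
    refine ⟨t - ⌊t⌋, ⟨Int.fract_nonneg t, (Int.fract_lt_one t).le⟩, funext fun i => ?_⟩
    simp only [zc, Pi.add_apply, Pi.smul_apply, Pi.sub_apply, smul_eq_mul, h4 i]
    push_cast
    ring
  · obtain ⟨h5, k, h6⟩ := h3 i hi
    refine ⟨k, ?_⟩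
    simp only [Pi.smul_apply, smul_eq_mul, h4 i, h5, h6]
    push_cast
    ring

theorem nu0_eq (P : Par) (j : Fin P.N) : P.nu0 j = (P.shift 0).nu j :=
  funext fun x => congrArg (P.nu0 j) (sub_zero x).symm

theorem measurable_nu0 (P : Par) (j : Fin P.N) : Measurable (P.nu0 j) :=
  nu0_eq P j ▸ ((P.shift 0).continuous_nu j).measurable

/-- transport of a density -/
theorem hm_nu0 (P : Par) {j : Fin P.N} (hm : 1 ≤ P.m j) {c d : ℝ} (hc : 0 < c) (hd : 0 ≤ d)
    {T : Set E3} {D : ℝ≥0∞} (h : ∀ y, μH[d] (T ∩ closedBall y ((P.T j).b * P.m j * c)) ≤ D)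
    (x : E3) : μH[d] ({x | c • P.nu0 j x ∈ T} ∩ closedBall x P.η) ≤
      ENNReal.ofReal ((P.T j).b * P.η / c) ^ d * D := by
  rw [nu0_eq]
  exact (P.shift 0).hm_nu hm hc hd h x

/-- the constant -/
def cst (b m : ℕ) : ℕ := 216 * b * (2 * (b * m) + 3) ^ 3

theorem lam_one {Ω : Set E3} (P : Par) {g : E3 → ℝ≥0∞} (hP : P.Ok Ω) (hg : Measurable g)
    (j : Fin P.N) {c : ℕ} (hc : c < 3) :
    Mean P.η (fun w => ENNReal.ofReal P.η ^ 2 * ((P.n : ℝ≥0∞)⁻¹ ^ (2 - c) *
      lint (P.nu0 j ⁻¹' Lc P.n c) g w)) (cst (P.T j).b (P.m j) * ∫⁻ x, g x) := by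
  have hη := P.η_pos
  have hn : (0 : ℝ) < P.n := by exact_mod_cast hP.n_pos
  have h1 : ∀ y, μH[1] ((⋃ J : {J : Finset (Fin 3) // J.card = c}, kwire ∩ flat J P.n) ∩
      closedBall y ((P.T j).b * P.m j * P.n)) ≤
      8 * ENNReal.ofReal (27 * (2 * ((P.T j).b * P.m j) + 3) ^ 3 * (P.n : ℝ) ^ (3 - c)) := by
    intro y
    rw [iUnion_inter]
    refine (measure_iUnion_fintype_le _ _).trans ((Finset.sum_le_card_nsmul _ _
      (ENNReal.ofReal (27 * (2 * ((P.T j).b * P.m j) + 3) ^ 3 * (P.n : ℝ) ^ (3 - c))) fun J _ =>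
      (hm_kwire J.1 hP.n_pos y (R := (P.T j).b * P.m j) (by positivity)).trans_eq
        (by rw [J.2])).trans ?_)
    rw [nsmul_eq_mul, Finset.card_univ]
    refine mul_le_mul_left ?_ _
    exact_mod_cast (Fintype.card_subtype_le _).trans_eq (by simp)
  have h2 := core 1 Nat.cast_one (a := P.η ^ 2 * (P.n : ℝ)⁻¹ ^ (2 - c)) (c := cst (P.T j).b (P.m j))
    (D := (P.T j).b * P.η / P.n *
      (8 * (27 * (2 * ((P.T j).b * P.m j) + 3) ^ 3 * (P.n : ℝ) ^ (3 - c)))) hη
    (measurable_nu0 P j (measurableSet_Lc P.n c)) hg (fun y => ?_) (by positivity)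
    (Nat.cast_nonneg _) (le_of_eq ?_)
  · rw [ENNReal.ofReal_mul (by positivity), ENNReal.ofReal_pow hη.le,
      ENNReal.ofReal_pow (by positivity), ENNReal.ofReal_inv_of_pos hn, ENNReal.ofReal_natCast,
      ENNReal.ofReal_natCast] at h2
    simpa only [mul_assoc, lint] using h2
  · refine le_trans (measure_mono (inter_subset_inter_left _ fun x hx => ?_))
      ((hm_nu0 P (hP.m_pos j) hn zero_le_one h1 y).trans_eq ?_)
    · exact Lc_sub hx
    rw [ENNReal.rpow_one, ENNReal.ofReal_mul (p := _ / _) (by positivity),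
      ENNReal.ofReal_mul (p := 8) (by norm_num)]
    norm_num
  · rw [show 3 - c = 2 - c + 1 by omega, cst, pow_succ (P.n : ℝ), inv_pow]
    push_cast
    field_simp
    ring

theorem lam {Ω : Set E3} (P : Par) {g : E3 → ℝ≥0∞} (hP : P.Ok Ω) (hg : Measurable g)
    (j : Fin P.N) : Mean P.η (fun w => ENNReal.ofReal P.η ^ 2 * (P.shift w).lam j (P.U j) g)
      ((3 * cst (P.T j).b (P.m j) : ℕ) * ∫⁻ x in P.U j, g x) := by
  have hU : MeasurableSet (P.U j) := isOpen_thickening.measurableSet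
  have h := Mean.sum (Finset.range 3) fun c hc =>
    lam_one P hP (hg.indicator hU) j (Finset.mem_range.1 hc)
  simp only [← Finset.mul_sum] at h
  refine Mean.mono h (le_of_eq ?_)
  rw [lintegral_indicator hU, Finset.sum_const, Finset.card_range, nsmul_eq_mul]
  push_cast
  ring

theorem near {Ω : Set E3} (P : Par) {g : E3 → ℝ≥0∞} (hP : P.Ok Ω) (hg : Measurable g)
    (j : Fin P.N) (S : Set E3) (M : ℝ≥0) (hS : MeasurableSet S)
    (h : ∀ y, μH[1] (S ∩ closedBall y 1) ≤ M) :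
    Mean P.η (fun w => ENNReal.ofReal P.η ^ 2 * (P.shift w).nearI j S g)
      (M * ∫⁻ x in P.U j \ P.K j, g x) := by
  have hη := P.η_pos
  have hU : MeasurableSet (P.U j \ P.K j) :=
    isOpen_thickening.measurableSet.diff (hP.compact j).measurableSet
  have h2 := core 1 Nat.cast_one (a := P.η ^ 2) (c := M) (D := P.η * M) hη
    (measurable_const_smul P.η⁻¹ hS) (hg.indicator hU) (fun y => ?_) (by positivity) M.2
    (le_of_eq (by ring))
  · rwa [ENNReal.ofReal_pow hη.le, ENNReal.ofReal_coe_nnreal, lintegral_indicator hU] at h2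
  · refine (hm_smul (inv_pos.2 hη) zero_le_one (T := S) (D := M)
      (by rwa [inv_mul_cancel₀ hη.ne']) y).trans_eq ?_
    rw [ENNReal.rpow_one, inv_inv, ENNReal.ofReal_mul hη.le, ENNReal.ofReal_coe_nnreal]

theorem card_I (T : Ty) : 3 - T.I.card = T.r := by
  have h1 := T.r_le
  unfold Ty.I
  generalize T.r = r at h1
  interval_cases r <;> decide

theorem vert {Ω : Set E3} (P : Par) (hP : P.Ok Ω) (j : Fin P.N) :
    Mean P.η (fun w => ENNReal.ofReal P.η ^ 3 * (P.n : ℝ≥0∞)⁻¹ ^ (P.T j).r * (P.shift w).vert j)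
      ((3 * cst (P.T j).b (P.m j) : ℕ) * volume (P.U j \ P.K j)) := by
  have hη := P.η_pos
  have hn1 : (1 : ℝ) ≤ P.n := by exact_mod_cast hP.n_pos
  have hn : (0 : ℝ) < P.n := by linarith
  have hb : (1 : ℝ) ≤ (P.T j).b := by exact_mod_cast (P.T j).b_pos
  have hU : MeasurableSet (P.U j \ P.K j) :=
    isOpen_thickening.measurableSet.diff (hP.compact j).measurableSet
  have hS : MeasurableSet {x | (P.n : ℝ) • P.nu0 j x ∈ pts 1 ∩ flat (P.T j).I P.n} :=
    (measurable_nu0 P j).const_smul (P.n : ℝ) ((measurableSet_pts 1).inter (measurableSet_flat _ _))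
  have h2 := core 0 Nat.cast_zero (a := P.η ^ 3 * (P.n : ℝ)⁻¹ ^ (P.T j).r)
    (c := (3 * cst (P.T j).b (P.m j) : ℕ))
    (D := (2 * ((P.T j).b * P.m j) + 1) ^ 3 * (P.n : ℝ) ^ (P.T j).r) hη hS
    (measurable_one.indicator hU) (fun y => ?_) (by positivity) (Nat.cast_nonneg _) ?_
  · rw [ENNReal.ofReal_mul (by positivity), ENNReal.ofReal_pow hη.le,
      ENNReal.ofReal_pow (by positivity), ENNReal.ofReal_inv_of_pos hn, ENNReal.ofReal_natCast,
      ENNReal.ofReal_natCast, lintegral_indicator_one hU] at h2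
    convert h2 using 3 with w
    rw [lintegral_indicator_one hU, Measure.restrict_apply hU, hm_zero_eq]
    unfold Par.vert
    congr 2
    ext x
    refine and_congr Iff.rfl (and_congr mem_pts_one.symm (forall₂_congr fun i _ =>
      exists_congr fun k => (mul_right_inj' hn.ne').symm))
  · refine (hm_nu0 P (hP.m_pos j) hn le_rfl (fun y => (hm_zero_eq _).trans_le
      (encard_flat (P.T j).I hn1 y (by positivity))) y).trans_eq ?_
    rw [ENNReal.rpow_zero, one_mul, card_I]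
  · have h3 : (2 * ((P.T j).b * P.m j) + 1 : ℝ) ^ 3 ≤ (2 * ((P.T j).b * P.m j) + 3) ^ 3 := by
      gcongr; norm_num
    have h4 : (0 : ℝ) ≤ (2 * ((P.T j).b * P.m j) + 3) ^ 3 := by positivity
    rw [inv_pow, mul_comm (_ ^ 3) ((P.n : ℝ) ^ _), mul_assoc, inv_mul_cancel_left₀ (by positivity),
      mul_comm, cst]
    push_cast
    gcongr
    nlinarith

theorem hm_near {δ R : ℝ} (hδ : 0 < δ) (hR : 0 ≤ R) (y : E3) :
    μH[1] (nearLines δ ∩ closedBall y R) ≤ ENNReal.ofReal (6 * δ * (2 * R + 3) ^ 3) := by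
  rcases le_total δ 1 with h | h
  · refine (hm_nearLines hδ.le y hR).trans (ENNReal.ofReal_le_ofReal ?_)
    rw [mul_comm]
    exact mul_le_mul_of_nonneg_left (pow_le_pow_left₀ (by positivity) (by linarith) 3)
      (by positivity)
  · refine (measure_mono (inter_subset_inter_left _ fun x hx => hx.1)).trans
      ((hm_gridLines y hR).trans (ENNReal.ofReal_le_ofReal ?_))
    gcongr <;> linarith

theorem ends {Ω : Set E3} (P : Par) {g : E3 → ℝ≥0∞} (hP : P.Ok Ω) (hg : Measurable g)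
    (j : Fin P.N) {δ : ℝ} (hδ : 0 < δ) :
    Mean P.η (fun w => ENNReal.ofReal P.η ^ 2 * (P.shift w).endI j δ g)
      ((3 * cst (P.T j).b (P.m j) : ℕ) * ENNReal.ofReal δ * ∫⁻ x in P.U j, g x) := by
  have hη := P.η_pos
  have hU : MeasurableSet (P.U j) := isOpen_thickening.measurableSet
  have hS : MeasurableSet {x | (1 : ℝ) • P.nu0 j x ∈ nearLines δ} :=
    (measurable_nu0 P j).const_smul (1 : ℝ) (measurableSet_nearLines δ)
  have h2 := core 1 Nat.cast_one (a := P.η ^ 2) (c := (3 * cst (P.T j).b (P.m j) : ℕ) * δ)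
    (D := (P.T j).b * P.η / 1 * (6 * δ * (2 * ((P.T j).b * P.m j * 1) + 3) ^ 3)) hη hS
    (hg.indicator hU) (fun y => ?_) (by positivity) (by positivity) ?_
  · rw [ENNReal.ofReal_mul (Nat.cast_nonneg _), ENNReal.ofReal_pow hη.le, ENNReal.ofReal_natCast,
      lintegral_indicator hU] at h2
    convert h2 using 3 with w
    rw [lintegral_indicator hU, Measure.restrict_restrict hU]
    unfold Par.endI
    congr 2
    ext x
    simp only [one_smul]
    rfl
  · refine (hm_nu0 P (hP.m_pos j) one_pos zero_le_one (hm_near hδ (by positivity)) y).trans_eq ?_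
    rw [ENNReal.rpow_one, ← ENNReal.ofReal_mul (by positivity)]
  · have h4 : 0 ≤ (P.T j).b * δ * (2 * ((P.T j).b * P.m j) + 3) ^ 3 * P.η ^ 3 := by positivity
    rw [cst, div_one, mul_one]
    push_cast
    nlinarith

end Mn

theorem mean : MEAN :=
  ⟨15360, fun b m => (3 * Mn.cst b m : ℕ), fun P _ hΩ hP hg => ⟨Mn.far P hΩ hP hg, fun j =>
    ⟨Mn.lam P hP hg j, Mn.near P hP hg j, Mn.vert P hP j, fun _ hδ => Mn.ends P hP hg j hδ⟩⟩⟩

end P073
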