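import Vale.Agent.P073Z.ACC.Box.Fine

/-!
# The energy of a box
-/

open Set Metric Topology Filter MeasureTheory
open scoped ENNReal NNReal

namespace P073

namespace Bx

variable {Ω : Set E3} {P : Par} {M₀ : ℝ≥0} {Mt : Ty → ℕ → ℝ≥0} {S : Ty → ℕ → Set E3}

/-- the weighted line integral over a cube -/
noncomputable abbrev La (P : Par) (F : E3 → (E3 →L[ℝ] E3)) (p : ℝ) (j : Fin P.N)
    (z : Fin 3 → ℤ) : ℝ≥0∞ := P.lam j (P.cube j z) fun x => ‖F x - (P.T j).A‖ₑ ^ p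

/-- the weight of the tolerances -/
noncomputable abbrev Wt (P : Par) (p : ℝ) (j : Fin P.N) : ℝ≥0∞ :=
  (1 + be P p j) * (P.n : ℝ≥0∞) ^ 3

/-- the bound for fine cells -/
def FB (𝓜 : Mesh Ω P M₀ Mt S) (F : E3 → (E3 →L[ℝ] E3)) (h : E3 → E3) (p : ℝ)
    (θ : 𝓜.Q.ι → ℝ≥0∞) (j : Fin P.N) (c : ℝ≥0) : Prop :=
  ∀ i, 𝓜.Q.cell i ⊆ P.Fine j → 1 ≤ 𝓜.Q.dim i →
    En (𝓜.Q.dim i) p (h ∘ (𝓜.ν j).symm) (𝓜.ν j '' 𝓜.Q.cell i) ≤
      c * (al P p j * (P.n : ℝ≥0∞)⁻¹ ^ 𝓜.Q.dim i + be P p j * (P.n : ℝ≥0∞)⁻¹ ^ (𝓜.Q.dim i - 1) *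
        II 𝓜 F p j (𝓜.Q.cell i) + (1 + be P p j) * ∑' l, θ l)

variable {𝓜 : Mesh Ω P M₀ Mt S} {G : Set 𝓜.Q.ι} {F : E3 → (E3 →L[ℝ] E3)} {h : E3 → E3} {p : ℝ}
  {K₃ : ℝ≥0} {C : ℝ≥0 → ℝ≥0} {t : Fin P.N → ℝ} {θ : 𝓜.Q.ι → ℝ≥0∞} {j : Fin P.N} {i : 𝓜.Q.ι}
  {z z' : Fin 3 → ℤ} {J : Finset (Fin 3)} {c : ℝ≥0}

theorem box_buf (hz : z ∈ P.Buf j) (hs : uface z' J ⊆ ucube z) : P.box j z' J ⊆ P.BufSet j :=
  fun _ hx => ⟨z, hz, hs hx⟩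

theorem img_box (𝓜 : Mesh Ω P M₀ Mt S) (j : Fin P.N) (z : Fin 3 → ℤ) (J : Finset (Fin 3)) :
    𝓜.ν j '' P.box j z J = uface z J := by
  rw [Par.box, ← show (𝓜.ν j : E3 → E3) = P.nu j from funext (𝓜.ν_eq j)]
  exact image_preimage_eq _ (𝓜.ν j).surjective

theorem edge_sum (hE : ENA) (hc : CubeApi Ω P) (hl : CellApi 𝓜) (hz : z ∈ P.Buf j)
    (hs : uface z' J ⊆ ucube z) (hJ : J.card ≤ 2) :
    (P.n : ℝ≥0∞)⁻¹ ^ (2 - J.card) * II 𝓜 F p j (P.box j z' J) ≤ La P F p j z := by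
  refine le_trans (mul_le_mul_right ?_ _) (Finset.single_le_sum (f := fun c =>
    (P.n : ℝ≥0∞)⁻¹ ^ (2 - c) * lint (P.nu0 j ⁻¹' Lc P.n c)
      ((P.cube j z).indicator fun x => ‖F x - (P.T j).A‖ₑ ^ p) P.w) (fun _ _ => zero_le)
    (Finset.mem_range.2 (Nat.lt_succ_of_le hJ)))
  rw [lint, lintegral_indicator (hc.compact_cube j z).measurableSet,
    Measure.restrict_restrict (hc.compact_cube j z).measurableSet]
  exact hE.2.2.1 𝓜.Q _ _ fun e he => ⟨he.1, fun x hx => ⟨hs (he.2 hx),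
    hl.edge_line j e z' J he.1 (he.2.trans (box_buf hz hs)) he.2 x hx⟩⟩

theorem coface_sum (hl : CellApi 𝓜) {s : Set 𝓜.Q.ι} {X : Set E3}
    (hs : ∀ i ∈ s, 𝓜.Q.cell i ⊆ P.Fine j ∧ 𝓜.Q.cell i ⊆ X) :
    ∑' i, s.indicator (fun i => II 𝓜 F p j (𝓜.Q.cell i)) i ≤ M₀ * II 𝓜 F p j X := by
  have h1 : ∀ i, s.indicator (fun i => II 𝓜 F p j (𝓜.Q.cell i)) i = ∑' e,
      {i | i ∈ s ∧ 𝓜.Q.dim e = 1 ∧ 𝓜.Q.cell e ⊆ 𝓜.Q.cell i}.indicator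
        (fun _ => Ie 𝓜 F p j e) i := fun i => by
    by_cases h : i ∈ s
    · rw [indicator_of_mem h]
      refine tsum_congr fun e => ?_
      by_cases h' : 𝓜.Q.dim e = 1 ∧ 𝓜.Q.cell e ⊆ 𝓜.Q.cell i <;> simp [h, h']
    · simp [h]
  rw [tsum_congr h1, ENNReal.tsum_comm, ← ENNReal.tsum_mul_left]
  refine ENNReal.tsum_le_tsum fun e => ?_
  rcases {i | i ∈ s ∧ 𝓜.Q.dim e = 1 ∧ 𝓜.Q.cell e ⊆ 𝓜.Q.cell i}.eq_empty_or_nonempty with h | ⟨i, hi⟩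
  · simp [h]
  · rw [indicator_of_mem (show e ∈ {e | 𝓜.Q.dim e = 1 ∧ 𝓜.Q.cell e ⊆ X} from
      ⟨hi.2.1, hi.2.2.trans (hs i hi.1).2⟩)]
    refine (ind_le fun _ _ => le_rfl).trans (mul_le_mul_left ?_ _)
    exact le_trans (ENat.toENNReal_le.2 (encard_le_encard fun l hl => hl.2.2))
      (hl.fine_cofaces j e (hi.2.2.trans (hs i hi.1).1))

theorem count (hl : CellApi 𝓜) (hP : P.Ok Ω) {s : Set 𝓜.Q.ι}
    (hs : ∀ i ∈ s, 𝓜.Q.cell i ⊆ P.Fine j ∧ 𝓜.Q.cell i ⊆ P.box j z' J) :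
    (s.encard : ℝ≥0∞) * (P.n : ℝ≥0∞)⁻¹ ^ (3 - J.card) ≤ 8 * M₀ ∧
      (s.encard : ℝ≥0∞) ≤ 8 * M₀ * (P.n : ℝ≥0∞) ^ 3 := by
  have n2 : (1 : ℝ≥0∞) ≤ P.n := by exact_mod_cast hP.n_pos
  have n3 : (P.n : ℝ≥0∞) * (P.n : ℝ≥0∞)⁻¹ = 1 :=
    ENNReal.mul_inv_cancel (zero_lt_one.trans_le n2).ne' (ENNReal.natCast_ne_top _)
  have h1 : (s.encard : ℝ≥0∞) ≤ M₀ * (2 * P.n) ^ (3 - J.card) :=
    le_trans (ENat.toENNReal_le.2 (encard_le_encard hs)) (hl.fine_count j z' J)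
  have h2 : (2 : ℝ≥0∞) ^ (3 - J.card) ≤ 2 ^ 3 := pow_le_pow_right₀ one_le_two (Nat.sub_le _ _)
  constructor
  · calc _ ≤ M₀ * (2 * P.n) ^ (3 - J.card) * (P.n : ℝ≥0∞)⁻¹ ^ (3 - J.card) := by gcongr
      _ = 2 ^ (3 - J.card) * M₀ * ((P.n : ℝ≥0∞) * (P.n : ℝ≥0∞)⁻¹) ^ (3 - J.card) := by
        rw [mul_pow, mul_pow]; ring
      _ ≤ 2 ^ 3 * M₀ := by rw [n3, one_pow, mul_one]; gcongr
      _ = _ := by norm_num
  · calc (s.encard : ℝ≥0∞) ≤ M₀ * (2 * P.n) ^ (3 - J.card) := h1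
      _ ≤ M₀ * (2 ^ 3 * (P.n : ℝ≥0∞) ^ 3) := by
        rw [mul_pow]
        exact mul_le_mul_right (mul_le_mul' h2 (pow_le_pow_right₀ n2 (Nat.sub_le _ _))) _
      _ = _ := by ring

theorem fine_tot (hE : ENA) (hc : CubeApi Ω P) (hl : CellApi 𝓜) (hP : P.Ok Ω)
    (hF : FB 𝓜 F h p θ j c) (hz : z ∈ P.Buf j) (hs : uface z' J ⊆ ucube z) {k : ℕ}
    (hJ : J.card + k = 2) {s : Set 𝓜.Q.ι}
    (h0 : ∀ i ∈ s, 𝓜.Q.cell i ⊆ P.Fine j ∧ 𝓜.Q.cell i ⊆ P.box j z' J ∧ 𝓜.Q.dim i = k + 1) :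
    ∑' i, s.indicator (fun i => En (k + 1) p (h ∘ (𝓜.ν j).symm) (𝓜.ν j '' 𝓜.Q.cell i)) i ≤
      c * (al P p j * (P.n : ℝ≥0∞)⁻¹ ^ (k + 1) * (s.encard : ℝ≥0∞) +
        8 * M₀ * (be P p j * La P F p j z + Wt P p j * ∑' l, θ l)) := by
  have h1 := ind_aff (s := s) (a := c * (al P p j * (P.n : ℝ≥0∞)⁻¹ ^ (k + 1) +
      (1 + be P p j) * ∑' l, θ l)) (b := c * (be P p j * (P.n : ℝ≥0∞)⁻¹ ^ k))
    (f := fun i => En (k + 1) p (h ∘ (𝓜.ν j).symm) (𝓜.ν j '' 𝓜.Q.cell i))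
    (g := fun i => II 𝓜 F p j (𝓜.Q.cell i)) fun i hi => by
      have h2 := hF i (h0 i hi).1 (by rw [(h0 i hi).2.2]; omega)
      rw [(h0 i hi).2.2, Nat.add_sub_cancel] at h2
      exact h2.trans_eq (by ring)
  have h2 := coface_sum (F := F) (p := p) hl fun i hi => ⟨(h0 i hi).1, (h0 i hi).2.1⟩
  have h3 := edge_sum (F := F) (p := p) hE hc hl hz hs (by omega)
  have h4 := (count hl hP fun i hi => ⟨(h0 i hi).1, (h0 i hi).2.1⟩).2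
  rw [show 2 - J.card = k by omega] at h3
  calc _ ≤ _ := h1
    _ ≤ (s.encard : ℝ≥0∞) * (c * (al P p j * (P.n : ℝ≥0∞)⁻¹ ^ (k + 1) +
        (1 + be P p j) * ∑' l, θ l)) + c * (be P p j * (P.n : ℝ≥0∞)⁻¹ ^ k) *
          (M₀ * II 𝓜 F p j (P.box j z' J)) := by gcongr
    _ = c * (al P p j * (P.n : ℝ≥0∞)⁻¹ ^ (k + 1) * (s.encard : ℝ≥0∞) + (1 * M₀ * be P p j *
        ((P.n : ℝ≥0∞)⁻¹ ^ k * II 𝓜 F p j (P.box j z' J)) +
          (s.encard : ℝ≥0∞) * ((1 + be P p j) * ∑' l, θ l))) := by ring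
    _ ≤ c * (al P p j * (P.n : ℝ≥0∞)⁻¹ ^ (k + 1) * (s.encard : ℝ≥0∞) + (8 * M₀ * be P p j *
        La P F p j z + 8 * M₀ * (P.n : ℝ≥0∞) ^ 3 * ((1 + be P p j) * ∑' l, θ l))) := by
      gcongr
      norm_num
    _ = _ := by ring

/-- the constants for boxes -/
noncomputable def cb (K M c e : ℝ≥0) : ℕ → ℝ≥0
  | 0 => c * (8 * M) + K
  | k + 1 => c * (8 * M) + (e * (6 * cb K M c e k) + 1)

theorem box_tot (hE : ENA) (hc : CubeApi Ω P) (hl : CellApi 𝓜) (hP : P.Ok Ω)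
    (ho : Out 𝓜 G F h p K₃ C t θ) (hp : 1 ≤ p) (hF : FB 𝓜 F h p θ j c) (hz : z ∈ P.Buf j)
    (k : ℕ) : ∀ z' J, uface z' J ⊆ ucube z → J.card + k = 2 →
      ∑' i, {i | 𝓜.Q.cell i ⊆ P.box j z' J ∧ 𝓜.Q.dim i = k + 1}.indicator
        (fun i => En (k + 1) p (h ∘ (𝓜.ν j).symm) (𝓜.ν j '' 𝓜.Q.cell i)) i ≤
      cb K₃ M₀ c (C M₀) k * (al P p j + (be P p j * La P F p j z + Wt P p j * ∑' l, θ l)) := by
  have n2 : (1 : ℝ≥0∞) ≤ P.n := by exact_mod_cast hP.n_pos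
  have w1 : 1 + be P p j ≤ Wt P p j := le_mul_of_one_le_right zero_le (one_le_pow₀ n2)
  set R := al P p j + (be P p j * La P F p j z + Wt P p j * ∑' l, θ l) with hR
  have key : ∀ (k : ℕ) z' J (x : ℝ≥0∞), uface z' J ⊆ ucube z → J.card + k = 2 →
      (∀ i, 𝓜.Q.cell i ⊆ P.box j z' J → 𝓜.Q.dim i = k + 1 → ¬ 𝓜.Q.cell i ⊆ P.Fine j →
        En (k + 1) p (h ∘ (𝓜.ν j).symm) (𝓜.ν j '' 𝓜.Q.cell i) ≤ x * R) →
      ∑' i, {i | 𝓜.Q.cell i ⊆ P.box j z' J ∧ 𝓜.Q.dim i = k + 1}.indicator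
        (fun i => En (k + 1) p (h ∘ (𝓜.ν j).symm) (𝓜.ν j '' 𝓜.Q.cell i)) i ≤
        (c * (8 * M₀) + x) * R := by
    intro k z' J x hs hJ hx
    rw [add_mul]
    refine (ind_split {i | 𝓜.Q.cell i ⊆ P.Fine j}).trans (add_le_add ((fine_tot hE hc hl hP hF hz
      hs hJ fun i hi => ⟨hi.2, hi.1⟩).trans ?_)
      ((ind_le fun i hi => hx i hi.1.1 hi.1.2 hi.2).trans (mul_le_of_le_one_left zero_le ?_)))
    · have h1 := (count (s := {i | 𝓜.Q.cell i ⊆ P.box j z' J ∧ 𝓜.Q.dim i = k + 1} ∩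
        {i | 𝓜.Q.cell i ⊆ P.Fine j}) hl hP fun i hi => ⟨hi.2, hi.1.1⟩).1
      rw [show 3 - J.card = k + 1 by omega, mul_comm] at h1
      rw [mul_assoc (c : ℝ≥0∞), hR, mul_add (8 * M₀ : ℝ≥0∞) (al P p j), mul_assoc (al P p j),
        mul_comm _ (al P p j)]
      gcongr
    · have e : ∀ i ∈ {i | 𝓜.Q.cell i ⊆ P.box j z' J ∧ 𝓜.Q.dim i = k + 1} \
          {i | 𝓜.Q.cell i ⊆ P.Fine j}, 𝓜.Q.cell i = P.box j z' J := fun i hi =>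
        (hl.box_cell j z' J i (hi.1.1.trans (box_buf hz hs)) hi.1.1
          (by rw [hi.1.2]; omega) hi.2).1
      exact_mod_cast encard_le_one_iff.2 fun a b ha hb =>
        𝓜.Q.cell_injective ((e a ha).trans (e b hb).symm)
  induction k with
  | zero =>
    intro z' J hs hJ
    rw [cb]
    push_cast
    refine key 0 z' J _ hs hJ fun i hi hd hn => ?_
    obtain ⟨x, y, -, -, -, he, -⟩ := 𝓜.cvx.exists_segment hd
    refine (wire' hc ho hp hd he one_ne_zero ENNReal.one_ne_top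
      ((hl.edge_len j i x y hd he (hi.trans (box_buf hz hs))).2 hn)).trans ?_
    have h1 := edge_sum (F := F) (p := p) hE hc hl hz hs (by omega)
    rw [show 2 - J.card = 0 by omega, pow_zero, one_mul] at h1
    rw [mul_one, mul_add (be P p j), hR]
    gcongr
    · exact (le_ind (s := {e | 𝓜.Q.dim e = 1 ∧ 𝓜.Q.cell e ⊆ P.box j z' J})
        (f := fun e => Ie 𝓜 F p j e) ⟨hd, hi⟩).trans h1
    · exact le_add_self.trans w1
    · exact ENNReal.le_tsum i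
  | succ k ih =>
    intro z' J hs hJ
    rw [cb]
    push_cast
    refine key (k + 1) z' J _ hs hJ fun i hi hd hn => ?_
    have hb := hi.trans (box_buf hz hs)
    obtain ⟨h1, -, h2⟩ := 𝓜.buf_chart i j hb
    have h3 := ho.ext i (fun hG => hn (good' hc ho hG hb).1) (by omega)
    rw [hd, h1, Nat.add_sub_cancel, show 𝓜.nm i = 𝓜.ν j from
      ContinuousAffineEquiv.ext fun x => (h2 hn x).trans (𝓜.ν_eq j x).symm] at h3
    have h4 : ∀ q ∈ Jᶜ ×ˢ ({0, 1} : Finset ℤ),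
        uface (z' + Pi.single q.1 q.2) (insert q.1 J) ⊆ ucube z := fun q hq => by
      obtain ⟨q1, q2⟩ := Finset.mem_product.1 hq
      obtain ⟨l1, l2⟩ := hl.face_sub z' J q.1 (Finset.mem_compl.1 q1)
      rcases Finset.mem_insert.1 q2 with l | l
      · rw [l, Pi.single_zero, add_zero]
        exact l1.trans hs
      · rw [Finset.mem_singleton.1 l]
        exact l2.trans hs
    have h7 := hE.1 𝓜.Q (𝓜.ν j) (k + 1) (h ∘ (𝓜.ν j).symm) (zero_lt_one.trans_le hp)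
      (𝓜.Q.sub_bd i) (𝓜.Q.isCompact_bd i) fun l hl => by have := 𝓜.Q.dim_lt hl; omega
    have h9 := ind_cover (s := {l | 𝓜.Q.cell l ⊆ 𝓜.Q.bd i ∧ 𝓜.Q.dim l = k + 1})
      (f := fun l => En (k + 1) p (h ∘ (𝓜.ν j).symm) (𝓜.ν j '' 𝓜.Q.cell l))
      (Jᶜ ×ˢ ({0, 1} : Finset ℤ)) (fun q => {l | 𝓜.Q.cell l ⊆
        P.box j (z' + Pi.single q.1 q.2) (insert q.1 J) ∧ 𝓜.Q.dim l = k + 1}) fun l hl' => by
      obtain ⟨x, hx⟩ := 𝓜.Q.ocell_nonempty l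
      obtain ⟨m, m1, m2⟩ := (hl.box_cell j z' J i hb hi (by omega) hn).2 x
        (hl'.1 (𝓜.Q.ocell_subset l hx))
      obtain ⟨ε, e1, e2⟩ : ∃ ε ∈ ({0, 1} : Finset ℤ),
          x ∈ P.box j (z' + Pi.single m ε) (insert m J) := by
        rcases m2 with l | l
        · exact ⟨0, by simp, by rwa [Pi.single_zero, add_zero]⟩
        · exact ⟨1, by simp, l⟩
      have e3 : (m, ε) ∈ Jᶜ ×ˢ ({0, 1} : Finset ℤ) :=
        Finset.mem_product.2 ⟨Finset.mem_compl.2 m1, e1⟩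
      exact ⟨(m, ε), e3, (hl.sub_box j z hz _ _ (h4 _ e3)).cell_subset hx e2, hl'.2⟩
    have h5 : En (k + 1) p (h ∘ (𝓜.ν j).symm) (𝓜.ν j '' 𝓜.Q.bd i) ≤
        (Jᶜ ×ˢ ({0, 1} : Finset ℤ)).card • (cb K₃ M₀ c (C M₀) k * R) := by
      refine (h7.trans h9).trans (Finset.sum_le_card_nsmul _ _ _ fun q hq => ?_)
      refine ih _ _ (h4 q hq) ?_
      rw [Finset.card_insert_of_notMem (Finset.mem_compl.1 (Finset.mem_product.1 hq).1)]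
      omega
    have h6 : (((Jᶜ ×ˢ ({0, 1} : Finset ℤ)).card : ℕ) : ℝ≥0∞) ≤ 6 := by
      have l := Jᶜ.card_le_univ
      rw [Fintype.card_fin] at l
      rw [Finset.card_product, Finset.card_pair zero_ne_one]
      exact_mod_cast (by omega : Jᶜ.card * 2 ≤ 6)
    rw [nsmul_eq_mul] at h5
    rw [add_mul, one_mul, mul_assoc, mul_assoc]
    refine h3.trans (add_le_add (mul_le_mul_right (h5.trans (mul_le_mul_left h6 _)) _) ?_)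
    exact (((ENNReal.le_tsum i).trans (le_mul_of_one_le_left zero_le
      (le_self_add.trans w1))).trans le_add_self).trans le_add_self

theorem en_box (hE : ENA) (hc : CubeApi Ω P) (hl : CellApi 𝓜) (hp : 0 < p) (hz : z ∈ P.Buf j)
    {k : ℕ} (hJ : J.card + k = 2) (H : E3 → E3) :
    En (k + 1) p H (uface z J) ≤ ∑' i, {i | 𝓜.Q.cell i ⊆ P.box j z J ∧ 𝓜.Q.dim i = k + 1}.indicator
      (fun i => En (k + 1) p H (𝓜.ν j '' 𝓜.Q.cell i)) i := by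
  rw [← img_box 𝓜 j]
  exact hE.1 𝓜.Q (𝓜.ν j) (k + 1) H hp (hl.sub_box j z hz z J fun _ h => h.1)
    (hc.compact_box j z J) fun l h => by have := hl.box_dim j z J l h; omega

theorem inner_box (hE : ENA) (hc : CubeApi Ω P) (hl : CellApi 𝓜) (hP : P.Ok Ω)
    (ho : Out 𝓜 G F h p K₃ C t θ) (hp : 1 ≤ p) (hp2 : p < 2) (hF : FB 𝓜 F h p θ j c)
    (hz : z ∈ P.Inner j) {k : ℕ} (hk : (P.T j).r = k + 1) :
    En (k + 1) p (fun ξ => (h ∘ (𝓜.ν j).symm) ξ - P.B j ξ) (uface z (P.T j).I) ≤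
      (4 * (c + (2 * M₀ + 1) ^ 3) * (1 + 8 * M₀)) *
        (ENNReal.ofReal (t j * (P.T j).b * P.a j) ^ p + al P p j * (P.n : ℝ≥0∞)⁻¹ ^ (k + 1) *
          ({i | 𝓜.Q.cell i ⊆ P.box j z (P.T j).I ∧ 𝓜.Q.dim i = k + 1 ∧ i ∉ G}.encard : ℝ≥0∞) +
        (be P p j * La P F p j z + Wt P p j * ∑' l, θ l)) := by
  have p0 : 0 < p := zero_lt_one.trans_le hp
  have hJ : (P.T j).I.card + k = 2 := by have := hc.card_I j; omega
  have hb : P.box j z (P.T j).I ⊆ P.Fine j := fun x hx => ⟨z, hz, hx⟩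
  have e : {i | 𝓜.Q.cell i ⊆ P.box j z (P.T j).I ∧ 𝓜.Q.dim i = k + 1 ∧ i ∉ G} =
      {i | 𝓜.Q.cell i ⊆ P.box j z (P.T j).I ∧ 𝓜.Q.dim i = k + 1} \ G :=
    Set.ext fun i => and_assoc.symm
  rw [e]
  set s := {i | 𝓜.Q.cell i ⊆ P.box j z (P.T j).I ∧ 𝓜.Q.dim i = k + 1} with hs
  have h1 := ind_le (s := s ∩ G) (f := fun i => En (k + 1) p
      (fun ξ => (h ∘ (𝓜.ν j).symm) ξ - P.B j ξ) (𝓜.ν j '' 𝓜.Q.cell i)) fun i hi => by
    have l := good_en hc hl ho p0 hi.2 (hi.1.1.trans hb) (by rw [hi.1.2]; omega)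
    rwa [hi.1.2] at l
  have h2 := (count (s := s ∩ G) hl hP fun i hi => ⟨hi.1.1.trans hb, hi.1.1⟩).1
  rw [show 3 - (P.T j).I.card = k + 1 by omega] at h2
  have h3 := ind_aff (s := s \ G) (a := 4 * (al P p j *
      ((2 * M₀ + 1) ^ 3 * (P.n : ℝ≥0∞)⁻¹ ^ (k + 1)))) (b := 4) (f := fun i => En (k + 1) p
      (fun ξ => (h ∘ (𝓜.ν j).symm) ξ - P.B j ξ) (𝓜.ν j '' 𝓜.Q.cell i))
      (g := fun i => En (k + 1) p (h ∘ (𝓜.ν j).symm) (𝓜.ν j '' 𝓜.Q.cell i)) fun i hi => by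
    have l := meas_le hl (hi.1.1.trans hb) (by rw [hi.1.2]; omega)
    rw [hi.1.2] at l
    refine (hE.2.1 (k + 1) _ (P.B j) hp (meas_img _ (𝓜.Q.isCompact_cell i))).1.trans ?_
    rw [← mul_add, add_comm]
    gcongr
    · exact two_rpow hp2
    · rw [← ofReal_norm]
      exact ENNReal.rpow_le_rpow (ENNReal.ofReal_le_ofReal (hc.B_le j)) p0.le
  have h4 := fine_tot hE hc hl hP hF (hc.inner_buf j hz) (fun _ h => h.1) hJ (s := s \ G)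
    fun i hi => ⟨hi.1.1.trans hb, hi.1⟩
  refine ((en_box hE hc hl p0 (hc.inner_buf j hz) hJ _).trans (ind_split G)).trans
    ((add_le_add h1 (h3.trans (add_le_add_right (mul_le_mul_right h4 _) _))).trans ?_)
  generalize ((s \ G).encard : ℝ≥0∞) = N
  generalize ((s ∩ G).encard : ℝ≥0∞) = N' at h2
  generalize ENNReal.ofReal (t j * (P.T j).b * P.a j) ^ p = τ
  generalize be P p j * La P F p j z + Wt P p j * ∑' l, θ l = R
  generalize (P.n : ℝ≥0∞)⁻¹ ^ (k + 1) = u at h2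
  generalize (2 * (M₀ : ℝ≥0∞) + 1) ^ 3 = m
  generalize al P p j = α
  calc _ = m * (N' * u) * τ + 4 * (c + m) * (α * u * N) + 4 * c * (8 * M₀) * R := by ring
    _ ≤ 4 * (c + m) * (1 + 8 * M₀) * τ + 4 * (c + m) * (1 + 8 * M₀) * (α * u * N) +
        4 * (c + m) * (1 + 8 * M₀) * R := by
      refine add_le_add (add_le_add (mul_le_mul_left (mul_le_mul' ?_ (h2.trans le_add_self)) _)
        (mul_le_mul_left (le_mul_of_one_le_right zero_le le_self_add) _))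
        (mul_le_mul_left (mul_le_mul' (mul_le_mul_right le_self_add _) le_add_self) _)
      exact le_add_self.trans (le_mul_of_one_le_left zero_le (by norm_num))
    _ = _ := by ring

end Bx

open Bx in
theorem box_of (h1 : CUBE) (h2 : CELL) (hS : SCALE) (hE : ENA) : BOX := by
  intro p hp hp2 K₃ M₀ C
  obtain ⟨c, hc0⟩ := fcell_of h1 h2 hS hE hp hp2 K₃ M₀ C
  obtain ⟨c', hc1, hc2⟩ : ∃ c' : ℝ≥0, (∀ k < 3, cb K₃ M₀ c (C M₀) k ≤ c') ∧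
      4 * (c + (2 * M₀ + 1) ^ 3) * (1 + 8 * M₀) ≤ c' :=
    ⟨∑ k ∈ Finset.range 3, cb K₃ M₀ c (C M₀) k + _, fun k hk => (Finset.single_le_sum
      (f := cb K₃ M₀ c (C M₀)) (fun _ _ => zero_le) (Finset.mem_range.2 hk)).trans le_self_add,
      le_add_self⟩
  refine ⟨c', fun {Ω P Mt S} 𝓜 hΩ hP => ?_⟩
  have hc := h1 P hΩ hP
  have hl := h2 𝓜 hΩ hP
  have hW : ∑ j, c' * Wt P p j ≠ ⊤ := ENNReal.sum_ne_top.2 fun j _ =>
    ENNReal.mul_ne_top ENNReal.coe_ne_top (ENNReal.mul_ne_top (ENNReal.add_ne_top.2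
      ⟨ENNReal.one_ne_top, ENNReal.rpow_ne_top_of_nonneg (sub_nonneg.2 hp) ENNReal.ofReal_ne_top⟩)
      (ENNReal.pow_ne_top (ENNReal.natCast_ne_top _)))
  refine ⟨(∑ j, c' * Wt P p j).toNNReal, fun {G F h t θ} ho j => ?_⟩
  have hF : FB 𝓜 F h p θ j c := fun i hi hd => (hc0 𝓜 hΩ hP ho j i hi hd).1
  have hD : c' * (Wt P p j * ∑' l, θ l) ≤ (∑ j, c' * Wt P p j).toNNReal * ∑' l, θ l := by
    rw [ENNReal.coe_toNNReal hW, ← mul_assoc]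
    exact mul_le_mul_left (Finset.single_le_sum (f := fun j => c' * Wt P p j)
      (fun _ _ => zero_le) (Finset.mem_univ j)) _
  refine ⟨fun z hz J hJ => ?_, fun z hz => ?_⟩
  · obtain ⟨k, hk⟩ := Nat.exists_eq_add_of_le hJ
    rw [show 3 - J.card = k + 1 by omega]
    refine ((en_box hE hc hl (zero_lt_one.trans_le hp) hz hk.symm _).trans
      (box_tot hE hc hl hP ho hp hF hz k z J (fun _ h => h.1) hk.symm)).trans
      ((mul_le_mul_left (ENNReal.coe_le_coe.2 (hc1 k (by omega))) _).trans ?_)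
    rw [← add_assoc, mul_add]
    exact add_le_add_right hD _
  · obtain ⟨k, hk⟩ : ∃ k, (P.T j).r = k + 1 := ⟨(P.T j).r - 1, by have := (P.T j).r_pos; omega⟩
    rw [show 3 - (P.T j).I.card = k + 1 by have := hc.card_I j; omega, hk]
    refine (inner_box hE hc hl hP ho hp hp2 hF hz hk).trans
      ((mul_le_mul_left (c := (c' : ℝ≥0∞)) (by exact_mod_cast hc2) _).trans ?_)
    rw [← add_assoc, mul_add]
    exact add_le_add_right hD _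

end P073
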