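import Vale.Agent.P073Z.ACC.Sk
import Vale.Agent.P073Z.Dens2
import Vale.Agent.P073Z.KUHN

/-!
# The fine cells of the source mesh
-/

open Set Metric Topology Filter MeasureTheory
open scoped ENNReal NNReal

namespace P073

namespace Cell

/-! ### Kuhn cells -/

theorem self_mem_kv {v : E3} (hv : ∀ i, ∃ k : ℤ, v i = k) : v ∈ kv v :=
  Kuhn.mem_kv.2 ⟨hv, fun i => by simp, fun i j => by simp⟩

theorem kcell_int {ζ ξ : E3} (h : ξ ∈ kcell ζ) {i : Fin 3} {k : ℤ} (hk : ζ i = k) : ξ i = k :=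
  le_antisymm ((h.1 i k).2 hk.le) ((h.1 i k).1 hk.ge)

theorem kcell_diam {ζ ξ ξ' : E3} (h : ξ ∈ kcell ζ) (h' : ξ' ∈ kcell ζ) : ‖ξ' - ξ‖ ≤ 1 := by
  refine (pi_norm_le_iff_of_nonneg zero_le_one).2 fun i => ?_
  have a := (h.1 i ⌊ζ i⌋).1 (Int.floor_le _)
  have a' := (h'.1 i ⌊ζ i⌋).1 (Int.floor_le _)
  have c : ζ i ≤ ((⌊ζ i⌋ + 1 : ℤ) : ℝ) := by
    push_cast
    exact (Int.lt_floor_add_one _).le
  have b := (h.1 i _).2 c
  have b' := (h'.1 i _).2 c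
  push_cast at b b'
  rw [Pi.sub_apply, Real.norm_eq_abs, abs_le]
  constructor <;> linarith

/-- two vertices of a Kuhn cell are comparable -/
theorem kv_step {ζ v w : E3} (hv : v ∈ kv ζ) (hw : w ∈ kv ζ) :
    (∀ i, w i = v i ∨ w i = v i + 1) ∨ ∀ i, v i = w i ∨ v i = w i + 1 := by
  obtain ⟨a, b, c⟩ := Kuhn.mem_kv.1 hv
  obtain ⟨a', b', c'⟩ := Kuhn.mem_kv.1 hw
  have key : ∀ i, w i = v i ∨ w i = v i + 1 ∨ v i = w i + 1 := by
    intro i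
    obtain ⟨k, hk⟩ := a i
    obtain ⟨l, hl⟩ := a' i
    have h1 := abs_lt.1 (b i)
    have h2 := abs_lt.1 (b' i)
    rw [hk] at h1 ⊢
    rw [hl] at h2 ⊢
    have h3 : k < l + 2 := by
      have : (k : ℝ) < l + 2 := by linarith [h1.1, h2.2]
      exact_mod_cast this
    have h4 : l < k + 2 := by
      have : (l : ℝ) < k + 2 := by linarith [h1.2, h2.1]
      exact_mod_cast this
    have h5 : l = k ∨ l = k + 1 ∨ k = l + 1 := by omega
    rcases h5 with h | h | h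
    · exact Or.inl (by rw [h])
    · exact Or.inr (Or.inl (by rw [h]; push_cast; rfl))
    · exact Or.inr (Or.inr (by rw [h]; push_cast; rfl))
  by_contra hc
  rw [not_or, not_forall, not_forall] at hc
  obtain ⟨⟨i, hi⟩, j, hj⟩ := hc
  rw [not_or] at hi hj
  have h1 : v i = w i + 1 := ((key i).resolve_left hi.1).resolve_left hi.2
  have h2 : w j = v j + 1 :=
    ((key j).resolve_left fun e => hj.1 e.symm).resolve_right hj.2
  have h3 := abs_lt.1 (c i j)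
  have h4 := abs_lt.1 (c' i j)
  linarith [h3.1, h4.2]

theorem exists_pair {α : Type} {t : Finset α} (h0 : t.Nonempty) (h2 : t.card ≤ 2) :
    ∃ v ∈ t, ∃ w ∈ t, (t : Set α) = {v, w} := by
  classical
  have := h0.card_pos
  rcases (by omega : t.card = 1 ∨ t.card = 2) with h | h
  · obtain ⟨a, rfl⟩ := Finset.card_eq_one.1 h
    exact ⟨a, by simp, a, by simp, by simp⟩
  · obtain ⟨a, b, -, rfl⟩ := Finset.card_eq_two.1 h
    exact ⟨a, by simp, b, by simp, by simp⟩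

/-- points on a Kuhn segment lie on the lines -/
theorem mem_Lc {n : ℕ} {v w ξ : E3} (J : Finset (Fin 3)) (hv : ∀ i, ∃ k : ℤ, v i = k)
    (hw : ∀ i, w i = v i ∨ w i = v i + 1) (hJ : ∀ i ∈ J, w i = v i ∧ ∃ k : ℤ, v i = n * k)
    (hξ : (n : ℝ) • ξ ∈ segment ℝ v w) : ξ ∈ Lc n J.card := by
  classical
  choose k hk using hv
  rw [segment_eq_image'] at hξ
  obtain ⟨t, -, ht⟩ := hξ
  refine ⟨k, fun i => if w i = v i then 0 else 1, J, t, rfl, fun i => ?_, fun i hi => ?_,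
    fun i => ?_⟩
  · by_cases h : w i = v i <;> simp [h]
  · obtain ⟨h1, l, hl⟩ := hJ i hi
    refine ⟨if_pos h1, l, ?_⟩
    have : (k i : ℝ) = ((n : ℤ) * l : ℤ) := by
      rw [← hk, hl]
      push_cast
      rfl
    exact_mod_cast this
  · have e := congrFun ht i
    simp only [Pi.add_apply, Pi.smul_apply, Pi.sub_apply, smul_eq_mul] at e
    rw [← e, ← hk]
    by_cases h : w i = v i
    · simp [h]
    · have h' := (hw i).resolve_left h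
      simp only [if_neg h]
      rw [h']
      simp

/-! ### fine cells -/

variable {Ω : Set E3} {P : Par} {M₀ : ℝ≥0} {Mt : Ty → ℕ → ℝ≥0} {S : Ty → ℕ → Set E3}

theorem n_pos (hP : P.Ok Ω) : (0 : ℝ) < P.n := by exact_mod_cast hP.n_pos

theorem finrank_image (θ : E3 ≃ᴬ[ℝ] E3) (C : Set E3) :
    Module.finrank ℝ (vectorSpan ℝ (θ '' C)) = Module.finrank ℝ (vectorSpan ℝ C) := by
  have e := AffineMap.map_vectorSpan (s := C) θ.toAffineEquiv.toAffineMap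
  have e' : (θ.toAffineEquiv.toAffineMap : E3 → E3) = θ := rfl
  rw [e'] at e
  rw [← e]
  exact LinearEquiv.finrank_map_eq θ.toAffineEquiv.linear _

/-- the structure of a fine cell -/
theorem fine_struct (𝓜 : Mesh Ω P M₀ Mt S) (hc : CubeApi Ω P) {j : Fin P.N} {i : 𝓜.Q.ι}
    (h : 𝓜.Q.cell i ⊆ P.Fine j) : ∃ (x₀ : E3) (t : Finset E3), x₀ ∈ 𝓜.Q.cell i ∧
    (∀ x, 𝓜.nm i x = (P.n : ℝ) • P.nu j x) ∧
    (t : Set E3) = kv (𝓜.nm i x₀) ∧ t.card ≤ 4 ∧ t.card = 𝓜.Q.dim i + 1 ∧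
    kcell (𝓜.nm i x₀) = convexHull ℝ (t : Set E3) ∧
    𝓜.nm i '' 𝓜.Q.cell i = kcell (𝓜.nm i x₀) ∧
    ∀ x, x ∈ 𝓜.Q.cell i ↔ 𝓜.nm i x ∈ kcell (𝓜.nm i x₀) := by
  obtain ⟨x₀, hx₀⟩ := 𝓜.Q.ocell_nonempty i
  have hn := (𝓜.buf_chart i j (h.trans (hc.fine_buf j))).2.1 h
  have h1 : ∀ x, x ∈ 𝓜.Q.cell i ↔ 𝓜.nm i x ∈ kcell (𝓜.nm i x₀) := fun x => by
    rw [hn, hn]
    exact (Set.ext_iff.1 (𝓜.fine j i h x₀ hx₀) x)
  have h2 : 𝓜.nm i '' 𝓜.Q.cell i = kcell (𝓜.nm i x₀) := by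
    ext y
    constructor
    · rintro ⟨x, hx, rfl⟩
      exact (h1 x).1 hx
    · intro hy
      refine ⟨(𝓜.nm i).symm y, (h1 _).2 ?_, (𝓜.nm i).apply_symm_apply y⟩
      rwa [(𝓜.nm i).apply_symm_apply]
  obtain ⟨t, t1, t2, t3, t4, -⟩ := kuhn.2 (𝓜.nm i x₀)
  refine ⟨x₀, t, hx₀.1, hn, t1, t2, ?_, t4, h2, h1⟩
  have hne : t.Nonempty := by
    rw [← Finset.coe_nonempty, ← convexHull_nonempty_iff (𝕜 := ℝ), ← t4]
    exact ⟨_, Kuhn.self_mem_kcell _⟩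
  have h7 := t3.finrank_vectorSpan (n := t.card - 1)
    (by rw [Fintype.card_coe]; have := hne.card_pos; omega)
  have h9 : range (Subtype.val : t → E3) = (t : Set E3) := Subtype.range_coe
  have h8 := finrank_image (𝓜.nm i) (𝓜.Q.cell i)
  rw [h2, t4, ← direction_affineSpan, affineSpan_convexHull, direction_affineSpan,
    ← (𝓜.cvx i).2.2] at h8
  rw [h9, h8] at h7
  have := hne.card_pos
  omega

theorem fine_flat (𝓜 : Mesh Ω P M₀ Mt S) (hP : P.Ok Ω) (hc : CubeApi Ω P) :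
    ∀ j i, 𝓜.Q.cell i ⊆ P.Fine j → ∀ x ∈ 𝓜.Q.cell i, ∀ y ∈ 𝓜.Q.cell i,
    (∀ k ∈ (P.T j).I, P.nu j x k = P.nu j y k) ∧
      ‖y - x‖ ≤ (P.T j).b * P.a j * ‖P.nu j y - P.nu j x‖ := by
  intro j i h x hx y hy
  obtain ⟨x₀, t, h0, hn, -, -, -, -, -, h1⟩ := fine_struct 𝓜 hc h
  obtain ⟨z, -, hz⟩ := h h0
  have key : ∀ k ∈ (P.T j).I, ∀ u ∈ 𝓜.Q.cell i, P.nu j u k = z k := by
    intro k hk u hu
    have e : 𝓜.nm i x₀ k = ((P.n * z k : ℤ) : ℝ) := by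
      rw [hn, Pi.smul_apply, hz.2 k hk]
      push_cast
      rfl
    have e2 := kcell_int ((h1 u).1 hu) e
    rw [hn, Pi.smul_apply, smul_eq_mul] at e2
    push_cast at e2
    exact mul_left_cancel₀ (n_pos hP).ne' e2
  have h2 : ∀ k ∈ (P.T j).I, P.nu j x k = P.nu j y k := fun k hk => by
    rw [key k hk x hx, key k hk y hy]
  refine ⟨h2, ?_⟩
  have e : y - x = P.Lam j (P.nu j y - P.nu j x) := by
    rw [map_sub]
    conv_lhs => rw [← hc.lam_nu j y, ← hc.lam_nu j x]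
    abel
  rw [e]
  exact hc.lam_flat j _ fun k hk => by rw [Pi.sub_apply, h2 k hk, sub_self]

theorem fine_diam (𝓜 : Mesh Ω P M₀ Mt S) (hP : P.Ok Ω) (hc : CubeApi Ω P) :
    ∀ j i, 𝓜.Q.cell i ⊆ P.Fine j → ∀ x ∈ 𝓜.Q.cell i, ∀ y ∈ 𝓜.Q.cell i,
    ‖P.nu j y - P.nu j x‖ ≤ (P.n : ℝ)⁻¹ := by
  intro j i h x hx y hy
  obtain ⟨x₀, t, -, hn, -, -, -, -, -, h1⟩ := fine_struct 𝓜 hc h
  have h2 := kcell_diam ((h1 x).1 hx) ((h1 y).1 hy)
  rw [hn, hn, ← smul_sub, norm_smul, Real.norm_of_nonneg (n_pos hP).le] at h2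
  rw [← one_div, le_div_iff₀ (n_pos hP), mul_comm]
  exact h2

/-- every fine cell contains a lattice point -/
theorem exists_vertex (𝓜 : Mesh Ω P M₀ Mt S) (hc : CubeApi Ω P) {j : Fin P.N} {i : 𝓜.Q.ι}
    (h : 𝓜.Q.cell i ⊆ P.Fine j) :
    ∃ x ∈ 𝓜.Q.cell i, ∀ k, ∃ l : ℤ, ((P.n : ℝ) • P.nu j x) k = l := by
  obtain ⟨x₀, t, -, hn, t1, -, t2, -, h2, -⟩ := fine_struct 𝓜 hc h
  obtain ⟨v, hv⟩ : t.Nonempty := Finset.card_pos.1 (by omega)
  have hv' : v ∈ kv (𝓜.nm i x₀) := t1 ▸ Finset.mem_coe.2 hv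
  obtain ⟨x, hx, e⟩ := h2.symm.subset (Kuhn.kv_subset_kcell _ hv')
  refine ⟨x, hx, ?_⟩
  rw [← hn, e]
  exact hv'.1

theorem encard_mem (𝓜 : Mesh Ω P M₀ Mt S) {j : Fin P.N} (x : E3) :
    ({i | x ∈ P.Fine j ∧ x ∈ 𝓜.Q.cell i}.encard : ℝ≥0∞) ≤ M₀ := by
  by_cases hx : x ∈ P.Fine j
  · have hf := 𝓜.Q.finite_mem ((𝓜.sub_fine j).subset_carrier hx)
    have e : {i | x ∈ P.Fine j ∧ x ∈ 𝓜.Q.cell i} = {i | x ∈ 𝓜.Q.cell i} := by
      ext i
      simp [hx]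
    rw [e, ← hf.cast_ncard_eq]
    have h1 : (({i | x ∈ 𝓜.Q.cell i}.ncard : ℕ) : ℝ≥0) ≤ M₀ := by
      exact_mod_cast 𝓜.mult_fine j x hx
    have h2 := ENNReal.coe_le_coe.2 h1
    rw [ENNReal.coe_natCast] at h2
    rw [ENat.toENNReal_coe]
    exact h2
  · have e : {i | x ∈ P.Fine j ∧ x ∈ 𝓜.Q.cell i} = ∅ := by
      ext i
      simp [hx]
    rw [e]
    simp

/-- counting cells through finitely many points -/
theorem encard_le_of_points (𝓜 : Mesh Ω P M₀ Mt S) {j : Fin P.N} {α : Type} (V : Finset α)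
    (f : α → E3) {X : Set 𝓜.Q.ι} (h : ∀ i ∈ X, ∃ v ∈ V, f v ∈ P.Fine j ∧ f v ∈ 𝓜.Q.cell i) :
    (X.encard : ℝ≥0∞) ≤ V.card * M₀ := by
  have h1 : X ⊆ ⋃ v ∈ V, {i | f v ∈ P.Fine j ∧ f v ∈ 𝓜.Q.cell i} := fun i hi => by
    obtain ⟨v, hv, h2⟩ := h i hi
    exact mem_biUnion (Finset.mem_coe.2 hv) h2
  have h2 := (encard_le_encard h1).trans (V.set_encard_biUnion_le _)
  have h3 : (X.encard : ℝ≥0∞) ≤
      ∑ v ∈ V, ({i | f v ∈ P.Fine j ∧ f v ∈ 𝓜.Q.cell i}.encard : ℝ≥0∞) := by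
    have h4 := ENat.toENNReal_le.2 h2
    refine h4.trans (le_of_eq ?_)
    exact map_sum ENat.toENNRealRingHom _ _
  refine h3.trans ((Finset.sum_le_sum fun v _ => encard_mem 𝓜 (f v)).trans ?_)
  rw [Finset.sum_const, nsmul_eq_mul]

theorem fine_cofaces (𝓜 : Mesh Ω P M₀ Mt S) :
    ∀ j l, 𝓜.Q.cell l ⊆ P.Fine j →
    ({i | 𝓜.Q.cell l ⊆ 𝓜.Q.cell i}.encard : ℝ≥0∞) ≤ M₀ := by
  intro j l h
  obtain ⟨x, hx⟩ := 𝓜.Q.cell_nonempty l
  refine le_trans (ENat.toENNReal_le.2 (encard_le_encard fun i hi => ?_)) (encard_mem 𝓜 (j := j) x)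
  exact ⟨h hx, hi hx⟩

theorem fine_faces (𝓜 : Mesh Ω P M₀ Mt S) (hc : CubeApi Ω P) :
    ∀ j i, 𝓜.Q.cell i ⊆ P.Fine j →
    ({l | 𝓜.Q.cell l ⊆ 𝓜.Q.cell i}.encard : ℝ≥0∞) ≤ 4 * M₀ := by
  intro j i h
  obtain ⟨x₀, t, -, hn, t1, t2, -, -, -, h1⟩ := fine_struct 𝓜 hc h
  refine (encard_le_of_points 𝓜 (j := j) t (𝓜.nm i).symm fun l hl => ?_).trans ?_
  · have hl' : 𝓜.Q.cell l ⊆ 𝓜.Q.cell i := hl
    obtain ⟨x, hx, hv⟩ := exists_vertex 𝓜 hc (hl'.trans h)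
    rw [← hn] at hv
    refine ⟨𝓜.nm i x, ?_, ?_⟩
    · rw [← Finset.mem_coe, t1]
      exact Kuhn.mem_kcell_iff.1 ((h1 x).1 (hl' hx)) (self_mem_kv hv)
    · rw [(𝓜.nm i).symm_apply_apply]
      exact ⟨h (hl' hx), hx⟩
  · gcongr
    exact_mod_cast t2

theorem fine_count (𝓜 : Mesh Ω P M₀ Mt S) (hP : P.Ok Ω) (hc : CubeApi Ω P) :
    ∀ j z J, ({i | 𝓜.Q.cell i ⊆ P.Fine j ∧ 𝓜.Q.cell i ⊆ P.box j z J}.encard : ℝ≥0∞) ≤
    M₀ * (2 * P.n) ^ (3 - J.card) := by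
  classical
  intro j z J
  let V : Finset (Fin 3 → ℤ) := Fintype.piFinset fun k =>
    if k ∈ J then {P.n * z k} else Finset.Icc (P.n * z k) (P.n * z k + P.n)
  have hn := n_pos hP
  refine (encard_le_of_points 𝓜 (j := j) V
    (fun v => P.w + P.Lam j ((P.n : ℝ)⁻¹ • fun k => (v k : ℝ))) fun i hi => ?_).trans ?_
  · obtain ⟨x, hx, hv⟩ := exists_vertex 𝓜 hc hi.1
    choose v hv using hv
    have e : ((P.n : ℝ)⁻¹ • fun k => (v k : ℝ)) = P.nu j x := by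
      rw [← funext hv]
      exact inv_smul_smul₀ hn.ne' _
    refine ⟨v, Fintype.mem_piFinset.2 fun k => ?_, ?_⟩
    · have hb : P.nu j x ∈ uface z J := hi.2 hx
      have h1 := hv k
      rw [Pi.smul_apply, smul_eq_mul] at h1
      split_ifs with hk
      · rw [hb.2 k hk] at h1
        rw [Finset.mem_singleton]
        exact_mod_cast h1.symm
      · have a := hb.1.1 k
        have b := hb.1.2 k
        have a' : ((P.n * z k : ℤ) : ℝ) ≤ v k := by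
          rw [← h1]
          push_cast
          exact mul_le_mul_of_nonneg_left a hn.le
        have b' : (v k : ℝ) ≤ ((P.n * z k + P.n : ℤ) : ℝ) := by
          rw [← h1]
          push_cast
          nlinarith
        exact Finset.mem_Icc.2 ⟨Int.cast_le.1 a', Int.cast_le.1 b'⟩
    · simp only [e, hc.lam_nu]
      exact ⟨hi.1 hx, hx⟩
  · rw [mul_comm]
    gcongr
    have h1 : V.card = (P.n + 1) ^ (3 - J.card) := by
      rw [Fintype.card_piFinset]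
      have e : ∀ k : Fin 3, (if k ∈ J then ({P.n * z k} : Finset ℤ)
          else Finset.Icc (P.n * z k) (P.n * z k + P.n)).card =
          if k ∈ Jᶜ then P.n + 1 else 1 := by
        intro k
        by_cases hk : k ∈ J
        · simp [hk]
        · simp only [hk, if_false, Finset.mem_compl, not_false_eq_true, if_true, Int.card_Icc]
          omega
      rw [Finset.prod_congr rfl fun k _ => e k, Finset.prod_ite_mem, Finset.univ_inter,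
        Finset.prod_const, Finset.card_compl, Fintype.card_fin]
    have h2 : V.card ≤ (2 * P.n) ^ (3 - J.card) := by
      rw [h1]
      exact Nat.pow_le_pow_left (by have := hP.n_pos; omega) _
    exact_mod_cast h2

theorem image_segment_equiv (θ : E3 ≃ᴬ[ℝ] E3) (x y : E3) :
    θ '' segment ℝ x y = segment ℝ (θ x) (θ y) :=
  image_segment ℝ θ.toAffineEquiv.toAffineMap x y

theorem exists_segment (𝓜 : Mesh Ω P M₀ Mt S) {e : 𝓜.Q.ι} (h : 𝓜.Q.dim e = 1) :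
    ∃ x y, 𝓜.Q.cell e = segment ℝ x y := by
  have hb := 𝓜.Q.ball e
  rw [h] at hb
  obtain ⟨p, q, hA, -⟩ := hb.one_arc
  exact ⟨p, q, hA.eq_segment (𝓜.cvx e).1⟩

theorem fine_meas (𝓜 : Mesh Ω P M₀ Mt S) (hP : P.Ok Ω) (hc : CubeApi Ω P) :
    ∀ j i, 𝓜.Q.cell i ⊆ P.Fine j → 1 ≤ 𝓜.Q.dim i →
    μH[(𝓜.Q.dim i : ℝ)] (P.nu j '' 𝓜.Q.cell i) ≤
      ((2 * M₀ + 1) * (P.n : ℝ≥0∞)⁻¹) ^ 𝓜.Q.dim i := by
  intro j i h hd
  have hn := n_pos hP
  rcases hd.eq_or_lt with h1 | h2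
  · obtain ⟨x, y, hxy⟩ := exists_segment 𝓜 h1.symm
    have e : P.nu j '' 𝓜.Q.cell i = segment ℝ (P.nu j x) (P.nu j y) := by
      rw [hxy, ← funext (𝓜.ν_eq j), image_segment_equiv]
    have h3 := fine_diam 𝓜 hP hc j i h y (hxy ▸ right_mem_segment ℝ x y) x
      (hxy ▸ left_mem_segment ℝ x y)
    rw [e, ← h1, Nat.cast_one, hausdorffMeasure_segment, pow_one, edist_dist, dist_eq_norm]
    refine (ENNReal.ofReal_le_ofReal h3).trans ?_
    rw [ENNReal.ofReal_inv_of_pos hn, ENNReal.ofReal_natCast]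
    exact le_mul_of_one_le_left bot_le le_add_self
  · obtain ⟨-, φ, -, -, hL⟩ := 𝓜.chart i h2
    obtain ⟨hM, hm, -⟩ := 𝓜.buf_chart i j (h.trans (hc.fine_buf j))
    rw [hM] at hL
    have hd0 : (0 : ℝ) ≤ 𝓜.Q.dim i := Nat.cast_nonneg _
    have h3 := hL.hausdorffMeasure_image_le hd0
    have e1 : φ.invFun '' closedBall 0 1 = 𝓜.nm i '' 𝓜.Q.cell i := φ.symm.image_eq
    have e2 : μH[(𝓜.Q.dim i : ℝ)] (closedBall (0 : Fin (𝓜.Q.dim i) → ℝ) 1) =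
        2 ^ 𝓜.Q.dim i := by
      have := hausdorffMeasure_pi_real (ι := Fin (𝓜.Q.dim i))
      rw [Fintype.card_fin] at this
      rw [this, Real.volume_pi_closedBall _ zero_le_one, Fintype.card_fin, mul_one,
        ENNReal.ofReal_pow zero_le_two, ENNReal.ofReal_ofNat]
    rw [e1, e2, ENNReal.rpow_natCast] at h3
    have hL2 : LipschitzWith (P.n : ℝ≥0)⁻¹ (fun ξ : E3 => (P.n : ℝ)⁻¹ • ξ) := by
      refine LipschitzWith.of_dist_le_mul fun a b => ?_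
      rw [dist_smul₀, Real.norm_of_nonneg (inv_pos.2 hn).le]
      simp
    have e3 : P.nu j '' 𝓜.Q.cell i =
        (fun ξ : E3 => (P.n : ℝ)⁻¹ • ξ) '' (𝓜.nm i '' 𝓜.Q.cell i) := by
      rw [image_image]
      exact image_congr fun x _ => by rw [hm h, inv_smul_smul₀ hn.ne']
    rw [e3]
    refine (hL2.hausdorffMeasure_image_le hd0 _).trans ?_
    have hn0 : (P.n : ℝ≥0) ≠ 0 := by exact_mod_cast hn.ne'
    rw [ENNReal.rpow_natCast, ENNReal.coe_inv hn0, ENNReal.coe_natCast, mul_pow, mul_comm]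
    gcongr
    refine h3.trans ?_
    rw [← mul_pow, mul_comm]
    gcongr
    exact le_self_add

theorem edge_len_fine (𝓜 : Mesh Ω P M₀ Mt S) (hP : P.Ok Ω) (hc : CubeApi Ω P) :
    ∀ j e x y, 𝓜.Q.dim e = 1 → 𝓜.Q.cell e = segment ℝ x y → 𝓜.Q.cell e ⊆ P.Fine j →
    edist (P.nu j x) (P.nu j y) = (P.n : ℝ≥0∞)⁻¹ := by
  intro j e x y hd hxy h
  have hn := n_pos hP
  obtain ⟨x₀, t, -, hm, t1, -, t2, t3, h2, -⟩ := fine_struct 𝓜 hc h
  rw [hd] at t2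
  obtain ⟨v, w, hvw, rfl⟩ := Finset.card_eq_two.1 t2
  rw [Finset.coe_pair] at t1 t3
  have h3 : ‖v - w‖ = 1 :=
    Kuhn.norm_sub_kv (t1 ▸ mem_insert _ _) (t1 ▸ mem_insert_of_mem _ rfl) hvw
  rw [hxy, image_segment_equiv, t3, convexHull_pair] at h2
  have h4 := congrArg (fun X => μH[1] X) h2
  simp only [hausdorffMeasure_segment, edist_dist] at h4
  rw [ENNReal.ofReal_eq_ofReal_iff dist_nonneg dist_nonneg, dist_eq_norm v w, h3, hm, hm,
    dist_smul₀, Real.norm_of_nonneg hn.le] at h4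
  have h5 : dist (P.nu j x) (P.nu j y) = (P.n : ℝ)⁻¹ := eq_inv_of_mul_eq_one_right h4
  rw [edist_dist, h5, ENNReal.ofReal_inv_of_pos hn, ENNReal.ofReal_natCast]

theorem fine_line (𝓜 : Mesh Ω P M₀ Mt S) (hc : CubeApi Ω P) {j : Fin P.N} {e : 𝓜.Q.ι}
    {z : Fin 3 → ℤ} {J : Finset (Fin 3)} (hd : 𝓜.Q.dim e ≤ 1) (h : 𝓜.Q.cell e ⊆ P.Fine j)
    (hb : 𝓜.Q.cell e ⊆ P.box j z J) : ∀ x ∈ 𝓜.Q.cell e, P.nu j x ∈ Lc P.n J.card := by
  intro x hx
  obtain ⟨x₀, t, -, hm, t1, -, t2, t3, h2, h1⟩ := fine_struct 𝓜 hc h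
  obtain ⟨v, hv, w, hw, e1⟩ := exists_pair (t := t) (Finset.card_pos.1 (by omega)) (by omega)
  have hv' : v ∈ kv (𝓜.nm e x₀) := t1 ▸ Finset.mem_coe.2 hv
  have hw' : w ∈ kv (𝓜.nm e x₀) := t1 ▸ Finset.mem_coe.2 hw
  have key : ∀ u ∈ kv (𝓜.nm e x₀), ∀ i ∈ J, u i = P.n * z i := by
    intro u hu i hi
    obtain ⟨y, hy, rfl⟩ := h2.symm.subset (Kuhn.kv_subset_kcell _ hu)
    have h3 : P.nu j y ∈ uface z J := hb hy
    rw [hm, Pi.smul_apply, h3.2 i hi, smul_eq_mul]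
  have h4 := (h1 x).1 hx
  rw [t3, e1, convexHull_pair, hm] at h4
  rcases kv_step hv' hw' with h5 | h5
  · exact mem_Lc J hv'.1 h5 (fun i hi => ⟨by rw [key v hv' i hi, key w hw' i hi],
      z i, key v hv' i hi⟩) h4
  · exact mem_Lc J hw'.1 h5 (fun i hi => ⟨by rw [key v hv' i hi, key w hw' i hi],
      z i, key w hw' i hi⟩) (segment_symm ℝ v w ▸ h4)

/-- a lattice box which is a segment -/
theorem box_line {n : ℕ} {lo hi z : Fin 3 → ℤ} {J : Finset (Fin 3)} {a b : E3}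
    (h : ∀ i, hi i = lo i ∨ hi i = lo i + 1)
    (he : Icc (fun i => (lo i : ℝ)) (fun i => (hi i : ℝ)) = segment ℝ a b)
    (hJ : Icc (fun i => (lo i : ℝ)) (fun i => (hi i : ℝ)) ⊆ uface z J) :
    Icc (fun i => (lo i : ℝ)) (fun i => (hi i : ℝ)) ⊆ Lc n J.card := by
  classical
  have hle : ∀ i, (lo i : ℝ) ≤ hi i := fun i => by
    rcases h i with e | e <;> rw [e]
    push_cast
    linarith
  have hlo : (fun i => (lo i : ℝ)) ∈ Icc (fun i => (lo i : ℝ)) (fun i => (hi i : ℝ)) :=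
    ⟨le_rfl, hle⟩
  have hhi : (fun i => (hi i : ℝ)) ∈ Icc (fun i => (lo i : ℝ)) (fun i => (hi i : ℝ)) :=
    ⟨hle, le_rfl⟩
  have hdir : ∀ k, hi k ≠ lo k → ∃ s : ℝ, ∀ l, (if l = k then (1 : ℝ) else 0) = s * (b l - a l) := by
    intro k hk
    have hk' := (h k).resolve_left hk
    have h1 : (fun l => (lo l : ℝ) + if l = k then 1 else 0) ∈
        Icc (fun i => (lo i : ℝ)) (fun i => (hi i : ℝ)) := by
      refine ⟨fun l => ?_, fun l => ?_⟩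
      · by_cases e : l = k <;> simp [e]
      · by_cases e : l = k
        · simp [e, hk']
        · simpa [e] using hle l
    rw [he, segment_eq_image'] at h1
    have h0 := hlo
    rw [he, segment_eq_image'] at h0
    obtain ⟨s, -, hs⟩ := h1
    obtain ⟨s', -, hs'⟩ := h0
    refine ⟨s - s', fun l => ?_⟩
    have e1 := congrFun hs l
    have e2 := congrFun hs' l
    simp only [Pi.add_apply, Pi.smul_apply, Pi.sub_apply, smul_eq_mul] at e1 e2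
    linarith
  have huniq : ∀ k l, hi k ≠ lo k → hi l ≠ lo l → k = l := by
    intro k l hk hl
    by_contra hkl
    obtain ⟨s, hs⟩ := hdir k hk
    obtain ⟨s', hs'⟩ := hdir l hl
    have e1 := hs k
    have e2 := hs l
    have e3 := hs' l
    rw [if_pos rfl] at e1 e3
    rw [if_neg (Ne.symm hkl)] at e2
    rcases mul_eq_zero.1 e2.symm with e | e
    · rw [e, zero_mul] at e1
      exact one_ne_zero e1
    · rw [e, mul_zero] at e3
      exact one_ne_zero e3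
  obtain ⟨k, hk⟩ : ∃ k, ∀ l, l ≠ k → hi l = lo l := by
    by_cases hk : ∃ k, hi k ≠ lo k
    · obtain ⟨k, hk⟩ := hk
      exact ⟨k, fun l hl => by_contra fun e => hl (huniq l k e hk)⟩
    · exact ⟨0, fun l _ => by_contra fun e => hk ⟨l, e⟩⟩
  intro ξ hξ
  refine ⟨fun i => n * lo i, fun i => hi i - lo i, J, n * (ξ k - lo k), rfl, fun i => ?_,
    fun i hi' => ⟨?_, dvd_mul_right _ _⟩, fun i => ?_⟩
  · rcases h i with e | e <;> simp [e]
  · have e1 := (hJ hlo).2 i hi'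
    have e2 := (hJ hhi).2 i hi'
    have e3 : (hi i : ℝ) = lo i := e2.trans e1.symm
    have e4 : hi i = lo i := by exact_mod_cast e3
    simp [e4]
  · have a1 : (lo i : ℝ) ≤ ξ i := hξ.1 i
    have a2 : ξ i ≤ hi i := hξ.2 i
    beta_reduce
    rcases h i with e | e
    · rw [e] at a2 ⊢
      rw [le_antisymm a2 a1]
      push_cast
      ring
    · have e' : i = k := by
        by_contra hik
        have := hk i hik
        omega
      rw [e, e']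
      push_cast
      ring

theorem edge_line (𝓜 : Mesh Ω P M₀ Mt S) (hc : CubeApi Ω P) :
    ∀ j e z J, 𝓜.Q.dim e = 1 → 𝓜.Q.cell e ⊆ P.BufSet j → 𝓜.Q.cell e ⊆ P.box j z J →
    ∀ x ∈ 𝓜.Q.cell e, P.nu j x ∈ Lc P.n J.card := by
  intro j e z J hd hB hb
  by_cases h : 𝓜.Q.cell e ⊆ P.Fine j
  · exact fine_line 𝓜 hc hd.le h hb
  obtain ⟨X, ⟨lo, hi, h1, rfl⟩, hX⟩ := 𝓜.coarse j e hB h
  obtain ⟨x, y, hxy⟩ := exists_segment 𝓜 hd
  have hs : Function.Surjective (P.nu j) := fun ξ => ⟨_, hc.nu_lam j ξ⟩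
  have e1 := image_preimage_eq (Icc (fun i => (lo i : ℝ)) (fun i => (hi i : ℝ))) hs
  rw [← hX] at e1
  have e2 : P.nu j '' 𝓜.Q.cell e = segment ℝ (P.nu j x) (P.nu j y) := by
    rw [hxy, ← funext (𝓜.ν_eq j), image_segment_equiv]
  intro u hu
  refine box_line (z := z) h1 (e1.symm.trans e2) ?_ (e1.subset (mem_image_of_mem _ hu))
  rw [← e1]
  rintro _ ⟨v, hv, rfl⟩
  exact hb hv

theorem fine_lam (𝓜 : Mesh Ω P M₀ Mt S) (hc : CubeApi Ω P) :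
    ∀ j (g : E3 → ℝ≥0∞), Measurable g → (P.n : ℝ≥0∞)⁻¹ ^ ((P.T j).r - 1) *
    ∫⁻ x in 𝓜.Q.skel 1 ∩ P.Fine j, g x ∂(μH[1]) ≤ P.lam j (P.U j) g := by
  intro j g _
  have h1 := hc.card_I j
  have h2 := (P.T j).r_pos
  have hU : MeasurableSet (P.U j) := isOpen_thickening.measurableSet
  have hsub : 𝓜.Q.skel 1 ∩ P.Fine j ⊆
      P.U j ∩ {x | x - P.w ∈ P.nu0 j ⁻¹' Lc P.n (P.T j).I.card} := by
    rintro x ⟨hx, hF⟩
    refine ⟨hc.buf_U j (hc.fine_buf j hF), ?_⟩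
    obtain ⟨z, hz, hxz⟩ := hF
    obtain ⟨i, hi, hb⟩ := (𝓜.sub_box j z (hc.inner_buf j hz) _ (Dens.isBox_uface z (P.T j).I)
      (fun _ h => h.1)).exists_ocell hxz
    exact fine_line 𝓜 hc ((𝓜.Q.mem_skel_iff_dim hi).1 hx) (fun y hy => ⟨z, hz, hb hy⟩) hb x hi.1
  refine le_trans ?_ (Finset.single_le_sum (f := fun c => (P.n : ℝ≥0∞)⁻¹ ^ (2 - c) *
    lint (P.nu0 j ⁻¹' Lc P.n c) ((P.U j).indicator g) P.w) (fun _ _ => bot_le)
    (Finset.mem_range.2 (show (P.T j).I.card < 3 by omega)))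
  rw [show (P.T j).r - 1 = 2 - (P.T j).I.card by omega]
  gcongr
  rw [lint, lintegral_indicator hU, Measure.restrict_restrict hU]
  exact lintegral_mono_set hsub

end Cell

end P073
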