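import Vale.Agent.P073Z.ACC.CellA
import Vale.Agent.P073Z.ACC.CellB

/-!
# The cells of the buffers
-/

namespace P073

theorem cell_of (hC : CUBE) : CELL := fun 𝓜 hO hP =>
  have hc := hC _ hO hP
  { isBox := Cell.isBox
    sub_box := Cell.sub_box 𝓜
    sub_buf := Cell.sub_buf 𝓜
    box_dim := Cell.box_dim 𝓜
    box_cell := Cell.box_cell 𝓜
    face_sub := Cell.face_sub
    out_inner := Cell.out_inner 𝓜 hc
    fine_flat := Cell.fine_flat 𝓜 hP hc
    fine_diam := Cell.fine_diam 𝓜 hP hc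
    fine_sum := Cell.fine_sum 𝓜 hc
    fine_count := Cell.fine_count 𝓜 hP hc
    fine_faces := Cell.fine_faces 𝓜 hc
    fine_cofaces := Cell.fine_cofaces 𝓜
    fine_meas := Cell.fine_meas 𝓜 hP hc
    edge_len := fun j e x y hd hs h =>
      ⟨Cell.edge_len_fine 𝓜 hP hc j e x y hd hs, Cell.edge_len_coarse 𝓜 j e x y hd hs h⟩
    edge_line := Cell.edge_line 𝓜 hc
    fine_lam := Cell.fine_lam 𝓜 hc }

end P073
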