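import Vale.Agent.P073Z.ACC.Det0

/-!
# The deterministic bound
-/

open Set Metric Topology Filter MeasureTheory
open scoped ENNReal NNReal

namespace P073

namespace Det

variable {Ω : Set E3} {P : Par} {M₀ : ℝ≥0} {Mt : Ty → ℕ → ℝ≥0} {S : Ty → ℕ → Set E3}

theorem measurableSet_uface (z : Fin 3 → ℤ) (J : Finset (Fin 3)) : MeasurableSet (uface z J) := by
  have : uface z J = ucube z ∩ ⋂ i ∈ J, {ξ : E3 | ξ i = z i} := by
    ext ξ
    simp [uface]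
  rw [this]
  exact (isClosed_Icc.inter (isClosed_biInter fun i _ =>
    isClosed_eq (continuous_apply i) continuous_const)).measurableSet

theorem card_le_two (hA : CubeApi Ω P) (j : Fin P.N) {J : Finset (Fin 3)} (hJ : J ⊆ (P.T j).I) :
    J.card ≤ 2 := by
  have h1 := hA.card_I j
  have h2 := (P.T j).r_pos
  have h3 := Finset.card_le_card hJ
  omega

theorem inner_sum (hENA : ENA) {p : ℝ} (hp : 1 ≤ p) (𝓜 : Mesh Ω P M₀ Mt S) (hA : CubeApi Ω P)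
    (hC : CellApi 𝓜) (j : Fin P.N) (hm : 1 ≤ P.m j) {G : Set 𝓜.Q.ι} {g : E3 → ℝ≥0∞}
    (hg : Measurable g) {H : E3 → E3} {t : ℝ} (ht : 0 ≤ t) {c D ε : ℝ≥0∞}
    {I : (Fin 3 → ℤ) → ℝ≥0∞}
    (h1 : ∀ z ∈ P.Buf j, ∀ J : Finset (Fin 3), J.card ≤ 2 → En (3 - J.card) p H (uface z J) ≤
      c * (ENNReal.ofReal ((P.T j).b ^ 2 * P.a j) ^ p +
        ENNReal.ofReal ((P.T j).b * P.η) ^ (p - 1) * P.lam j (P.cube j z) g) + D)
    (h2 : ∀ z ∈ P.Inner j,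
      En (3 - (P.T j).I.card) p (fun ξ => H ξ - P.B j ξ) (uface z (P.T j).I) ≤
      c * (ENNReal.ofReal (t * (P.T j).b * P.a j) ^ p +
        ENNReal.ofReal ((P.T j).b ^ 2 * P.a j) ^ p * (P.n : ℝ≥0∞)⁻¹ ^ (P.T j).r *
          ({i | 𝓜.Q.cell i ⊆ P.box j z (P.T j).I ∧ 𝓜.Q.dim i = (P.T j).r ∧ i ∉ G}.encard : ℝ≥0∞) +
        ENNReal.ofReal ((P.T j).b * P.η) ^ (p - 1) * P.lam j (P.cube j z) g) + D)
    (h3 : ∀ z ∈ P.Inner j, I z ≤ P.vol j * ENNReal.ofReal ((P.T j).b / P.a j) ^ p *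
      (2 ^ p * ∑ J ∈ (P.T j).I.powerset, (P.m j : ℝ≥0∞)⁻¹ ^ ((P.T j).I.card - J.card) *
        En (3 - J.card) p (fun ξ => H ξ - P.B j ξ) (uface z J) + ε)) :
    ∑ z ∈ (hA.inner_fin j).toFinset, I z ≤
      9 * (2 ^ p) ^ 2 * (c + 1) * u p (P.T j).b *
        ((P.m j : ℝ≥0∞)⁻¹ + ENNReal.ofReal t ^ p) * volume (P.U j) +
      9 * (2 ^ p) ^ 2 * (c + 1) * u p (P.T j).b * (P.vol j * (P.n : ℝ≥0∞)⁻¹ ^ (P.T j).r) *
        ({i | 𝓜.Q.cell i ⊆ P.Fine j ∧ i ∉ G}.encard : ℝ≥0∞) +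
      9 * (2 ^ p) ^ 2 * (c + 1) * v p (P.T j).b (P.m j) * ENNReal.ofReal P.η ^ 2 *
        (8 * P.lam j (P.U j) g) +
      (hA.inner_fin j).toFinset.card * (P.vol j * ENNReal.ofReal ((P.T j).b / P.a j) ^ p *
        (9 * (2 ^ p) ^ 2 * (c + 1) * D + ε)) := by
  have hp0 : 0 ≤ p := by linarith
  have hmi : (P.m j : ℝ≥0∞)⁻¹ ≤ 1 := ENNReal.inv_le_one.2 (by exact_mod_cast hm)
  have hsub : ((hA.inner_fin j).toFinset : Set (Fin 3 → ℤ)) ⊆ P.Inner j := by simp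
  refine sum_alg (V := P.vol j) _ (fun z hz => ?_) ?_ (hC.fine_sum j _ G hsub)
    (hA.sum_lam j _ g (hsub.trans (hA.inner_buf j)) hg)
  · have hz' : z ∈ P.Inner j := hsub hz
    refine inner_alg (num1 hp0 (hA.a_pos j) _) (num2 hp hA.eta_pos _ hm (hA.vol_le j))
      (num3 hp0 (hA.a_pos j) ht (P.T j).b_pos) hmi (one_le_two_rpow hp0) ((h3 z hz').trans ?_)
    gcongr
    refine sum_pow_le _ hmi _ (fun J hJ _ => ?_) (h2 z hz')
    refine (hENA.2.1 _ H (P.B j) hp (measurableSet_uface z J)).1.trans ?_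
    gcongr
    · exact h1 z (hA.inner_buf j hz') J (card_le_two hA j hJ)
    · calc _ ≤ ENNReal.ofReal ((P.T j).b ^ 2 * P.a j) ^ p * 1 := by
            refine mul_le_mul' (ENNReal.rpow_le_rpow ?_ hp0) (hENA.2.2.2.2.2 z J)
            rw [← ofReal_norm]
            exact ENNReal.ofReal_le_ofReal (hA.B_le j)
        _ = _ := mul_one _
  · have := hA.count_inner j
    rwa [(hA.inner_fin j).encard_eq_coe_toFinset_card, ENat.toENNReal_coe] at this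

theorem buf_sum {p : ℝ} (hp : 1 ≤ p) (hA : CubeApi Ω P) (j : Fin P.N) (hm : 1 ≤ P.m j)
    {g : E3 → ℝ≥0∞} (hg : Measurable g) {H : E3 → E3} {c D ε Cs : ℝ≥0∞}
    {I : (Fin 3 → ℤ) → ℝ≥0∞} (hfin : (P.Buf j \ P.Inner j).Finite)
    (h1 : ∀ z ∈ P.Buf j, ∀ J : Finset (Fin 3), J.card ≤ 2 → En (3 - J.card) p H (uface z J) ≤
      c * (ENNReal.ofReal ((P.T j).b ^ 2 * P.a j) ^ p +
        ENNReal.ofReal ((P.T j).b * P.η) ^ (p - 1) * P.lam j (P.cube j z) g) + D)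
    (h3 : ∀ z ∈ P.Buf j, I z ≤ P.vol j * ENNReal.ofReal ((P.T j).b / P.a j) ^ p *
      (Cs * ∑ J ∈ (P.T j).I.powerset, En (3 - J.card) p H (uface z J) + ε)) :
    ∑ z ∈ hfin.toFinset, I z ≤ 8 * Cs * c * u p (P.T j).b * volume (P.U j \ P.K j) + 0 * 0 +
      8 * Cs * c * v p (P.T j).b (P.m j) * ENNReal.ofReal P.η ^ 2 * (8 * P.lam j (P.U j) g) +
      hfin.toFinset.card * (P.vol j * ENNReal.ofReal ((P.T j).b / P.a j) ^ p *
        (8 * Cs * D + ε)) := by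
  have hp0 : 0 ≤ p := by linarith
  have hsub : (hfin.toFinset : Set (Fin 3 → ℤ)) ⊆ P.Buf j := by
    rw [hfin.coe_toFinset]
    exact sdiff_subset
  refine sum_alg (bad := fun _ => 0) (V := P.vol j) _ (fun z hz => ?_) ?_ (by simp)
    (hA.sum_lam j _ g hsub hg)
  · have hz' : z ∈ P.Buf j := hsub hz
    refine buf_alg (num1 hp0 (hA.a_pos j) _) (num2 hp hA.eta_pos _ hm (hA.vol_le j))
      ((h3 z hz').trans ?_)
    gcongr
    exact sum_le8 _ _ fun J hJ => h1 z hz' J (card_le_two hA j hJ)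
  · have := hA.count_buf j
    rwa [hfin.encard_eq_coe_toFinset_card, ENat.toENNReal_coe] at this

theorem measurableSet_buf (hA : CubeApi Ω P) : MeasurableSet (⋃ j, P.BufSet j) := by
  refine MeasurableSet.iUnion fun j => ?_
  have : P.BufSet j = ⋃ z ∈ P.Buf j, P.cube j z := by
    ext x
    simp [Par.BufSet, Par.cube]
  rw [this]
  exact (hA.buf_fin j).measurableSet_biUnion fun z _ => (hA.compact_cube j z).measurableSet

/-- splitting the integral into the far part, the buffer cubes and the inner cubes -/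
theorem split {p : ℝ} (hp : 1 ≤ p) (hΩ : IsOpen Ω) (hA : CubeApi Ω P) {h k : E3 → E3}
    {F : E3 → (E3 →L[ℝ] E3)} (hF : Measurable F) (hfin : ∀ j, (P.Buf j \ P.Inner j).Finite)
    (hk : ∀ x, x ∉ ⋃ j, P.BufSet j → k =ᶠ[𝓝 x] h) :
    ∫⁻ x in Ω, ‖fderiv ℝ k x - F x‖ₑ ^ p ≤
      2 ^ p * ((∫⁻ x in Ω \ ⋃ j, P.BufSet j, ‖fderiv ℝ h x‖ₑ ^ p) +
        ∫⁻ x in Ω \ P.KK, ‖F x‖ₑ ^ p) +
      ∑ j, 2 ^ p * ((∑ z ∈ (hfin j).toFinset, ∫⁻ x in P.cube j z, ‖fderiv ℝ k x‖ₑ ^ p) +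
        (∑ z ∈ (hA.inner_fin j).toFinset, ∫⁻ x in P.cube j z, ‖fderiv ℝ k x - (P.T j).A‖ₑ ^ p) +
        ∫⁻ x in P.U j, ‖F x - (P.T j).A‖ₑ ^ p) := by
  obtain ⟨N, hN⟩ : ∃ N : Fin P.N → Set E3,
      ∀ j, N j = ⋃ z ∈ (hA.inner_fin j).toFinset, P.cube j z := ⟨_, fun _ => rfl⟩
  have hmem : ∀ j x, x ∈ N j ↔ ∃ z ∈ P.Inner j, x ∈ P.cube j z := fun j x => by simp [hN]
  have c1 : Ω ⊆ (Ω \ ⋃ j ∈ (Finset.univ : Finset (Fin P.N)), N j) ∪
      ⋃ j ∈ (Finset.univ : Finset (Fin P.N)), N j := subset_sdiff_union _ _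
  have c2 : (Ω \ ⋃ j ∈ (Finset.univ : Finset (Fin P.N)), N j) ⊆ Ω \ P.KK := by
    refine sdiff_subset_sdiff_right (iUnion_subset fun j x hx => ?_)
    have := hA.K_inner j hx
    simp only [mem_iUnion, exists_prop] at this ⊢
    exact ⟨j, Finset.mem_univ j, (hmem j x).2 this⟩
  have c3 : (Ω \ ⋃ j ∈ (Finset.univ : Finset (Fin P.N)), N j) ⊆ (Ω \ ⋃ j, P.BufSet j) ∪
      ⋃ j ∈ (Finset.univ : Finset (Fin P.N)), ⋃ z ∈ (hfin j).toFinset, P.cube j z := by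
    rintro x ⟨hx, hx'⟩
    by_cases hb : x ∈ ⋃ j, P.BufSet j
    · right
      obtain ⟨j, z, hz, hxz⟩ := mem_iUnion.1 hb
      simp only [mem_iUnion, exists_prop, Finite.mem_toFinset] at hx' ⊢
      exact ⟨j, Finset.mem_univ j, z, ⟨hz, fun hi =>
        hx' ⟨j, Finset.mem_univ j, (hmem j x).2 ⟨z, hi, hxz⟩⟩⟩, hxz⟩
    · exact Or.inl ⟨hx, hb⟩
  have c4 : ∀ j, N j ⊆ P.U j := fun j x hx => by
    obtain ⟨z, hz, hxz⟩ := (hmem j x).1 hx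
    exact hA.buf_U j (interior_subset (hA.inner_int j z hz hxz))
  have e1 : ∫⁻ x in Ω \ ⋃ j, P.BufSet j, ‖fderiv ℝ k x‖ₑ ^ p =
      ∫⁻ x in Ω \ ⋃ j, P.BufSet j, ‖fderiv ℝ h x‖ₑ ^ p := by
    refine setLIntegral_congr_fun (hΩ.measurableSet.diff (measurableSet_buf hA)) fun x hx => ?_
    show ‖fderiv ℝ k x‖ₑ ^ p = ‖fderiv ℝ h x‖ₑ ^ p
    rw [(hk x hx.2).fderiv_eq]
  have b1 : ∫⁻ x in Ω \ ⋃ j ∈ (Finset.univ : Finset (Fin P.N)), N j, ‖fderiv ℝ k x - F x‖ₑ ^ p ≤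
      2 ^ p * (((∫⁻ x in Ω \ ⋃ j, P.BufSet j, ‖fderiv ℝ h x‖ₑ ^ p) +
        ∑ j, ∑ z ∈ (hfin j).toFinset, ∫⁻ x in P.cube j z, ‖fderiv ℝ k x‖ₑ ^ p) +
        ∫⁻ x in Ω \ P.KK, ‖F x‖ₑ ^ p) := by
    refine (lint_split hp _ _ 0 hF).trans ?_
    simp only [sub_zero]
    refine mul_le_mul' le_rfl (add_le_add ?_ (lintegral_mono_set c2))
    refine (lintegral_mono_set c3).trans ((lintegral_union_le _ _ _).trans ?_)
    rw [e1]
    exact add_le_add le_rfl ((lint_biUnion_le _ _ _).trans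
      (Finset.sum_le_sum fun j _ => lint_biUnion_le _ _ _))
  have b2 : ∫⁻ x in ⋃ j ∈ (Finset.univ : Finset (Fin P.N)), N j, ‖fderiv ℝ k x - F x‖ₑ ^ p ≤
      ∑ j, 2 ^ p * ((∑ z ∈ (hA.inner_fin j).toFinset,
        ∫⁻ x in P.cube j z, ‖fderiv ℝ k x - (P.T j).A‖ₑ ^ p) +
        ∫⁻ x in P.U j, ‖F x - (P.T j).A‖ₑ ^ p) := by
    refine (lint_biUnion_le _ _ _).trans (Finset.sum_le_sum fun j _ => ?_)
    refine (lint_split hp _ _ (P.T j).A hF).trans ?_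
    refine mul_le_mul' le_rfl (add_le_add ?_ (lintegral_mono_set (c4 j)))
    rw [hN]
    exact lint_biUnion_le _ _ _
  refine (lintegral_mono_set c1).trans ((lintegral_union_le _ _ _).trans
    ((add_le_add b1 b2).trans (le_of_eq ?_)))
  simp only [mul_add, Finset.sum_add_distrib, Finset.mul_sum]
  ring

theorem type_alg {T κ u v Cs c x y L Ud Iu e D Θ W n n' ε A B bad U : ℝ≥0∞}
    (hB : B ≤ 8 * Cs * c * u * Ud + 0 * 0 + 8 * Cs * c * v * e * (8 * L) +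
      n' * (W * (8 * Cs * (D * Θ) + ε)))
    (hA : A ≤ κ * u * x * U + κ * u * y * bad + κ * v * e * (8 * L) +
      n * (W * (κ * (D * Θ) + ε))) :
    T * (B + A + Iu) ≤ T * (κ * u) * (x * U + y * bad) +
      T * (8 * κ * v + 64 * Cs * c * v + 8 * Cs * c * u + 1) * (e * L + Ud + Iu) +
      T * (n * W * κ + n' * W * (8 * Cs)) * D * Θ + T * (n * W + n' * W) * ε := by
  have h1 : (8 * κ * v + 64 * Cs * c * v) * (e * L) + 8 * Cs * c * u * Ud + 1 * Iu ≤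
      (8 * κ * v + 64 * Cs * c * v + 8 * Cs * c * u + 1) * (e * L + Ud + Iu) := by
    rw [mul_add _ _ Iu, mul_add _ _ Ud]
    exact add_le_add (add_le_add (mul_le_mul' (le_self_add.trans le_self_add) le_rfl)
      (mul_le_mul' (le_add_self.trans le_self_add) le_rfl)) (mul_le_mul' le_add_self le_rfl)
  calc T * (B + A + Iu) ≤ T * ((8 * Cs * c * u * Ud + 0 * 0 + 8 * Cs * c * v * e * (8 * L) +
        n' * (W * (8 * Cs * (D * Θ) + ε))) + (κ * u * x * U + κ * u * y * bad +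
        κ * v * e * (8 * L) + n * (W * (κ * (D * Θ) + ε))) + Iu) := by gcongr
    _ = T * (κ * u) * (x * U + y * bad) +
        T * ((8 * κ * v + 64 * Cs * c * v) * (e * L) + 8 * Cs * c * u * Ud + 1 * Iu) +
        T * (n * W * κ + n' * W * (8 * Cs)) * D * Θ + T * (n * W + n' * W) * ε := by ring
    _ ≤ _ := by
        rw [mul_assoc T _ (e * L + Ud + Iu)]
        gcongr

theorem final_alg {N : ℕ} {T cF fa ka DF Θ ε ε' : ℝ≥0∞} {c' e nI X Y Zd Ze : Fin N → ℝ≥0∞}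
    (hε : (∑ j, Ze j) * ε' ≤ ε) :
    T * (cF * fa + ∑ j, c' j * e j * nI j + DF * Θ + ka) +
      ∑ j, (X j + Y j + Zd j * Θ + Ze j * ε') ≤
    T * (cF + 1) * (fa + ka) + ∑ j, (X j + Y j + T * c' j * (e j * nI j)) +
      (T * DF + ∑ j, Zd j) * Θ + ε := by
  have h1 : cF * fa + ka ≤ (cF + 1) * (fa + ka) := by
    rw [mul_add _ fa]
    exact add_le_add (mul_le_mul' le_self_add le_rfl) (le_mul_of_one_le_left zero_le le_add_self)
  have h2 : T * ∑ j, c' j * e j * nI j = ∑ j, T * c' j * (e j * nI j) := by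
    rw [Finset.mul_sum]
    exact Finset.sum_congr rfl fun j _ => by ring
  simp only [Finset.sum_add_distrib, ← Finset.sum_mul]
  rw [← h2]
  calc _ = T * (cF * fa + ka) + (∑ j, X j + ∑ j, Y j + T * ∑ j, c' j * e j * nI j) +
        (T * DF + ∑ j, Zd j) * Θ + (∑ j, Ze j) * ε' := by ring
    _ ≤ _ := by
        rw [mul_assoc T (cF + 1)]
        gcongr

end Det

open Det in
theorem det_of (hCUBE : CUBE) (hCELL : CELL) (hENA : ENA) (hBOX : BOX) (hFARN : FARN)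
    (hST : STAIRS) : DET := by
  intro p hp1 hp2 K₃ M₀ C Mt
  obtain ⟨cB, hB⟩ := hBOX hp1 hp2 K₃ M₀ C
  obtain ⟨cF, c', hF⟩ := hFARN hp1 hp2 K₃ M₀ C Mt
  obtain ⟨Cs, hS⟩ := hST hp1
  have hp0 : 0 ≤ p := by linarith
  obtain ⟨T, hT⟩ : ∃ T : ℝ≥0, (T : ℝ≥0∞) = 2 ^ p :=
    ⟨_, ENNReal.coe_toNNReal (two_rpow_ne_top hp0)⟩
  obtain ⟨κ, hκ⟩ : ∃ κ : ℝ≥0, (κ : ℝ≥0∞) = 9 * (2 ^ p) ^ 2 * (cB + 1) :=
    ⟨9 * T ^ 2 * (cB + 1), by rw [← hT]; push_cast; rfl⟩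
  refine ⟨T * (cF + 1), fun b => T * (κ * u p b),
    fun b m => T * (8 * κ * v p b m + 64 * Cs m * cB * v p b m + 8 * Cs m * cB * u p b + 1),
    fun T' m => T * c' T' m, ?_⟩
  intro Ω Λ P S 𝓜 hΩ hP hm hSm
  have hA := hCUBE P hΩ hP
  have hC := hCELL 𝓜 hΩ hP
  obtain ⟨DB, hB⟩ := hB 𝓜 hΩ hP
  obtain ⟨DF, hF⟩ := hF 𝓜 hΩ hP hSm
  have hfin : ∀ j, (P.Buf j \ P.Inner j).Finite := fun j => (hA.buf_fin j).subset sdiff_subset
  have hVβ : ∀ j, ∃ W : ℝ≥0,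
      (W : ℝ≥0∞) = P.vol j * ENNReal.ofReal ((P.T j).b / P.a j) ^ p := fun j =>
    ⟨_, ENNReal.coe_toNNReal (ENNReal.mul_ne_top ENNReal.ofReal_ne_top
      (ENNReal.rpow_ne_top_of_nonneg hp0 ENNReal.ofReal_ne_top))⟩
  choose W hW using hVβ
  refine ⟨T * DF + ∑ j, T * ((hA.inner_fin j).toFinset.card * W j * κ +
    (hfin j).toFinset.card * W j * (8 * Cs (P.m j))) * DB, ?_⟩
  intro G F h h' Z t θ ε hO hh hZ hZ2 hcon hε
  obtain ⟨ε', hε', hε''⟩ := ENNReal.exists_nnreal_pos_mul_lt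
    (a := ((∑ j, T * ((hA.inner_fin j).toFinset.card * W j + (hfin j).toFinset.card * W j) :
      ℝ≥0) : ℝ≥0∞)) ENNReal.coe_ne_top hε.ne'
  obtain ⟨k, k', Z', hk, hZ', hcon', hd, heq, hj⟩ := hS 𝓜 (ε := ε') hΩ hP hm hh hZ hZ2 hcon
    (by exact_mod_cast hε')
  refine ⟨k, k', Z', hk, hZ', hcon', hd, (split hp1 hΩ hA hO.meas hfin heq).trans ?_⟩
  have hm1 : ∀ j, 1 ≤ P.m j := fun j => le_trans (by norm_num) (hm j)
  have key := fun j => type_alg (T := 2 ^ p) (Iu := ∫⁻ x in P.U j, ‖F x - (P.T j).A‖ₑ ^ p)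
    (buf_sum hp1 hA j (hm1 j) (meas_pow hO.meas (P.T j).A p) (hfin j) (hB hO j).1 (hj j).2)
    (inner_sum hENA hp1 𝓜 hA hC j (hm1 j) (meas_pow hO.meas (P.T j).A p) (hO.t_mem j).1
      (hB hO j).1 (hB hO j).2 (hj j).1)
  refine (add_le_add (mul_le_mul' le_rfl (add_le_add (hF hO) le_rfl))
    (Finset.sum_le_sum fun j _ => key j)).trans ?_
  rw [mul_comm] at hε''
  push_cast at hε'' ⊢
  simp only [← hW, ← hκ]
  rw [← hT]
  exact final_alg hε''.le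

end P073
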