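import Vale.Agent.P073Z.ACC.Sk
import Vale.Agent.P073Z.Dens2
import Vale.Agent.P073Z.CS.Link

/-!
# The energy of the far and near cells
-/

open Set Metric Topology Filter MeasureTheory
open scoped ENNReal NNReal

namespace P073

namespace Farn

theorem dsum {ι : Type} (s u : Set ι) (r : ι → ι → Prop) (a : ι → ℝ≥0∞) {N : ℝ≥0∞}
    (hN : ∀ j, ({i | i ∈ s ∧ r j i}.encard : ℝ≥0∞) ≤ N) (hu : ∀ i ∈ s, ∀ j, r j i → j ∈ u) :
    ∑' i, s.indicator (fun i => ∑' j, {j | r j i}.indicator a j) i ≤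
      N * ∑' j, u.indicator a j := by
  calc _ ≤ ∑' i, ∑' j, {i | i ∈ s ∧ r j i}.indicator (fun _ => u.indicator a j) i := by
        refine ENNReal.tsum_le_tsum fun i => ?_
        by_cases hi : i ∈ s
        · rw [indicator_of_mem hi]
          refine ENNReal.tsum_le_tsum fun j => ?_
          by_cases hj : r j i
          · rw [indicator_of_mem (show j ∈ {j | r j i} from hj),
              indicator_of_mem (show i ∈ {i | i ∈ s ∧ r j i} from ⟨hi, hj⟩),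
              indicator_of_mem (hu i hi j hj)]
          · rw [indicator_of_notMem (show j ∉ {j | r j i} from hj)]
            exact zero_le
        · rw [indicator_of_notMem hi]
          exact zero_le
    _ = ∑' j, ({i | i ∈ s ∧ r j i}.encard : ℝ≥0∞) * u.indicator a j := by
        rw [ENNReal.tsum_comm]
        refine tsum_congr fun j => ?_
        rw [← tsum_subtype, ENNReal.tsum_set_const]
    _ ≤ ∑' j, N * u.indicator a j := ENNReal.tsum_le_tsum fun j => by gcongr; exact hN j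
    _ = _ := ENNReal.tsum_mul_left

theorem enc_le {ι : Type} {s t : Set ι} (hs : s ⊆ t) (ht : t.Finite) {M : ℝ≥0}
    (h : ((t.ncard : ℕ) : ℝ) ≤ M) : (s.encard : ℝ≥0∞) ≤ M := by
  refine (ENat.toENNReal_le.2 (encard_le_encard hs)).trans ?_
  rw [← ht.cast_ncard_eq, ENat.toENNReal_coe]
  exact_mod_cast h

theorem q_le {k l : ℕ} (h : l ≤ k + 1) : (2⁻¹ : ℝ≥0∞) ^ k ≤ 2 * 2⁻¹ ^ l := by
  calc (2⁻¹ : ℝ≥0∞) ^ k = 2 * 2⁻¹ ^ (k + 1) := by
        rw [pow_succ', ← mul_assoc, ENNReal.mul_inv_cancel (by norm_num) (by norm_num), one_mul]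
    _ ≤ _ := by
        gcongr 2 * ?_
        exact pow_le_pow_right_of_le_one' (by simp) h

theorem q_sq (k : ℕ) : (2⁻¹ : ℝ≥0∞) ^ k * 2⁻¹ ^ k = 4⁻¹ ^ k := by
  rw [← mul_pow, ← ENNReal.mul_inv (by norm_num) (by norm_num)]
  norm_num

theorem q_real (k : ℕ) : ENNReal.ofReal ((2:ℝ) ^ k)⁻¹ = 2⁻¹ ^ k := by
  rw [ENNReal.ofReal_inv_of_pos (by positivity), ENNReal.ofReal_pow (by norm_num),
    ENNReal.inv_pow]
  norm_num

variable {p : ℝ} {h : E3 → E3}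

theorem scale_refl (hS : SCALE) {d : ℕ} {X Y : Set E3} (ν : E3 ≃ᴬ[ℝ] E3) {K L : ℝ}
    {c θ : ℝ≥0∞} (hp : 0 < p) (hX : IsCompact X) (hY : IsCompact Y)
    (hK : ∀ x y, dist (ν x) (ν y) ≤ K * dist x y) (hL : ∀ x y, dist x y ≤ L * dist (ν x) (ν y))
    (H : En (d + 1) p (h ∘ ν.symm) (ν '' X) ≤ c * En d p (h ∘ ν.symm) (ν '' Y) + θ) :
    En (d + 1) p h X ≤ c * (ENNReal.ofReal K * ENNReal.ofReal L) ^ p *
      (ENNReal.ofReal K * ENNReal.ofReal L) ^ d * ENNReal.ofReal L * En d p h Y +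
      ENNReal.ofReal K ^ p * ENNReal.ofReal L ^ (d + 1) * θ := by
  have := hS (ContinuousAffineEquiv.refl ℝ E3) ν hp hX hY (LipschitzWith.of_dist_le' hK)
    (LipschitzWith.of_dist_le' (K := L) fun x y => by simpa using hL (ν.symm x) (ν.symm y)) H
  simpa [ENNReal.ofReal] using this

theorem scale_smul (hS : SCALE) {d : ℕ} {X Y : Set E3} (ν : E3 ≃ᴬ[ℝ] E3) {r : ℝ}
    {c θ : ℝ≥0∞} (hp : 0 < p) (hp' : p ≤ d + 1) (hX : IsCompact X) (hY : IsCompact Y)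
    (hr : 1 ≤ r) (hν : ∀ x, ν x = r • x)
    (H : En (d + 1) p (h ∘ ν.symm) (ν '' X) ≤ c * En d p (h ∘ ν.symm) (ν '' Y) + θ) :
    En (d + 1) p h X ≤ c * ENNReal.ofReal r⁻¹ * En d p h Y + θ := by
  have h0 : 0 < r := one_pos.trans_le hr
  have e : ∀ x y, dist (ν x) (ν y) = r * dist x y := fun x y => by
    rw [hν, hν, dist_smul₀, Real.norm_of_nonneg h0.le]
  have h1 : ENNReal.ofReal r * ENNReal.ofReal r⁻¹ = 1 := by
    rw [← ENNReal.ofReal_mul h0.le, mul_inv_cancel₀ h0.ne', ENNReal.ofReal_one]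
  have := scale_refl hS ν hp hX hY (K := r) (L := r⁻¹) (fun x y => (e x y).le)
    (fun x y => by rw [e, ← mul_assoc, inv_mul_cancel₀ h0.ne', one_mul]) H
  rw [h1, ENNReal.one_rpow, one_pow, mul_one, mul_one] at this
  refine this.trans (add_le_add le_rfl (mul_le_of_le_one_left' ?_))
  calc _ ≤ ENNReal.ofReal r ^ (d + 1) * ENNReal.ofReal r⁻¹ ^ (d + 1) := by
        gcongr
        rw [← ENNReal.rpow_natCast]
        exact ENNReal.rpow_le_rpow_of_exponent_le (ENNReal.one_le_ofReal.2 hr) (by simpa using hp')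
    _ = 1 := by rw [← mul_pow, h1, one_pow]

variable {Ω : Set E3} {P : Par} {M₀ : ℝ≥0} {Mt : Ty → ℕ → ℝ≥0} {S : Ty → ℕ → Set E3}
  {𝓜 : Mesh Ω P M₀ Mt S} {G : Set 𝓜.Q.ι} {F : E3 → (E3 →L[ℝ] E3)} {K₃ : ℝ≥0}
  {C : ℝ≥0 → ℝ≥0} {t : Fin P.N → ℝ} {θ : 𝓜.Q.ι → ℝ≥0∞}

theorem wire_refl (H : Out 𝓜 G F h p K₃ C t θ) (hp : 0 < p) {e : 𝓜.Q.ι} (he : 𝓜.Q.dim e = 1) :
    En 1 p h (𝓜.Q.cell e) ≤ K₃ * ((∫⁻ x in 𝓜.Q.cell e, ‖F x‖ₑ ^ p ∂(μH[1])) + θ e) := by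
  obtain ⟨x, y, -, -, hne, hc, -⟩ := 𝓜.cvx.exists_segment he
  have := H.wire e x y he hc (ContinuousAffineEquiv.refl ℝ E3) 0
  have e1 : edist x y ^ (1 - p) * edist x y ^ (p - 1) = 1 := by
    rw [← ENNReal.rpow_add _ _ (edist_pos.2 hne).ne' (edist_ne_top x y)]
    simp
  simp only [ContinuousAffineEquiv.refl_symm, ContinuousAffineEquiv.coe_refl, Function.comp_id,
    image_id, id, zero_apply, enorm_zero, ENNReal.zero_rpow_of_pos hp,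
    zero_add, sub_zero] at this
  rwa [mul_assoc, ← mul_assoc (edist x y ^ (1 - p)), e1, one_mul] at this

theorem ext_succ (H : Out 𝓜 G F h p K₃ C t θ) {i : 𝓜.Q.ι} {d : ℕ} (hi : i ∉ G)
    (hd : 𝓜.Q.dim i = d + 1) (h1 : 1 ≤ d) :
    En (d + 1) p (h ∘ (𝓜.nm i).symm) (𝓜.nm i '' 𝓜.Q.cell i) ≤
      C (𝓜.M i) * En d p (h ∘ (𝓜.nm i).symm) (𝓜.nm i '' 𝓜.Q.bd i) + θ i := by
  have := H.ext i hi (by omega)
  rwa [hd] at this

theorem ext_smul (hS : SCALE) (H : Out 𝓜 G F h p K₃ C t θ) (hp : 0 < p) (hp2 : p < 2)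
    {i : 𝓜.Q.ι} {d : ℕ} (hi : i ∉ G) (hd : 𝓜.Q.dim i = d + 1) (h1 : 1 ≤ d) {r : ℝ} (hr : 1 ≤ r)
    (hν : ∀ x, 𝓜.nm i x = r • x) : En (d + 1) p h (𝓜.Q.cell i) ≤
      C (𝓜.M i) * ENNReal.ofReal r⁻¹ * En d p h (𝓜.Q.bd i) + θ i :=
  scale_smul hS _ hp (by have : (1:ℝ) ≤ d := by exact_mod_cast h1
                         linarith) (𝓜.Q.ball i).isCompact (𝓜.Q.ball i).isCompact_bdry hr hν
    (ext_succ H hi hd h1)

/-- faces of an outer three-cell do not meet the inner cubes -/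
theorem outer (hA : CubeApi Ω P) (hB : CellApi 𝓜) {i l : 𝓜.Q.ι} (hi : 𝓜.Q.dim i = 3)
    (hb : ∀ j, ¬ 𝓜.Q.cell i ⊆ P.BufSet j) (hl : 𝓜.Q.cell l ⊆ 𝓜.Q.cell i) (j : Fin P.N) :
    ¬ 𝓜.Q.cell l ⊆ P.Fine j ∧ Disjoint (𝓜.Q.cell l) (P.K j) := by
  constructor
  · intro hs
    obtain ⟨x, hx⟩ := 𝓜.Q.cell_nonempty l
    obtain ⟨z, hz, hxz⟩ := hs hx
    exact disjoint_left.1 (hB.out_inner i j hi (hb j) z hz) (hl hx) hxz.1
  · refine disjoint_left.2 fun x hx hx' => ?_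
    obtain ⟨z, hz, hxz⟩ := mem_iUnion₂.1 (hA.K_inner j hx')
    exact disjoint_left.1 (hB.out_inner i j hi (hb j) z hz) (hl hx) hxz

theorem far_cell (hS : SCALE) (hC : CHAIN) (H : Out 𝓜 G F h p K₃ C t θ) (hp : 0 < p)
    (hp2 : p < 2) {i : 𝓜.Q.ι} (hi : 𝓜.Q.dim i = 3) (hf : 𝓜.far i)
    (hG : ∀ l, 𝓜.Q.cell l ⊆ 𝓜.Q.cell i → l ∉ G) :
    En 3 p h (𝓜.Q.cell i) ≤ 16 * C M₀ * C M₀ * K₃ *
      (∑' e, {e | 𝓜.Q.dim e = 1 ∧ 𝓜.Q.cell e ⊆ 𝓜.Q.cell i}.indicator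
        (fun e => 4⁻¹ ^ 𝓜.kf e * ∫⁻ x in 𝓜.Q.cell e, ‖F x‖ₑ ^ p ∂(μH[1])) e) +
      (1 + C M₀ + 4 * C M₀ * C M₀ * K₃) *
        ∑' l, {l | 𝓜.Q.cell l ⊆ 𝓜.Q.cell i}.indicator θ l := by
  have key : ∀ l d, 𝓜.Q.cell l ⊆ 𝓜.Q.cell i → 𝓜.Q.dim l = d + 1 → 1 ≤ d →
      En (d + 1) p h (𝓜.Q.cell l) ≤ C M₀ * 2⁻¹ ^ 𝓜.kf l * En d p h (𝓜.Q.bd l) + 1 * θ l := by
    intro l d hl hd h1
    obtain ⟨a, b⟩ := 𝓜.far_chart l (𝓜.far_face i l hf hl).1
    have := ext_smul hS H hp hp2 (hG l hl) hd h1 (one_le_pow₀ one_le_two) a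
    rwa [b, q_real, ← one_mul (θ l)] at this
  have := hC 𝓜.Q i h (fun x => ‖F x‖ₑ ^ p) θ (c₂ := C M₀ * (2 * 2⁻¹ ^ 𝓜.kf i)) hp hi
    (key i 2 Subset.rfl hi one_le_two)
    (fun φ hφ hs => (key φ 1 hs hφ le_rfl).trans (by
      gcongr
      exact q_le (𝓜.far_face i φ hf hs).2.2))
    fun e he _ => wire_refl H hp he
  have hq : (2⁻¹ : ℝ≥0∞) ^ 𝓜.kf i ≤ 1 := pow_le_one₀ zero_le (by simp)
  refine this.trans (add_le_add ?_ ?_)
  · rw [← ENNReal.tsum_mul_left, ← ENNReal.tsum_mul_left]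
    refine ENNReal.tsum_le_tsum fun e => ?_
    by_cases he : e ∈ {e | 𝓜.Q.dim e = 1 ∧ 𝓜.Q.cell e ⊆ 𝓜.Q.cell i}
    · rw [indicator_of_mem he, indicator_of_mem he, ← q_sq, ← mul_assoc (16 * _ * _ * _)]
      have h1 := q_le (𝓜.far_face i e hf he.2).2.1
      gcongr ?_ * _
      calc _ = 4 * C M₀ * C M₀ * K₃ * ((2⁻¹ : ℝ≥0∞) ^ 𝓜.kf i * 2⁻¹ ^ 𝓜.kf i) := by ring
        _ ≤ 4 * C M₀ * C M₀ * K₃ * ((2 * (2⁻¹ : ℝ≥0∞) ^ 𝓜.kf e) * (2 * 2⁻¹ ^ 𝓜.kf e)) := by gcongr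
        _ = _ := by ring
    · rw [indicator_of_notMem he, indicator_of_notMem he, mul_zero, mul_zero]
  · gcongr ?_ * _
    calc _ ≤ 1 + C M₀ * 1 * 1 + 2 * (C M₀ * 1) * (C M₀ * (2 * 1)) * (K₃ : ℝ≥0∞) := by gcongr
      _ = _ := by ring

theorem far_sum (hE : ENA) (hA : CubeApi Ω P) (g : E3 → ℝ≥0∞) :
    ∑' e, {e | 𝓜.Q.dim e = 1 ∧ 𝓜.far e}.indicator
      (fun e => 4⁻¹ ^ 𝓜.kf e * ∫⁻ x in 𝓜.Q.cell e, g x ∂(μH[1])) e ≤ P.farI Ω g := by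
  calc _ ≤ ∑' e, ∑' k : ℕ, (4 : ℝ≥0∞)⁻¹ ^ k *
        {e | 𝓜.Q.dim e = 1 ∧ 𝓜.far e ∧ 𝓜.kf e = k}.indicator (fun e => ∫⁻ x in 𝓜.Q.cell e,
          ((Ω \ P.KK) ∩ P.zone k).indicator g x ∂(μH[1])) e := by
        refine ENNReal.tsum_le_tsum fun e => ?_
        by_cases he : e ∈ {e | 𝓜.Q.dim e = 1 ∧ 𝓜.far e}
        · refine le_trans ?_ (ENNReal.le_tsum (𝓜.kf e))
          rw [indicator_of_mem he, indicator_of_mem (show e ∈ {e' | 𝓜.Q.dim e' = 1 ∧ 𝓜.far e' ∧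
            𝓜.kf e' = 𝓜.kf e} from ⟨he.1, he.2, rfl⟩)]
          refine le_of_eq ?_
          congr 1
          refine setLIntegral_congr_fun (𝓜.Q.ball e).isClosed.measurableSet fun x hx => ?_
          refine (indicator_of_mem ?_ g).symm
          refine ⟨⟨𝓜.carrier.subset (𝓜.Q.cell_subset_carrier e hx), fun k => ?_⟩,
            (𝓜.far_zone e he.2).1, (𝓜.far_zone e he.2).2 x hx⟩
          obtain ⟨j, hj⟩ := mem_iUnion.1 k
          obtain ⟨z, hz, hxz⟩ := mem_iUnion₂.1 (hA.K_inner j hj)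
          exact disjoint_left.1 (𝓜.far_K e j he.2) hx (interior_subset (hA.inner_int j z hz hxz))
        · rw [indicator_of_notMem he]
          exact zero_le
    _ ≤ _ := by
        rw [ENNReal.tsum_comm]
        refine ENNReal.tsum_le_tsum fun k => ?_
        rw [ENNReal.tsum_mul_left]
        gcongr
        refine hE.2.2.1 𝓜.Q _ _ fun e he => ⟨he.1, fun x hx => ?_⟩
        have := 𝓜.far_wire e he.2.1 he.1 x hx
        rwa [he.2.2] at this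

/-- the constant for the faces of a near cell -/
noncomputable def gam (p : ℝ) (a a' : ℝ≥0) (b m : ℕ) : ℝ≥0∞ :=
  a + a * ENNReal.ofReal (b * m * b) ^ p * ENNReal.ofReal (b * m * b) * ENNReal.ofReal b + a'

/-- the constant for the errors of the faces of a near cell -/
noncomputable def del (p : ℝ) (P : Par) (j : Fin P.N) : ℝ≥0∞ :=
  1 + ENNReal.ofReal ((P.T j).b * P.m j / P.η) ^ p * ENNReal.ofReal ((P.T j).b * P.η) ^ 2

theorem near_face (hS : SCALE) (hO : P.Ok Ω) (hA : CubeApi Ω P) (H : Out 𝓜 G F h p K₃ C t θ)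
    (hp : 0 < p) (hp2 : p < 2) {φ : 𝓜.Q.ι} {j : Fin P.N} (hφ : 𝓜.Q.dim φ = 2) (hG : φ ∉ G)
    (hU : 𝓜.Q.cell φ ⊆ P.U j) (hF : ¬ 𝓜.Q.cell φ ⊆ P.Fine j) :
    En 2 p h (𝓜.Q.cell φ) ≤ gam p (C M₀) (C (Mt (P.T j) (P.m j))) (P.T j).b (P.m j) *
      ENNReal.ofReal P.η * En 1 p h (𝓜.Q.bd φ) + del p P j * θ φ := by
  have hη := hA.eta_pos
  have hd : θ φ ≤ del p P j * θ φ := le_mul_of_one_le_left' le_self_add
  obtain ⟨x, hx⟩ := 𝓜.Q.cell_nonempty φ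
  by_cases hf : 𝓜.far φ
  · obtain ⟨a, b⟩ := 𝓜.far_chart φ hf
    have := ext_smul hS H hp hp2 hG hφ le_rfl (one_le_pow₀ one_le_two) a
    rw [b, 𝓜.far_near φ j hf ⟨x, hx, hU hx⟩, ← inv_pow] at this
    refine this.trans (add_le_add ?_ hd)
    unfold gam
    gcongr
    · exact le_self_add.trans le_self_add
    · exact le_rfl
  obtain ⟨j', h1, h2⟩ := 𝓜.near φ hf
  obtain rfl : j' = j := by_contra fun hne => disjoint_left.1 (hA.U_disj j' j hne) (h1 hx) (hU hx)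
  rcases h2 with h2 | ⟨a, b⟩
  · obtain ⟨a, -, b⟩ := 𝓜.buf_chart φ j' h2
    have := scale_refl hS (𝓜.nm φ) hp (𝓜.Q.ball φ).isCompact (𝓜.Q.ball φ).isCompact_bdry
      (fun x y => by rw [b hF, b hF]; exact P.dist_nu_le (hO.m_pos j') x y)
      (fun x y => by rw [b hF, b hF]; exact P.dist_le_nu (hO.m_pos j') x y)
      (ext_succ H hG hφ le_rfl)
    rw [a, ← ENNReal.ofReal_mul (by positivity), show ((P.T j').b * P.m j' / P.η *
      ((P.T j').b * P.η) : ℝ) = (P.T j').b * P.m j' * (P.T j').b by field_simp, pow_one] at this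
    refine this.trans (add_le_add ?_ ?_)
    · rw [ENNReal.ofReal_mul (Nat.cast_nonneg _) (q := P.η), ← mul_assoc]
      unfold gam
      gcongr
      exact le_add_self.trans le_self_add
    · unfold del
      gcongr
      exact le_add_self
  · have := ext_smul hS H hp hp2 hG hφ le_rfl ((one_le_inv₀ hη).2 hA.eta_le) a
    rw [b, inv_inv] at this
    refine this.trans (add_le_add ?_ hd)
    unfold gam
    gcongr
    exact le_add_self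

theorem near_sum (hE : ENA) (g : E3 → ℝ≥0∞) (j : Fin P.N) :
    ∑' e, {e | 𝓜.Q.dim e = 1 ∧ 𝓜.Q.cell e ⊆ P.U j \ P.K j ∧ ∀ x ∈ 𝓜.Q.cell e,
      P.η⁻¹ • (x - P.w) ∈ S (P.T j) (P.m j)}.indicator
      (fun e => ∫⁻ x in 𝓜.Q.cell e, g x ∂(μH[1])) e ≤ P.nearI j (S (P.T j) (P.m j)) g := by
  rw [indicator_congr (g := fun e => ∫⁻ x in 𝓜.Q.cell e, (P.U j \ P.K j).indicator g x ∂(μH[1]))
    fun e he => setLIntegral_congr_fun (𝓜.Q.ball e).isClosed.measurableSet fun x hx =>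
      (indicator_of_mem (he.2.1 hx) g).symm]
  exact hE.2.2.1 𝓜.Q _ _ fun e he => ⟨he.1, he.2.2⟩

end Farn

open Farn in
theorem farn_of (hCU : CUBE) (hCE : CELL) (hS : SCALE) (hE : ENA) (hC : CHAIN) : FARN := by
  intro p hp1 hp2 K₃ M₀ C Mt
  have hp : 0 < p := one_pos.trans_le hp1
  have fg : ∀ a a' b m, gam p a a' b m ≠ ⊤ := fun a a' b m => by unfold gam; finiteness
  refine ⟨16 * C M₀ * C M₀ * K₃ * M₀, fun T m => (2 * C (Mt T m) *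
    gam p (C M₀) (C (Mt T m)) T.b m * K₃ * Mt T m : ℝ≥0∞).toNNReal, ?_⟩
  intro Ω P S 𝓜 hΩ hO _
  have hA := hCU P hΩ hO
  have hB := hCE 𝓜 hΩ hO
  have fd : ∀ j, del p P j ≠ ⊤ := fun j => by unfold del; finiteness
  let η := ENNReal.ofReal P.η
  let c₃ : Fin P.N → ℝ≥0∞ := fun j => C (Mt (P.T j) (P.m j)) * η
  let c₂ : Fin P.N → ℝ≥0∞ := fun j =>
    gam p (C M₀) (C (Mt (P.T j) (P.m j))) (P.T j).b (P.m j) * η
  let E : Fin P.N → ℝ≥0∞ := fun j => del p P j + c₃ j * del p P j + 2 * c₃ j * c₂ j * K₃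
  have fE : ∀ j, E j ≠ ⊤ := fun j => by
    have := fd j
    have := fg (C M₀) (C (Mt (P.T j) (P.m j))) (P.T j).b (P.m j)
    simp only [E, c₃, c₂, η]
    finiteness
  refine ⟨((1 + C M₀ + 4 * C M₀ * C M₀ * K₃) * M₀ +
    ∑ j, E j * Mt (P.T j) (P.m j) : ℝ≥0∞).toNNReal, ?_⟩
  intro G F h t θ H
  rw [ENNReal.coe_toNNReal (ENNReal.add_ne_top.2 ⟨by finiteness,
    ENNReal.sum_ne_top.2 fun j _ => ENNReal.mul_ne_top (fE j) ENNReal.coe_ne_top⟩)]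
  let s : Set 𝓜.Q.ι := {i | 𝓜.Q.dim i = 3 ∧ ∀ j, ¬ 𝓜.Q.cell i ⊆ P.BufSet j}
  let sf : Set 𝓜.Q.ι := {i | i ∈ s ∧ 𝓜.far i}
  let sn : Fin P.N → Set 𝓜.Q.ι := fun j => {i | i ∈ s ∧ 𝓜.Q.cell i ⊆ P.U j ∧
    (∀ x, 𝓜.nm i x = P.η⁻¹ • x) ∧ 𝓜.M i = Mt (P.T j) (P.m j)}
  let f : 𝓜.Q.ι → ℝ≥0∞ := fun i => En 3 p h (𝓜.Q.cell i)
  have hG : ∀ i ∈ s, ∀ l, 𝓜.Q.cell l ⊆ 𝓜.Q.cell i → l ∉ G := fun i hi l hl k =>
    let ⟨j, hj, _⟩ := H.good l k; (outer hA hB hi.1 hi.2 hl j).1 hj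
  have hfin : ∀ l, ∀ x ∈ 𝓜.Q.cell l, {i | x ∈ 𝓜.Q.cell i}.Finite := fun l x hx =>
    𝓜.Q.finite_mem (𝓜.Q.cell_subset_carrier l hx)
  have cf : ∀ l, ({i | i ∈ sf ∧ 𝓜.Q.cell l ⊆ 𝓜.Q.cell i}.encard : ℝ≥0∞) ≤ M₀ := fun l => by
    obtain ⟨x, hx⟩ := 𝓜.Q.cell_nonempty l
    refine enc_le ?_ ((hfin l x hx).subset fun i hi => hi.2.2) (𝓜.mult_far x)
    exact fun i hi => ⟨hi.1.1.1, hi.1.2, hi.2 hx⟩
  have cn : ∀ j l, ({i | i ∈ sn j ∧ 𝓜.Q.cell l ⊆ 𝓜.Q.cell i}.encard : ℝ≥0∞) ≤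
      Mt (P.T j) (P.m j) := fun j l => by
    obtain ⟨x, hx⟩ := 𝓜.Q.cell_nonempty l
    by_cases hU : x ∈ P.U j
    · refine enc_le ?_ ((hfin l x hx).subset fun i hi => hi.2) (𝓜.mult_near j x hU)
      exact fun i hi => ⟨hi.1.1.1, hi.2 hx⟩
    · rw [eq_empty_of_forall_notMem (s := {i | i ∈ sn j ∧ 𝓜.Q.cell l ⊆ 𝓜.Q.cell i})
        fun i hi => hU (hi.1.2.1 (hi.2 hx))]
      simp
  have split : ∀ (u : Set 𝓜.Q.ι) (a b : ℝ≥0∞) (x y : 𝓜.Q.ι → ℝ≥0∞),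
      (∀ i ∈ u, f i ≤ a * x i + b * y i) → ∑' i, u.indicator f i ≤
        a * ∑' i, u.indicator x i + b * ∑' i, u.indicator y i := by
    intro u a b x y hu
    rw [← ENNReal.tsum_mul_left, ← ENNReal.tsum_mul_left, ← ENNReal.tsum_add]
    refine ENNReal.tsum_le_tsum fun i => ?_
    by_cases hi : i ∈ u
    · simpa only [indicator_of_mem hi] using hu i hi
    · rw [indicator_of_notMem hi]
      exact zero_le
  have h1 : ∑' i, sf.indicator f i ≤ 16 * C M₀ * C M₀ * K₃ * (M₀ * P.farI Ω fun x => ‖F x‖ₑ ^ p) +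
      (1 + C M₀ + 4 * C M₀ * C M₀ * K₃) * (M₀ * ∑' l, θ l) := by
    refine (split sf _ _ _ _ fun i hi =>
      far_cell hS hC H hp hp2 hi.1.1 hi.2 (hG i hi.1)).trans ?_
    gcongr
    · refine (dsum sf {e | 𝓜.Q.dim e = 1 ∧ 𝓜.far e}
        (fun e i => 𝓜.Q.dim e = 1 ∧ 𝓜.Q.cell e ⊆ 𝓜.Q.cell i) _ (fun l => le_trans
          (ENat.toENNReal_le.2 (encard_le_encard fun i hi => by exact ⟨hi.1, hi.2.2⟩)) (cf l))
        fun i hi e he => ⟨he.1, (𝓜.far_face i e hi.2 he.2).1⟩).trans ?_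
      gcongr
      exact far_sum hE hA _
    · simpa using dsum sf univ (fun l i => 𝓜.Q.cell l ⊆ 𝓜.Q.cell i) θ cf fun _ _ _ _ => mem_univ _
  have h2 : ∀ j, ∑' i, (sn j).indicator f i ≤ 2 * c₃ j * c₂ j * K₃ * (Mt (P.T j) (P.m j) *
      P.nearI j (S (P.T j) (P.m j)) fun x => ‖F x‖ₑ ^ p) +
      E j * (Mt (P.T j) (P.m j) * ∑' l, θ l) := fun j => by
    refine (split (sn j) _ _ _ _ fun i hi => hC 𝓜.Q i h (fun x => ‖F x‖ₑ ^ p) θ (c₃ := c₃ j)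
      (c₂ := c₂ j) (D := del p P j) hp hi.1.1 ?_
      (fun φ hφ hs => near_face hS hO hA H hp hp2 hφ (hG i hi.1 φ hs) (hs.trans hi.2.1)
        (outer hA hB hi.1.1 hi.1.2 hs j).1) fun e he _ => wire_refl H hp he).trans ?_
    · have := ext_smul hS H hp hp2 (hG i hi.1 i Subset.rfl) hi.1.1 one_le_two
        ((one_le_inv₀ hA.eta_pos).2 hA.eta_le) hi.2.2.1
      rw [hi.2.2.2, inv_inv] at this
      exact this.trans (add_le_add le_rfl (le_mul_of_one_le_left' le_self_add))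
    gcongr
    · refine (dsum (sn j) _
        (fun e i => 𝓜.Q.dim e = 1 ∧ 𝓜.Q.cell e ⊆ 𝓜.Q.cell i) _ (fun l => le_trans
          (ENat.toENNReal_le.2 (encard_le_encard fun i hi => by exact ⟨hi.1, hi.2.2⟩)) (cn j l))
        fun i hi e he => ?_).trans (mul_le_mul_right (near_sum hE _ j) _)
      obtain ⟨φ, a, b, c⟩ := 𝓜.Q.exists_facet hi.1.1
        (𝓜.Q.subset_bd_of_dim_lt he.2 (by rw [he.1, hi.1.1]; norm_num))
      have b' := b.trans (𝓜.Q.bd_subset i)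
      exact ⟨he.1, subset_sdiff.2 ⟨he.2.trans hi.2.1, (outer hA hB hi.1.1 hi.1.2 he.2 j).2⟩,
        𝓜.wire_near φ e j c he.1 a (b'.trans hi.2.1) (outer hA hB hi.1.1 hi.1.2 b' j).1⟩
    · simpa using dsum (sn j) univ (fun l i => 𝓜.Q.cell l ⊆ 𝓜.Q.cell i) θ (cn j)
        fun _ _ _ _ => mem_univ _
  calc _ ≤ ∑' i, s.indicator f i := by
        refine hE.2.2.2.1 𝓜.Q s h hp 𝓜.cvx (sdiff_subset.trans 𝓜.carrier.superset)
          fun i hi ⟨x, hx, hx'⟩ =>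
          ⟨hi, fun j k => hx'.2 (mem_iUnion.2 ⟨j, k hx.1⟩)⟩
    _ ≤ ∑' i, (sf.indicator f i + ∑ j, (sn j).indicator f i) := by
        refine ENNReal.tsum_le_tsum fun i => ?_
        by_cases hi : i ∈ s
        · rw [indicator_of_mem hi]
          by_cases hf : 𝓜.far i
          · rw [indicator_of_mem (show i ∈ sf from ⟨hi, hf⟩)]
            exact le_self_add
          · obtain ⟨j, a, b⟩ := 𝓜.near i hf
            refine le_trans ?_ le_add_self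
            refine le_trans ?_ (Finset.single_le_sum (f := fun j => (sn j).indicator f i)
              (fun _ _ => zero_le) (Finset.mem_univ j))
            rw [indicator_of_mem (show i ∈ sn j from ⟨hi, a, b.resolve_left (hi.2 j)⟩)]
        · rw [indicator_of_notMem hi]
          exact zero_le
    _ = ∑' i, sf.indicator f i + ∑ j, ∑' i, (sn j).indicator f i := by
        rw [ENNReal.tsum_add, Summable.tsum_finsetSum fun _ _ => ENNReal.summable]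
    _ ≤ _ := by
        refine (add_le_add h1 (Finset.sum_le_sum fun j _ => h2 j)).trans (le_of_eq ?_)
        rw [Finset.sum_add_distrib, add_add_add_comm, add_mul (_ * _) (∑ j, _), Finset.sum_mul]
        congr 1
        · congr 1
          · push_cast
            ring
          · refine Finset.sum_congr rfl fun j _ => ?_
            have := fg (C M₀) (C (Mt (P.T j) (P.m j))) (P.T j).b (P.m j)
            rw [ENNReal.coe_toNNReal (by finiteness)]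
            simp only [c₃, c₂, η]
            ring
        · congr 1
          · ring
          · exact Finset.sum_congr rfl fun j _ => by ring

end P073
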