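import Vale.Agent.P073Z.ACC.Sk
import Vale.Agent.P073Z.ACC.Tool

/-!
# The staircases in the coordinates of the source
-/

open Set Metric Topology Filter MeasureTheory
open scoped ENNReal NNReal

namespace P073

namespace ACC

theorem fderiv_comp_lam (L : E3 →L[ℝ] E3) (hL : Function.Injective L) (g : E3 → E3) (w ξ : E3) :
    fderiv ℝ (fun ζ => g (w + L ζ)) ξ = (fderiv ℝ g (w + L ξ)).comp L := by
  let e : E3 ≃L[ℝ] E3 :=
    (LinearEquiv.ofInjectiveEndo (L : E3 →ₗ[ℝ] E3) hL).toContinuousLinearEquiv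
  have he : (e : E3 →L[ℝ] E3) = L := by ext1 v; rfl
  have h1 := e.comp_right_fderiv (f := fun v => g (w + v)) (x := ξ)
  rw [fderiv_comp_add_left, he] at h1
  exact h1

/-- conjugation by an affine equivalence -/
theorem exists_conj (ν : E3 ≃ᴬ[ℝ] E3) (Θ : ConHomeo (univ : Set E3) (univ : Set E3)) :
    ∃ Ψ : ConHomeo (univ : Set E3) (univ : Set E3), ∀ x, Ψ.toFun x = ν.symm (Θ.toFun (ν x)) := by
  let A : ConHomeo (univ : Set E3) (univ : Set E3) :=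
    (ConHomeo.ofAffine ν (IsOpen.conicalSet isOpen_univ)).cast rfl
      (image_univ_of_surjective ν.surjective)
  exact ⟨A.trans (Θ.trans A.symm), fun _ => rfl⟩

theorem uface_empty (z : Fin 3 → ℤ) : uface z ∅ = ucube z := by
  ext ξ; simp [uface]

theorem mem_face {z : Fin 3 → ℤ} {ξ : E3} (h : ξ ∈ ucube z) {i : Fin 3} {k : ℤ} (hk : ξ i = k) :
    ξ ∈ uface z (insert i ∅) ∨ ξ ∈ uface (z + Pi.single i 1) (insert i ∅) := by
  have h1 : (z i : ℝ) ≤ k := hk ▸ h.1 i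
  have h2 : (k : ℝ) ≤ z i + 1 := hk ▸ h.2 i
  have h3 : z i ≤ k := by exact_mod_cast h1
  have h4 : k ≤ z i + 1 := by exact_mod_cast h2
  rcases h3.eq_or_lt with h5 | h5
  · refine Or.inl ⟨h, fun l hl => ?_⟩
    obtain rfl : l = i := by simpa using hl
    rw [hk, h5]
  · have h6 : k = z i + 1 := by omega
    refine Or.inr ⟨⟨fun l => ?_, fun l => ?_⟩, fun l hl => ?_⟩
    · by_cases hl : l = i
      · subst hl; simp [hk, h6]
      · simpa [Pi.single_eq_of_ne hl] using h.1 l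
    · by_cases hl : l = i
      · subst hl; simp [hk, h6]
      · simpa [Pi.single_eq_of_ne hl] using h.2 l
    · obtain rfl : l = i := by simpa using hl
      simp [hk, h6]

theorem norm_sub_le_one {z : Fin 3 → ℤ} {ξ ζ : E3} (h : ξ ∈ ucube z) (h' : ζ ∈ ucube z) :
    ‖ξ - ζ‖ ≤ 1 := by
  refine (pi_norm_le_iff_of_nonneg zero_le_one).2 fun i => ?_
  have a1 : (z i : ℝ) ≤ ξ i := h.1 i
  have a2 : ξ i ≤ z i + 1 := h.2 i
  have a3 : (z i : ℝ) ≤ ζ i := h'.1 i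
  have a4 : ζ i ≤ z i + 1 := h'.2 i
  rw [Pi.sub_apply, Real.norm_eq_abs, abs_le]
  constructor <;> linarith

theorem enorm_rpow_le {X Y : E3 →L[ℝ] E3} {c p : ℝ} (hc : 0 ≤ c) (hp : 0 ≤ p)
    (h : ‖X‖ ≤ c * ‖Y‖) : ‖X‖ₑ ^ p ≤ ENNReal.ofReal c ^ p * ‖Y‖ₑ ^ p := by
  rw [← ENNReal.mul_rpow_of_nonneg _ _ hp, ← ofReal_norm, ← ofReal_norm,
    ← ENNReal.ofReal_mul hc]
  exact ENNReal.rpow_le_rpow (ENNReal.ofReal_le_ofReal h) hp

end ACC

open ACC in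
theorem stairs_of (hS : STAIR) (hC : CUBE) (hE : CELL) : STAIRS := by
  intro p hp
  have hp0 : (0 : ℝ) ≤ p := zero_le_one.trans hp
  have hinv : ∀ m : ℕ, 2 ≤ m → 0 < (m : ℝ)⁻¹ ∧ (m : ℝ)⁻¹ < 1 := fun m hm => by
    have : (2 : ℝ) ≤ m := by exact_mod_cast hm
    exact ⟨by positivity, inv_lt_one_of_one_lt₀ (by linarith)⟩
  choose C hCs using fun (m : ℕ) (hm : 2 ≤ m) => hS hp (hinv m hm).1 (hinv m hm).2
  refine ⟨fun m => if hm : 2 ≤ m then C m hm else 0, ?_⟩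
  intro Ω Λ Z P M₀ Mt S 𝓜 h h' ε hΩ hP hm hh hZ hZ2 hc hε
  have cu := hC P hΩ hP
  have ce := hE 𝓜 hΩ hP
  have hsymm : ∀ j ξ, (𝓜.ν j).symm ξ = P.w + P.Lam j ξ := fun j ξ => by
    apply (𝓜.ν j).injective
    rw [(𝓜.ν j).apply_symm_apply, 𝓜.ν_eq, cu.nu_lam]
  have hU : ∀ j, ⋃ z ∈ (cu.inner_fin j).toFinset, ucube z = ⋃ z ∈ P.Inner j, ucube z := fun j => by
    simp only [Finite.mem_toFinset]
  have hnu : ∀ j ξ, P.nu j ((𝓜.ν j).symm ξ) = ξ := fun j ξ => by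
    rw [← 𝓜.ν_eq, (𝓜.ν j).apply_symm_apply]
  have hst := fun j => hCs (P.m j) (hm j) (W := (𝓜.ν j).symm ⁻¹' Ω) (Z := (𝓜.ν j).symm ⁻¹' Z)
    (H := h ∘ (𝓜.ν j).symm) (P.T j).I (P.B j) (cu.inner_fin j).toFinset (ε := ε)
    (hΩ.preimage (𝓜.ν j).symm.continuous)
    (hh.cont.comp (𝓜.ν j).symm.continuous.continuousOn fun _ hx => hx)
    ⟨fun _ hx => hZ.1 hx, fun x hx => by
      obtain ⟨U, hU, hfin⟩ := hZ.2 _ hx
      exact ⟨_, (𝓜.ν j).symm.continuous.continuousAt hU,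
        hfin.preimage (f := (𝓜.ν j).symm) (𝓜.ν j).symm.injective.injOn⟩⟩
    (by
      have hZo : IsOpen (Ω \ Z) := by
        rw [isOpen_iff_mem_nhds]
        intro x hx
        obtain ⟨U, hU, hfin⟩ := hZ.2 x hx.1
        filter_upwards [hΩ.mem_nhds hx.1, hU,
          hfin.isClosed.isOpen_compl.mem_nhds (fun h => hx.2 h.1)] with y h1 h2 h3
        exact ⟨h1, fun h => h3 ⟨h, h2⟩⟩
      exact hc.comp (conicalOn_of_affine (𝓜.ν j).symm.toAffineEquiv.toAffineMap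
        (IsOpen.conicalSet (hZo.preimage (𝓜.ν j).symm.continuous))) (fun _ hx => hx)
        (𝓜.ν j).symm.continuous.continuousOn)
    (fun ξ hξ => cu.U_sub j (cu.thick_U j (by rw [mem_preimage, hnu, ← hU]; exact hξ)))
    (by
      rintro ξ ⟨hξZ, hξ⟩ i k hk
      rw [hU] at hξ
      obtain ⟨z, hz, hξz⟩ := mem_iUnion₂.1 (cu.cthick_buf j hξ)
      have hf := ce.face_sub z ∅ i (by simp)
      rw [uface_empty] at hf
      have key : ∀ z', uface z' (insert i ∅) ⊆ ucube z → ξ ∈ uface z' (insert i ∅) → False := by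
        intro z' h1 h2
        obtain ⟨c, hc1, hc2⟩ := ce.sub_box j z hz z' _ h1 ((𝓜.ν j).symm ξ)
          (by rw [Par.box, mem_preimage, hnu]; exact h2)
        have h3 := ce.box_dim j z' _ c hc2
        have h4 : 𝓜.Q.dim c ≤ 2 := by
          have : (insert i (∅ : Finset (Fin 3))).card = 1 := by simp
          omega
        exact disjoint_left.1 hZ2 hξZ (𝓜.Q.mem_skel.2 ⟨c, h4, hc1⟩)
      exact (mem_face hξz hk).elim (key _ hf.1) (key _ hf.2))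
    (cu.B_ker j) hε
  choose Θ h1 h2 h3 h4 using hst
  choose Θ' hΘ' using fun j => exists_conj (𝓜.ν j) (Θ j)
  have hid : ∀ j x, x ∉ P.BufSet j → (Θ' j).toFun x = x := by
    intro j x hx
    rw [hΘ', h1 j _ fun hx' => hx ?_, (𝓜.ν j).symm_apply_apply]
    rw [hU] at hx'
    obtain ⟨z, hz, hxz⟩ := mem_iUnion₂.1 (cu.thick_buf j hx')
    exact ⟨z, hz, 𝓜.ν_eq j x ▸ hxz⟩
  obtain ⟨Ψ, hΨ1, hΨ2⟩ := patch Finset.univ Θ' P.U (fun i _ j _ hij => cu.U_disj i j hij)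
    (fun j _ x hx => hid j x fun h => hx (cu.buf_U j h))
  have hΨ : ∀ x, x ∉ ⋃ j, P.BufSet j → Ψ.toFun x = x := by
    intro x hx
    by_cases hU : ∃ j, x ∈ P.U j
    · obtain ⟨j, hj⟩ := hU
      rw [hΨ1 j (Finset.mem_univ j) hj, hid j x fun h => hx (mem_iUnion.2 ⟨j, h⟩)]
    · exact hΨ2 x fun j _ hj => hU ⟨j, hj⟩
  obtain ⟨k1, k2, k3, k4⟩ := comp_theta hΩ hh hZ hc Ψ
    (iUnion_subset fun j => (cu.buf_U j).trans (cu.U_sub j)) hΨ
  have hbuf : ∀ j, P.BufSet j = ⋃ z ∈ P.Buf j, P.cube j z := fun j => by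
    ext x
    simp only [Par.BufSet, Par.cube, mem_iUnion, mem_ofPred_eq, mem_preimage, exists_prop]
  have hcl : IsClosed (⋃ j, P.BufSet j) := isClosed_iUnion_of_finite fun j => by
    rw [hbuf]
    exact ((cu.buf_fin j).isCompact_biUnion fun z _ => cu.compact_cube j z).isClosed
  have hcube : ∀ j, ∀ z ∈ P.Buf j, P.cube j z ⊆ P.U j := fun j z hz x hx =>
    cu.buf_U j ⟨z, hz, hx⟩
  have hba : ∀ j, 0 ≤ ((P.T j).b : ℝ) / P.a j := fun j =>
    div_nonneg (Nat.cast_nonneg _) (cu.a_pos j).le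
  -- the derivative in normalised coordinates
  have hder : ∀ j, ∀ x ∈ P.U j, fderiv ℝ ((h ∘ (𝓜.ν j).symm) ∘ (Θ j).toFun) (P.nu j x) =
      (fderiv ℝ (h ∘ Ψ.toFun) x).comp (P.Lam j) := by
    intro j x hx
    have hinj : Function.Injective (P.Lam j) := fun a b hab => by
      rw [← cu.nu_lam j a, hab, cu.nu_lam]
    have e1 := fderiv_comp_lam (P.Lam j) hinj (h ∘ Ψ.toFun) P.w (P.nu j x)
    rw [cu.lam_nu] at e1
    rw [← e1]
    refine Filter.EventuallyEq.fderiv_eq ?_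
    have hcont : Continuous fun ζ => P.w + P.Lam j ζ := continuous_const.add (P.Lam j).continuous
    have hmem : (fun ζ => P.w + P.Lam j ζ) ⁻¹' P.U j ∈ 𝓝 (P.nu j x) :=
      (isOpen_thickening.preimage hcont).mem_nhds (by
        rw [mem_preimage, cu.lam_nu]; exact hx)
    filter_upwards [hmem] with ζ hζ
    simp only [Function.comp]
    rw [hΨ1 j (Finset.mem_univ j) hζ, hΘ', 𝓜.ν_eq, cu.nu_lam]
  have hint : ∀ j, ∀ z ∈ P.Buf j, ∀ (u : E3 → (E3 →L[ℝ] E3)) (g : E3 → (E3 →L[ℝ] E3))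
      (b : ℝ≥0∞), (∀ x ∈ P.U j, ‖u x‖ ≤ (P.T j).b / P.a j * ‖g (P.nu j x)‖) →
      ∫⁻ ξ in ucube z, ‖g ξ‖ₑ ^ p ≤ b → ∫⁻ x in P.cube j z, ‖u x‖ₑ ^ p ≤
        P.vol j * ENNReal.ofReal ((P.T j).b / P.a j) ^ p * b := by
    intro j z hz u g b hu hb
    calc ∫⁻ x in P.cube j z, ‖u x‖ₑ ^ p
        ≤ ∫⁻ x in P.cube j z, ENNReal.ofReal ((P.T j).b / P.a j) ^ p * ‖g (P.nu j x)‖ₑ ^ p :=
          setLIntegral_mono' (cu.compact_cube j z).measurableSet fun x hx =>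
            enorm_rpow_le (hba j) hp0 (hu x (hcube j z hz hx))
      _ = ENNReal.ofReal ((P.T j).b / P.a j) ^ p * (P.vol j * ∫⁻ ξ in ucube z, ‖g ξ‖ₑ ^ p) := by
          rw [lintegral_const_mul' _ _ (ENNReal.rpow_ne_top_of_nonneg hp0 ENNReal.ofReal_ne_top),
            ← cu.vol_map j (fun ξ => ‖g ξ‖ₑ ^ p) (ucube z) measurableSet_Icc]
          rfl
      _ ≤ _ := by
          rw [← mul_assoc, mul_comm _ (P.vol j)]
          exact mul_le_mul_right hb _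
  refine ⟨_, _, _, k1, k2, k3, fun x hx => ⟨Ψ.toFun x, k4 hx, ?_, rfl⟩, fun x hx => ?_,
    fun j => ⟨fun z hz => ?_, fun z hz => ?_⟩⟩
  · by_cases hxb : x ∈ ⋃ j, P.BufSet j
    swap
    · rw [hΨ x hxb, dist_self]; exact (hP.pos x hx).1.le
    obtain ⟨j, z, hz, hxz⟩ := mem_iUnion.1 hxb
    have hxU : x ∈ P.U j := hcube j z hz hxz
    have a1 : (Θ j).toFun (P.nu j x) ∈ ucube z := h2 j z ▸ mem_image_of_mem _ hxz
    have a2 := cu.lam_le j ((Θ j).toFun (P.nu j x) - P.nu j x)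
    have a3 := norm_sub_le_one a1 hxz
    have a4 : 0 ≤ ((P.T j).b : ℝ) * P.η := mul_nonneg (Nat.cast_nonneg _) cu.eta_pos.le
    have a5 := (hP.big j x (thickening_subset_cthickening_of_le (by nlinarith) _ hxU)).2
    rw [hΨ1 j (Finset.mem_univ j) hxU, hΘ', hsymm, 𝓜.ν_eq, dist_eq_norm]
    have a6 : P.w + P.Lam j ((Θ j).toFun (P.nu j x)) - x =
        P.Lam j ((Θ j).toFun (P.nu j x) - P.nu j x) := by
      rw [map_sub]
      conv_lhs => rw [← cu.lam_nu j x]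
      rw [cu.nu_lam]
      abel
    rw [a6]
    nlinarith
  · filter_upwards [hcl.isOpen_compl.mem_nhds hx] with y hy
    simp only [Function.comp]
    rw [hΨ y hy]
  · have e : ENNReal.ofReal ((P.m j : ℝ)⁻¹) = (P.m j : ℝ≥0∞)⁻¹ := by
      rw [ENNReal.ofReal_inv_of_pos (inv_pos.1 (hinv _ (hm j)).1), ENNReal.ofReal_natCast]
    have := h3 j z ((cu.inner_fin j).mem_toFinset.2 hz)
    rw [e] at this
    refine hint j z (cu.inner_buf j hz) (fun x => fderiv ℝ (h ∘ Ψ.toFun) x - (P.T j).A) _ _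
      (fun x hx => ?_) this
    rw [hder j x hx]
    have := cu.lam_dgs j (fderiv ℝ (h ∘ Ψ.toFun) x - (P.T j).A)
    rwa [ContinuousLinearMap.sub_comp] at this
  · have := h4 j z (by rw [hU]; exact hz)
    beta_reduce
    rw [dif_pos (hm j)]
    refine hint j z hz (fun x => fderiv ℝ (h ∘ Ψ.toFun) x) _ _ (fun x hx => ?_) this
    rw [hder j x hx]
    refine ContinuousLinearMap.opNorm_le_bound _ (mul_nonneg (hba j) (norm_nonneg _)) fun v => ?_
    have a1 : P.Lam j (P.nu j (P.w + v)) = v := add_left_cancel (cu.lam_nu j (P.w + v))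
    have a2 := cu.lam_ge j (P.nu j (P.w + v))
    have a3 := ((fderiv ℝ (h ∘ Ψ.toFun) x).comp (P.Lam j)).le_opNorm (P.nu j (P.w + v))
    rw [ContinuousLinearMap.comp_apply, a1] at a3
    rw [a1] at a2
    calc _ ≤ _ := a3
      _ ≤ ‖(fderiv ℝ (h ∘ Ψ.toFun) x).comp (P.Lam j)‖ * ((P.T j).b / P.a j * ‖v‖) :=
          mul_le_mul_of_nonneg_left a2 (norm_nonneg _)
      _ = _ := by ring

end P073
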