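import Vale.Agent.P073Z.Sk3

/-!
# The accounting: definitions and statements
-/

open Set Metric Topology Filter MeasureTheory
open scoped ENNReal NNReal

namespace P073

/-- integral over the lines `w + S` -/
noncomputable def lint (S : Set E3) (g : E3 → ℝ≥0∞) (w : E3) : ℝ≥0∞ :=
  ∫⁻ x in {x | x - w ∈ S}, g x ∂(μH[1])

/-- the lines of the Kuhn triangulation of mesh `1 / n` on which `c` coordinates are constant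
integers -/
def Lc (n c : ℕ) : Set E3 := {ξ | ∃ (v u : Fin 3 → ℤ) (J : Finset (Fin 3)) (t : ℝ), J.card = c ∧
  (∀ i, u i = 0 ∨ u i = 1) ∧ (∀ i ∈ J, u i = 0 ∧ (n : ℤ) ∣ v i) ∧
  ∀ i, (n : ℝ) * ξ i = v i + t * u i}

namespace Par

variable (P : Par)

/-- the same parameters with another shift -/
def shift (w : E3) : Par := { P with w := w }

/-- normalised coordinates without the shift -/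
noncomputable def nu0 (j : Fin P.N) (v : E3) : E3 := fun i =>
  (P.T j).L.symm v i / (if (i : ℕ) < (P.T j).r then P.η / P.m j else P.η)

theorem nu_eq (j : Fin P.N) (x : E3) : P.nu j x = P.nu0 j (x - P.w) := rfl

/-- the short side of the cubes -/
noncomputable def a (j : Fin P.N) : ℝ := P.η / P.m j

/-- the linear part of the inverse of `nu` -/
noncomputable def Lam (j : Fin P.N) : E3 →L[ℝ] E3 :=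
  ((P.T j).L : E3 →L[ℝ] E3).comp (ContinuousLinearMap.pi fun i =>
    (if (i : ℕ) < (P.T j).r then P.η / P.m j else P.η) • ContinuousLinearMap.proj i)

/-- the matrix in normalised coordinates -/
noncomputable def B (j : Fin P.N) : E3 →L[ℝ] E3 := (P.T j).A.comp (P.Lam j)

/-- the boxes -/
def box (j : Fin P.N) (z : Fin 3 → ℤ) (J : Finset (Fin 3)) : Set E3 := P.nu j ⁻¹' uface z J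

/-- the cubes -/
def cube (j : Fin P.N) (z : Fin 3 → ℤ) : Set E3 := P.nu j ⁻¹' ucube z

/-- their volume -/
noncomputable def vol (j : Fin P.N) : ℝ≥0∞ := ENNReal.ofReal |(P.Lam j).det|

/-- the zones of the far cells -/
def zone (k : ℕ) : Set E3 := {x | P.k₀ ≤ k ∧ (2:ℝ)⁻¹ ^ k / 4 ≤ P.ς x ∧
  (P.k₀ < k → P.ς x ≤ 4 * (2:ℝ)⁻¹ ^ k)}

/-- the union of the compact sets -/
def KK : Set E3 := ⋃ j, P.K j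

/-- weighted integral over the lines of type `j` inside `X` -/
noncomputable def lam (j : Fin P.N) (X : Set E3) (g : E3 → ℝ≥0∞) : ℝ≥0∞ :=
  ∑ c ∈ Finset.range 3, (P.n : ℝ≥0∞)⁻¹ ^ (2 - c) *
    lint (P.nu0 j ⁻¹' Lc P.n c) (X.indicator g) P.w

/-- weighted integral over the far lines -/
noncomputable def farI (Ω : Set E3) (g : E3 → ℝ≥0∞) : ℝ≥0∞ :=
  ∑' k : ℕ, (4 : ℝ≥0∞)⁻¹ ^ k * lint {v | (2:ℝ) ^ (k + 2) • v ∈ gridLines}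
    (((Ω \ P.KK) ∩ P.zone k).indicator g) P.w

/-- integral over the near lines -/
noncomputable def nearI (j : Fin P.N) (S : Set E3) (g : E3 → ℝ≥0∞) : ℝ≥0∞ :=
  lint {v | P.η⁻¹ • v ∈ S} ((P.U j \ P.K j).indicator g) P.w

/-- the number of fine lattice points off `K j` -/
noncomputable def vert (j : Fin P.N) : ℝ≥0∞ :=
  ({x ∈ P.U j \ P.K j | (∀ i, ∃ k : ℤ, (P.n : ℝ) * P.nu j x i = k) ∧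
    ∀ i ∈ (P.T j).I, ∃ k : ℤ, P.nu j x i = k}.encard : ℝ≥0∞)

/-- integral over the parts of the grid lines near the lattice points -/
noncomputable def endI (j : Fin P.N) (δ : ℝ) (g : E3 → ℝ≥0∞) : ℝ≥0∞ :=
  ∫⁻ x in {x ∈ P.U j | P.nu j x ∈ gridLines ∧ ∃ z : Fin 3 → ℤ,
    dist (P.nu j x) (fun i => (z i : ℝ)) ≤ δ}, g x ∂(μH[1])

end Par

/-- the output of the machine -/
structure Out {Ω : Set E3} {P : Par} {M₀ : ℝ≥0} {Mt : Ty → ℕ → ℝ≥0} {S : Ty → ℕ → Set E3}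
    (𝓜 : Mesh Ω P M₀ Mt S) (G : Set 𝓜.Q.ι) (F : E3 → (E3 →L[ℝ] E3)) (h : E3 → E3) (p : ℝ)
    (K₃ : ℝ≥0) (C : ℝ≥0 → ℝ≥0) (t : Fin P.N → ℝ) (θ : 𝓜.Q.ι → ℝ≥0∞) : Prop where
  meas : Measurable F
  t_mem : ∀ j, 0 ≤ t j ∧ t j ≤ 1
  good : ∀ i ∈ G, ∃ j, 𝓜.Q.cell i ⊆ P.Fine j ∧ ∀ x ∈ 𝓜.Q.cell i, ∀ y ∈ 𝓜.Q.cell i,
    ‖h y - h x - (P.T j).A (y - x)‖ ≤ t j * ‖y - x‖
  wire : ∀ e x y, 𝓜.Q.dim e = 1 → 𝓜.Q.cell e = segment ℝ x y →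
    ∀ (μ : E3 ≃ᴬ[ℝ] E3) (A : E3 →L[ℝ] E3), En 1 p (h ∘ μ.symm) (μ '' 𝓜.Q.cell e) ≤
      K₃ * edist (μ x) (μ y) ^ (1 - p) * (‖A (y - x)‖ₑ ^ p + edist x y ^ (p - 1) *
        ((∫⁻ z in 𝓜.Q.cell e, ‖F z - A‖ₑ ^ p ∂(μH[1])) + θ e))
  ext : ∀ i, i ∉ G → 2 ≤ 𝓜.Q.dim i →
    En (𝓜.Q.dim i) p (h ∘ (𝓜.nm i).symm) (𝓜.nm i '' 𝓜.Q.cell i) ≤
      C (𝓜.M i) * En (𝓜.Q.dim i - 1) p (h ∘ (𝓜.nm i).symm) (𝓜.nm i '' 𝓜.Q.bd i) + θ i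

/-! ### AC-1: tools -/

def WIRE : Prop := ∀ {p : ℝ}, 1 ≤ p → ∀ K₂ : ℝ≥0, ∃ K₃ : ℝ≥0,
  ∀ {f h : E3 → E3} {F : E3 → (E3 →L[ℝ] E3)} {x y : E3} {η θ : ℝ≥0∞}, x ≠ y → Measurable F →
  Vale.Agent.P073.HB.GoodSeg f F x (y - x) → η ^ p ≤ edist x y ^ (p - 1) * θ →
  (∀ u ∈ segment ℝ x y, ∀ w ∈ segment ℝ x y,
    edist (h u) (h w) * edist x y ≤ (K₂ * segVar f x y + η) * edist u w) →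
  ∀ (μ : E3 ≃ᴬ[ℝ] E3) (A : E3 →L[ℝ] E3), En 1 p (h ∘ μ.symm) (μ '' segment ℝ x y) ≤
    K₃ * edist (μ x) (μ y) ^ (1 - p) * (‖A (y - x)‖ₑ ^ p + edist x y ^ (p - 1) *
      ((∫⁻ z in segment ℝ x y, ‖F z - A‖ₑ ^ p ∂(μH[1])) + θ))

/-- change of the normalisation in the extension inequality -/
def SCALE : Prop := ∀ {p : ℝ} {d : ℕ} {X Y : Set E3} {h : E3 → E3} (μ ν : E3 ≃ᴬ[ℝ] E3)
  {K L : ℝ≥0} {c θ : ℝ≥0∞}, 0 < p → IsCompact X → IsCompact Y →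
  LipschitzWith K (ν ∘ μ.symm) → LipschitzWith L (μ ∘ ν.symm) →
  En (d + 1) p (h ∘ ν.symm) (ν '' X) ≤ c * En d p (h ∘ ν.symm) (ν '' Y) + θ →
  En (d + 1) p (h ∘ μ.symm) (μ '' X) ≤
    c * ((K : ℝ≥0∞) * L) ^ p * ((K : ℝ≥0∞) * L) ^ d * L * En d p (h ∘ μ.symm) (μ '' Y) +
      (K : ℝ≥0∞) ^ p * (L : ℝ≥0∞) ^ (d + 1) * θ

/-- energies of subcomplexes in affine coordinates; adding a linear map; sums over edges -/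
def ENA : Prop :=
  (∀ (K : RCx E3) (μ : E3 ≃ᴬ[ℝ] E3) (k : ℕ) {p : ℝ} (H : E3 → E3) {X : Set E3}, 0 < p →
    K.Sub X → IsCompact X → (∀ j, K.cell j ⊆ X → K.dim j ≤ k) → En k p H (μ '' X) ≤
      ∑' j, {j | K.cell j ⊆ X ∧ K.dim j = k}.indicator (fun j => En k p H (μ '' K.cell j)) j) ∧
  (∀ (k : ℕ) {p : ℝ} (H : E3 → E3) (B : E3 →L[ℝ] E3) {X : Set E3}, 1 ≤ p → MeasurableSet X →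
    En k p (fun ξ => H ξ - B ξ) X ≤ 2 ^ p * (En k p H X + ‖B‖ₑ ^ p * μH[(k : ℝ)] X) ∧
    En k p H X ≤ 2 ^ p * (En k p (fun ξ => H ξ - B ξ) X + ‖B‖ₑ ^ p * μH[(k : ℝ)] X)) ∧
  (∀ (K : RCx E3) (s : Set K.ι) (g : E3 → ℝ≥0∞) {X : Set E3}, (∀ e ∈ s, K.dim e = 1 ∧
    K.cell e ⊆ X) → ∑' e, s.indicator (fun e => ∫⁻ x in K.cell e, g x ∂(μH[1])) e ≤
      ∫⁻ x in X, g x ∂(μH[1])) ∧
  (∀ (K : RCx E3) (s : Set K.ι) (h : E3 → E3) {p : ℝ} {X : Set E3}, 0 < p → K.Cvx →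
    X ⊆ K.carrier → (∀ i, K.dim i = 3 → (K.ocell i ∩ X).Nonempty → i ∈ s) →
    ∫⁻ x in X, ‖fderiv ℝ h x‖ₑ ^ p ≤ ∑' i, s.indicator (fun i => En 3 p h (K.cell i)) i) ∧
  (∀ (K : RCx E3) (i e : K.ι), K.dim i = 3 → K.dim e = 1 →
    {φ | K.dim φ = 2 ∧ K.cell e ⊆ K.cell φ ∧ K.cell φ ⊆ K.cell i}.encard ≤ 2) ∧
  ∀ (z : Fin 3 → ℤ) (J : Finset (Fin 3)), μH[((3 - J.card : ℕ) : ℝ)] (uface z J) ≤ 1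

/-- from the three-cell down to its edges -/
def CHAIN : Prop := ∀ (K : RCx E3) (i : K.ι) {p : ℝ} (h : E3 → E3) (g : E3 → ℝ≥0∞)
  (θ : K.ι → ℝ≥0∞) {c₁ c₂ c₃ D : ℝ≥0∞}, 0 < p → K.dim i = 3 →
  En 3 p h (K.cell i) ≤ c₃ * En 2 p h (K.bd i) + D * θ i →
  (∀ φ, K.dim φ = 2 → K.cell φ ⊆ K.cell i → En 2 p h (K.cell φ) ≤ c₂ * En 1 p h (K.bd φ) + D * θ φ) →
  (∀ e, K.dim e = 1 → K.cell e ⊆ K.cell i →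
    En 1 p h (K.cell e) ≤ c₁ * ((∫⁻ x in K.cell e, g x ∂(μH[1])) + θ e)) →
  En 3 p h (K.cell i) ≤ 2 * c₃ * c₂ * c₁ * (∑' e, {e | K.dim e = 1 ∧ K.cell e ⊆ K.cell i}.indicator
      (fun e => ∫⁻ x in K.cell e, g x ∂(μH[1])) e) +
    (D + c₃ * D + 2 * c₃ * c₂ * c₁) * ∑' j, {j | K.cell j ⊆ K.cell i}.indicator θ j

/-! ### AC-2: cubes -/

/-- facts about the parameters alone -/
structure CubeApi (Ω : Set E3) (P : Par) : Prop where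
  eta_pos : 0 < P.η
  eta_le : P.η ≤ 1
  a_pos : ∀ j, 0 < P.a j
  nu_lam : ∀ j ξ, P.nu j (P.w + P.Lam j ξ) = ξ
  lam_nu : ∀ j x, P.w + P.Lam j (P.nu j x) = x
  lam_le : ∀ j ξ, ‖P.Lam j ξ‖ ≤ (P.T j).b * P.η * ‖ξ‖
  lam_flat : ∀ j ξ, (∀ i ∈ (P.T j).I, ξ i = 0) → ‖P.Lam j ξ‖ ≤ (P.T j).b * P.a j * ‖ξ‖
  lam_ge : ∀ j ξ, ‖ξ‖ ≤ (P.T j).b / P.a j * ‖P.Lam j ξ‖
  /-- the anisotropic form of the lower bound -/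
  lam_dgs : ∀ j (X : E3 →L[ℝ] E3), ‖X‖ ≤
    (P.T j).b / P.a j * ‖(X.comp (P.Lam j)).comp (dgs (P.T j).I (P.m j : ℝ)⁻¹)‖
  B_le : ∀ j, ‖P.B j‖ ≤ (P.T j).b ^ 2 * P.a j
  B_ker : ∀ j, ∀ i ∈ (P.T j).I, P.B j (Pi.single i 1) = 0
  card_I : ∀ j, (P.T j).I.card + (P.T j).r = 3
  vol_cube : ∀ j z, volume (P.cube j z) = P.vol j
  vol_le : ∀ j, P.vol j ≤ ENNReal.ofReal (6 * ((P.T j).b * P.η) ^ 3)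
  vol_map : ∀ j (g : E3 → ℝ≥0∞) (X : Set E3), MeasurableSet X →
    ∫⁻ x in P.nu j ⁻¹' X, g (P.nu j x) = P.vol j * ∫⁻ ξ in X, g ξ
  compact_box : ∀ j z J, IsCompact (P.box j z J)
  compact_cube : ∀ j z, IsCompact (P.cube j z)
  inner_fin : ∀ j, (P.Inner j).Finite
  buf_fin : ∀ j, (P.Buf j).Finite
  inner_buf : ∀ j, P.Inner j ⊆ P.Buf j
  thick_buf : ∀ j, thickening 2 (⋃ z ∈ P.Inner j, ucube z) ⊆ ⋃ z ∈ P.Buf j, ucube z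
  cthick_buf : ∀ j, cthickening 3 (⋃ z ∈ P.Inner j, ucube z) ⊆ ⋃ z ∈ P.Buf j, ucube z
  thick_U : ∀ j, P.nu j ⁻¹' cthickening 3 (⋃ z ∈ P.Inner j, ucube z) ⊆ P.U j
  fine_buf : ∀ j, P.Fine j ⊆ P.BufSet j
  buf_U : ∀ j, P.BufSet j ⊆ P.U j
  U_sub : ∀ j, P.U j ⊆ Ω
  K_U : ∀ j, P.K j ⊆ P.U j
  U_disj : ∀ j j', j ≠ j' → Disjoint (P.U j) (P.U j')
  K_inner : ∀ j, P.K j ⊆ ⋃ z ∈ P.Inner j, P.cube j z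
  K_disj : ∀ j z, z ∉ P.Inner j → Disjoint (P.cube j z) (P.K j)
  inner_int : ∀ j, ∀ z ∈ P.Inner j, P.cube j z ⊆ interior (P.BufSet j)
  count_inner : ∀ j, ((P.Inner j).encard : ℝ≥0∞) * P.vol j ≤ volume (P.U j)
  count_buf : ∀ j, ((P.Buf j \ P.Inner j).encard : ℝ≥0∞) * P.vol j ≤ volume (P.U j \ P.K j)
  sum_lam : ∀ j (s : Finset (Fin 3 → ℤ)) (g : E3 → ℝ≥0∞), (s : Set (Fin 3 → ℤ)) ⊆ P.Buf j →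
    Measurable g → ∑ z ∈ s, P.lam j (P.cube j z) g ≤ 8 * P.lam j (P.U j) g
  sum_U : ∑ j, volume (P.U j) ≤ volume Ω

def CUBE : Prop := ∀ {Ω : Set E3} (P : Par), IsOpen Ω → P.Ok Ω → CubeApi Ω P

/-! ### AC-3: cells in boxes, fine cells -/

/-- facts about the cells of the buffers -/
structure CellApi {Ω : Set E3} {P : Par} {M₀ : ℝ≥0} {Mt : Ty → ℕ → ℝ≥0}
    {S : Ty → ℕ → Set E3} (𝓜 : Mesh Ω P M₀ Mt S) : Prop where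
  isBox : ∀ z J, IsBox (uface z J)
  sub_box : ∀ j, ∀ z ∈ P.Buf j, ∀ z' J, uface z' J ⊆ ucube z → 𝓜.Q.Sub (P.box j z' J)
  sub_buf : ∀ j, 𝓜.Q.Sub (P.BufSet j)
  box_dim : ∀ j z J i, 𝓜.Q.cell i ⊆ P.box j z J → 𝓜.Q.dim i + J.card ≤ 3
  /-- a top cell of a box is fine or the whole box, whose boundary consists of boxes -/
  box_cell : ∀ j z J i, 𝓜.Q.cell i ⊆ P.BufSet j → 𝓜.Q.cell i ⊆ P.box j z J →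
    𝓜.Q.dim i + J.card = 3 → ¬ 𝓜.Q.cell i ⊆ P.Fine j → 𝓜.Q.cell i = P.box j z J ∧
    ∀ x ∈ 𝓜.Q.bd i, ∃ k, k ∉ J ∧ (x ∈ P.box j z (insert k J) ∨
      x ∈ P.box j (z + Pi.single k 1) (insert k J))
  face_sub : ∀ z J k, k ∉ J → uface z (insert k J) ⊆ uface z J ∧
    uface (z + Pi.single k 1) (insert k J) ⊆ uface z J
  out_inner : ∀ i j, 𝓜.Q.dim i = 3 → ¬ 𝓜.Q.cell i ⊆ P.BufSet j → ∀ z ∈ P.Inner j,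
    Disjoint (𝓜.Q.cell i) (P.cube j z)
  fine_flat : ∀ j i, 𝓜.Q.cell i ⊆ P.Fine j → ∀ x ∈ 𝓜.Q.cell i, ∀ y ∈ 𝓜.Q.cell i,
    (∀ k ∈ (P.T j).I, P.nu j x k = P.nu j y k) ∧ ‖y - x‖ ≤ (P.T j).b * P.a j * ‖P.nu j y - P.nu j x‖
  fine_diam : ∀ j i, 𝓜.Q.cell i ⊆ P.Fine j → ∀ x ∈ 𝓜.Q.cell i, ∀ y ∈ 𝓜.Q.cell i,
    ‖P.nu j y - P.nu j x‖ ≤ (P.n : ℝ)⁻¹
  /-- top cells of different inner pieces are different -/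
  fine_sum : ∀ j (s : Finset (Fin 3 → ℤ)) (X : Set 𝓜.Q.ι), (s : Set (Fin 3 → ℤ)) ⊆ P.Inner j →
    ∑ z ∈ s, ({i | 𝓜.Q.cell i ⊆ P.box j z (P.T j).I ∧ 𝓜.Q.dim i = (P.T j).r ∧ i ∉ X}.encard : ℝ≥0∞) ≤
      ({i | 𝓜.Q.cell i ⊆ P.Fine j ∧ i ∉ X}.encard : ℝ≥0∞)
  fine_count : ∀ j z J, ({i | 𝓜.Q.cell i ⊆ P.Fine j ∧ 𝓜.Q.cell i ⊆ P.box j z J}.encard : ℝ≥0∞) ≤
    M₀ * (2 * P.n) ^ (3 - J.card)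
  fine_faces : ∀ j i, 𝓜.Q.cell i ⊆ P.Fine j →
    ({l | 𝓜.Q.cell l ⊆ 𝓜.Q.cell i}.encard : ℝ≥0∞) ≤ 4 * M₀
  fine_cofaces : ∀ j l, 𝓜.Q.cell l ⊆ P.Fine j →
    ({i | 𝓜.Q.cell l ⊆ 𝓜.Q.cell i}.encard : ℝ≥0∞) ≤ M₀
  fine_meas : ∀ j i, 𝓜.Q.cell i ⊆ P.Fine j → 1 ≤ 𝓜.Q.dim i →
    μH[(𝓜.Q.dim i : ℝ)] (P.nu j '' 𝓜.Q.cell i) ≤ ((2 * M₀ + 1) * (P.n : ℝ≥0∞)⁻¹) ^ 𝓜.Q.dim i
  edge_len : ∀ j e x y, 𝓜.Q.dim e = 1 → 𝓜.Q.cell e = segment ℝ x y → 𝓜.Q.cell e ⊆ P.BufSet j →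
    (𝓜.Q.cell e ⊆ P.Fine j → edist (P.nu j x) (P.nu j y) = (P.n : ℝ≥0∞)⁻¹) ∧
    (¬ 𝓜.Q.cell e ⊆ P.Fine j → edist (P.nu j x) (P.nu j y) = 1)
  edge_line : ∀ j e z J, 𝓜.Q.dim e = 1 → 𝓜.Q.cell e ⊆ P.BufSet j → 𝓜.Q.cell e ⊆ P.box j z J →
    ∀ x ∈ 𝓜.Q.cell e, P.nu j x ∈ Lc P.n J.card
  fine_lam : ∀ j (g : E3 → ℝ≥0∞), Measurable g → (P.n : ℝ≥0∞)⁻¹ ^ ((P.T j).r - 1) *
    ∫⁻ x in 𝓜.Q.skel 1 ∩ P.Fine j, g x ∂(μH[1]) ≤ P.lam j (P.U j) g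

def CELL : Prop := ∀ {Ω : Set E3} {P : Par} {M₀ : ℝ≥0} {Mt : Ty → ℕ → ℝ≥0}
  {S : Ty → ℕ → Set E3} (𝓜 : Mesh Ω P M₀ Mt S), IsOpen Ω → P.Ok Ω → CellApi 𝓜

/-! ### AC-4: energies of boxes -/

/-- a fine cell -/
def FCELL : Prop := ∀ {p : ℝ}, 1 ≤ p → p < 2 → ∀ (K₃ M₀ : ℝ≥0) (C : ℝ≥0 → ℝ≥0), ∃ c : ℝ≥0,
  ∀ {Ω : Set E3} {P : Par} {Mt : Ty → ℕ → ℝ≥0} {S : Ty → ℕ → Set E3} (𝓜 : Mesh Ω P M₀ Mt S)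
    {G : Set 𝓜.Q.ι} {F : E3 → (E3 →L[ℝ] E3)} {h : E3 → E3} {t : Fin P.N → ℝ}
    {θ : 𝓜.Q.ι → ℝ≥0∞}, IsOpen Ω → P.Ok Ω → Out 𝓜 G F h p K₃ C t θ →
  ∀ j i, 𝓜.Q.cell i ⊆ P.Fine j → 1 ≤ 𝓜.Q.dim i →
    En (𝓜.Q.dim i) p (h ∘ (𝓜.ν j).symm) (𝓜.ν j '' 𝓜.Q.cell i) ≤
      c * (ENNReal.ofReal ((P.T j).b ^ 2 * P.a j) ^ p * (P.n : ℝ≥0∞)⁻¹ ^ 𝓜.Q.dim i +
        ENNReal.ofReal ((P.T j).b * P.η) ^ (p - 1) * (P.n : ℝ≥0∞)⁻¹ ^ (𝓜.Q.dim i - 1) *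
          (∑' e, {e | 𝓜.Q.dim e = 1 ∧ 𝓜.Q.cell e ⊆ 𝓜.Q.cell i}.indicator
            (fun e => ∫⁻ x in 𝓜.Q.cell e, ‖F x - (P.T j).A‖ₑ ^ p ∂(μH[1])) e) +
        (1 + ENNReal.ofReal ((P.T j).b * P.η) ^ (p - 1)) * ∑' l, θ l) ∧
    (i ∈ G → En (𝓜.Q.dim i) p (fun ξ => (h ∘ (𝓜.ν j).symm) ξ - P.B j ξ) (𝓜.ν j '' 𝓜.Q.cell i) ≤
      c * ENNReal.ofReal (t j * (P.T j).b * P.a j) ^ p * (P.n : ℝ≥0∞)⁻¹ ^ 𝓜.Q.dim i)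

def BOX : Prop := ∀ {p : ℝ}, 1 ≤ p → p < 2 → ∀ (K₃ M₀ : ℝ≥0) (C : ℝ≥0 → ℝ≥0), ∃ c : ℝ≥0,
  ∀ {Ω : Set E3} {P : Par} {Mt : Ty → ℕ → ℝ≥0} {S : Ty → ℕ → Set E3} (𝓜 : Mesh Ω P M₀ Mt S),
  IsOpen Ω → P.Ok Ω → ∃ D : ℝ≥0, ∀ {G : Set 𝓜.Q.ι} {F : E3 → (E3 →L[ℝ] E3)} {h : E3 → E3}
    {t : Fin P.N → ℝ} {θ : 𝓜.Q.ι → ℝ≥0∞}, Out 𝓜 G F h p K₃ C t θ → ∀ j,
  (∀ z ∈ P.Buf j, ∀ J : Finset (Fin 3), J.card ≤ 2 →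
    En (3 - J.card) p (h ∘ (𝓜.ν j).symm) (uface z J) ≤
      c * (ENNReal.ofReal ((P.T j).b ^ 2 * P.a j) ^ p + ENNReal.ofReal ((P.T j).b * P.η) ^ (p - 1) *
        P.lam j (P.cube j z) (fun x => ‖F x - (P.T j).A‖ₑ ^ p)) + D * ∑' l, θ l) ∧
  ∀ z ∈ P.Inner j,
    En (3 - (P.T j).I.card) p (fun ξ => (h ∘ (𝓜.ν j).symm) ξ - P.B j ξ) (uface z (P.T j).I) ≤
      c * (ENNReal.ofReal (t j * (P.T j).b * P.a j) ^ p +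
        ENNReal.ofReal ((P.T j).b ^ 2 * P.a j) ^ p * (P.n : ℝ≥0∞)⁻¹ ^ (P.T j).r *
          ({i | 𝓜.Q.cell i ⊆ P.box j z (P.T j).I ∧ 𝓜.Q.dim i = (P.T j).r ∧ i ∉ G}.encard : ℝ≥0∞) +
        ENNReal.ofReal ((P.T j).b * P.η) ^ (p - 1) *
          P.lam j (P.cube j z) (fun x => ‖F x - (P.T j).A‖ₑ ^ p)) + D * ∑' l, θ l

/-! ### AC-5: far and near cells -/

def FARN : Prop := ∀ {p : ℝ}, 1 ≤ p → p < 2 → ∀ (K₃ M₀ : ℝ≥0) (C : ℝ≥0 → ℝ≥0)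
  (Mt : Ty → ℕ → ℝ≥0), ∃ (c : ℝ≥0) (c' : Ty → ℕ → ℝ≥0),
  ∀ {Ω : Set E3} {P : Par} {S : Ty → ℕ → Set E3} (𝓜 : Mesh Ω P M₀ Mt S),
  IsOpen Ω → P.Ok Ω → (∀ T m, MeasurableSet (S T m)) →
  ∃ D : ℝ≥0, ∀ {G : Set 𝓜.Q.ι} {F : E3 → (E3 →L[ℝ] E3)} {h : E3 → E3}
    {t : Fin P.N → ℝ} {θ : 𝓜.Q.ι → ℝ≥0∞}, Out 𝓜 G F h p K₃ C t θ →
  ∫⁻ x in Ω \ ⋃ j, P.BufSet j, ‖fderiv ℝ h x‖ₑ ^ p ≤
    c * P.farI Ω (fun x => ‖F x‖ₑ ^ p) +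
    ∑ j, c' (P.T j) (P.m j) * ENNReal.ofReal P.η ^ 2 *
      P.nearI j (S (P.T j) (P.m j)) (fun x => ‖F x‖ₑ ^ p) + D * ∑' l, θ l

/-! ### AC-6: the staircases -/

def STAIRS : Prop := ∀ {p : ℝ}, 1 ≤ p → ∃ Cs : ℕ → ℝ≥0,
  ∀ {Ω Λ Z : Set E3} {P : Par} {M₀ : ℝ≥0} {Mt : Ty → ℕ → ℝ≥0} {S : Ty → ℕ → Set E3}
    (𝓜 : Mesh Ω P M₀ Mt S) {h h' : E3 → E3} {ε : ℝ≥0∞}, IsOpen Ω → P.Ok Ω → (∀ j, 2 ≤ P.m j) →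
  HomeoOn h h' Ω Λ → DiscreteIn Z Ω → Disjoint Z (𝓜.Q.skel 2) → ConicalOn h (Ω \ Z) → 0 < ε →
  ∃ (k k' : E3 → E3) (Z' : Set E3), HomeoOn k k' Ω Λ ∧ DiscreteIn Z' Ω ∧ ConicalOn k (Ω \ Z') ∧
    (∀ x ∈ Ω, ∃ y ∈ Ω, dist y x ≤ P.ς x ∧ k x = h y) ∧
    (∀ x, x ∉ ⋃ j, P.BufSet j → k =ᶠ[𝓝 x] h) ∧ ∀ j,
    (∀ z ∈ P.Inner j, ∫⁻ x in P.cube j z, ‖fderiv ℝ k x - (P.T j).A‖ₑ ^ p ≤
      P.vol j * ENNReal.ofReal ((P.T j).b / P.a j) ^ p *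
        (2 ^ p * ∑ J ∈ (P.T j).I.powerset, (P.m j : ℝ≥0∞)⁻¹ ^ ((P.T j).I.card - J.card) *
          En (3 - J.card) p (fun ξ => (h ∘ (𝓜.ν j).symm) ξ - P.B j ξ) (uface z J) + ε)) ∧
    ∀ z ∈ P.Buf j, ∫⁻ x in P.cube j z, ‖fderiv ℝ k x‖ₑ ^ p ≤
      P.vol j * ENNReal.ofReal ((P.T j).b / P.a j) ^ p *
        (Cs (P.m j) * ∑ J ∈ (P.T j).I.powerset,
          En (3 - J.card) p (h ∘ (𝓜.ν j).symm) (uface z J) + ε)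

/-! ### AC-7: means over the shift -/

/-- the mean of `Φ` over the ball of radius `η` is at most `b` -/
def Mean (η : ℝ) (Φ : E3 → ℝ≥0∞) (b : ℝ≥0∞) : Prop :=
  Measurable Φ ∧ ∫⁻ w in closedBall (0 : E3) η, Φ w ≤ b * volume (closedBall (0 : E3) η)

def MEAN : Prop := ∃ (c₀ : ℝ≥0) (c : ℕ → ℕ → ℝ≥0), ∀ {Ω : Set E3} (P : Par) (g : E3 → ℝ≥0∞),
  IsOpen Ω → P.Ok Ω → Measurable g →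
  Mean P.η (fun w => (P.shift w).farI Ω g) (c₀ * ∫⁻ x in Ω \ P.KK, g x) ∧ ∀ j,
  Mean P.η (fun w => ENNReal.ofReal P.η ^ 2 * (P.shift w).lam j (P.U j) g)
    (c (P.T j).b (P.m j) * ∫⁻ x in P.U j, g x) ∧
  (∀ (S : Set E3) (M : ℝ≥0), MeasurableSet S → (∀ y, μH[1] (S ∩ closedBall y 1) ≤ M) →
    Mean P.η (fun w => ENNReal.ofReal P.η ^ 2 * (P.shift w).nearI j S g)
      (M * ∫⁻ x in P.U j \ P.K j, g x)) ∧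
  Mean P.η (fun w => ENNReal.ofReal P.η ^ 3 * (P.n : ℝ≥0∞)⁻¹ ^ (P.T j).r * (P.shift w).vert j)
    (c (P.T j).b (P.m j) * volume (P.U j \ P.K j)) ∧
  ∀ δ : ℝ, 0 < δ → Mean P.η (fun w => ENNReal.ofReal P.η ^ 2 * (P.shift w).endI j δ g)
    (c (P.T j).b (P.m j) * ENNReal.ofReal δ * ∫⁻ x in P.U j, g x)

/-- calculus of means and the choice of the shift -/
def MARK : Prop :=
  (∀ {η : ℝ} {Φ Ψ : E3 → ℝ≥0∞} {a b : ℝ≥0∞}, Mean η Φ a → Mean η Ψ b →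
    Mean η (fun w => Φ w + Ψ w) (a + b)) ∧
  (∀ {η : ℝ} {Φ : E3 → ℝ≥0∞} {a : ℝ≥0∞} (c : ℝ≥0∞), Mean η Φ a →
    Mean η (fun w => c * Φ w) (c * a)) ∧
  (∀ {η : ℝ} {N : ℕ} {Φ : Fin N → E3 → ℝ≥0∞} {a : Fin N → ℝ≥0∞}, (∀ j, Mean η (Φ j) (a j)) →
    Mean η (fun w => ∑ j, Φ j w) (∑ j, a j)) ∧
  ∀ {Ω : Set E3} {f : E3 → E3} {F : E3 → (E3 →L[ℝ] E3)} {η : ℝ} {Φ : E3 → ℝ≥0∞} {a : ℝ≥0∞},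
    IsOpen Ω → ContinuousOn f Ω → LocallyIntegrableOn F Ω volume →
    Vale.Agent.P073.HB.WeakDeriv volume Ω f F → 0 < η → Mean η Φ a →
    ∃ w : E3, Φ w ≤ a ∧ ∀ x y : E3, segment ℝ x y ⊆ Ω → (∀ k, ∃ q : ℚ, x k = w k + q) →
      (∀ k, ∃ q : ℚ, y k = w k + q) → Vale.Agent.P073.HB.GoodSeg f F x (y - x)

/-! ### AC-8: the scale function and the convex targets -/

def GAUGE : Prop := ∀ {Ω Λ : Set E3} {f f' : E3 → E3} {ε : ℝ}, IsOpen Ω → IsOpen Λ →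
  Bornology.IsBounded Ω → HomeoOn f f' Ω Λ → 0 < ε →
  ∃ ς : E3 → ℝ, LipschitzWith (1 / 10) ς ∧ (∀ x ∈ Ω, 0 < ς x ∧ closedBall x (ς x) ⊆ Ω ∧
    ∀ y, dist y x ≤ ς x → dist (f y) (f x) ≤ ε) ∧
  ∀ (X : Set E3) (d : ℝ), IsCompact X → X ⊆ Ω → 0 < d → ∃ β₀ > (0:ℝ), ∀ β, 0 < β → β ≤ β₀ →
    (∀ x ∈ X, ∀ y ∈ Ω, dist (f x) (f y) ≤ 20 * β → dist x y ≤ d) ∧
    cthickening (101 * β) (f '' X) ⊆ Λ ∧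
    ∀ Q : RCx E3, Q.carrier = Ω → (∀ i, ∀ x ∈ Q.cell i, ∀ y ∈ Q.cell i, dist x y ≤ 2 * ς x) →
      ∃ (O : Q.ι → Set E3) (ϱ : Q.ι → ℝ), LFIn O Λ ∧ ∀ i, Convex ℝ (O i) ∧ O i ⊆ Λ ∧ 0 < ϱ i ∧
        thickening (ϱ i) (f '' Q.cell i) ⊆ O i ∧ (∀ y ∈ O i, ∀ y' ∈ O i, dist y y' ≤ ε) ∧
        ((thickening (101 * β) (f '' X) ∩ f '' Q.cell i).Nonempty → 100 * β ≤ ϱ i)

/-! ### AC-9: the deterministic bound -/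

def DET : Prop := ∀ {p : ℝ}, 1 ≤ p → p < 2 → ∀ (K₃ M₀ : ℝ≥0) (C : ℝ≥0 → ℝ≥0)
  (Mt : Ty → ℕ → ℝ≥0), ∃ (c₀ : ℝ≥0) (c₁ : ℕ → ℝ≥0) (c₂ : ℕ → ℕ → ℝ≥0) (c₃ : Ty → ℕ → ℝ≥0),
  ∀ {Ω Λ : Set E3} {P : Par} {S : Ty → ℕ → Set E3} (𝓜 : Mesh Ω P M₀ Mt S),
  IsOpen Ω → P.Ok Ω → (∀ j, 2 ≤ P.m j) → (∀ T m, MeasurableSet (S T m)) →
  ∃ D : ℝ≥0, ∀ {G : Set 𝓜.Q.ι} {F : E3 → (E3 →L[ℝ] E3)} {h h' : E3 → E3} {Z : Set E3}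
    {t : Fin P.N → ℝ} {θ : 𝓜.Q.ι → ℝ≥0∞} {ε : ℝ≥0∞}, Out 𝓜 G F h p K₃ C t θ →
  HomeoOn h h' Ω Λ → DiscreteIn Z Ω → Disjoint Z (𝓜.Q.skel 2) → ConicalOn h (Ω \ Z) → 0 < ε →
  ∃ (k k' : E3 → E3) (Z' : Set E3), HomeoOn k k' Ω Λ ∧ DiscreteIn Z' Ω ∧ ConicalOn k (Ω \ Z') ∧
    (∀ x ∈ Ω, ∃ y ∈ Ω, dist y x ≤ P.ς x ∧ k x = h y) ∧
    ∫⁻ x in Ω, ‖fderiv ℝ k x - F x‖ₑ ^ p ≤
      c₀ * (P.farI Ω (fun x => ‖F x‖ₑ ^ p) + ∫⁻ x in Ω \ P.KK, ‖F x‖ₑ ^ p) +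
      ∑ j, (c₁ (P.T j).b * (((P.m j : ℝ≥0∞)⁻¹ + ENNReal.ofReal (t j) ^ p) * volume (P.U j) +
          P.vol j * (P.n : ℝ≥0∞)⁻¹ ^ (P.T j).r *
            ({i | 𝓜.Q.cell i ⊆ P.Fine j ∧ i ∉ G}.encard : ℝ≥0∞)) +
        c₂ (P.T j).b (P.m j) * (ENNReal.ofReal P.η ^ 2 *
            P.lam j (P.U j) (fun x => ‖F x - (P.T j).A‖ₑ ^ p) + volume (P.U j \ P.K j) +
          ∫⁻ x in P.U j, ‖F x - (P.T j).A‖ₑ ^ p) +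
        c₃ (P.T j) (P.m j) * (ENNReal.ofReal P.η ^ 2 *
          P.nearI j (S (P.T j) (P.m j)) (fun x => ‖F x‖ₑ ^ p))) +
      D * ∑' l, θ l + ε

end P073
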