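import Vale.Agent.P073Z.ACC.Sk

/-!
# Algebra for the deterministic bound
-/

open Set Metric Topology Filter MeasureTheory
open scoped ENNReal NNReal

namespace P073

namespace Det

theorem card_le (I : Finset (Fin 3)) : (I.powerset.card : ℝ≥0∞) ≤ 8 := by
  have : I.powerset.card ≤ 8 := by
    rw [Finset.card_powerset]
    calc 2 ^ I.card ≤ 2 ^ 3 :=
          Nat.pow_le_pow_right (by norm_num) (by simpa using Finset.card_le_univ I)
      _ = 8 := by norm_num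
  exact_mod_cast this

theorem sum_le8 (I : Finset (Fin 3)) {x : ℝ≥0∞} (E : Finset (Fin 3) → ℝ≥0∞)
    (h : ∀ J ⊆ I, E J ≤ x) : ∑ J ∈ I.powerset, E J ≤ 8 * x := by
  calc _ ≤ I.powerset.card • x :=
        Finset.sum_le_card_nsmul _ _ _ fun J hJ => h J (Finset.mem_powerset.1 hJ)
    _ ≤ 8 * x := by
        rw [nsmul_eq_mul]
        gcongr
        exact card_le I

theorem sum_pow_le (I : Finset (Fin 3)) {x y mi : ℝ≥0∞} (hmi : mi ≤ 1)
    (E : Finset (Fin 3) → ℝ≥0∞) (h1 : ∀ J ⊆ I, J ≠ I → E J ≤ x) (h2 : E I ≤ y) :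
    ∑ J ∈ I.powerset, mi ^ (I.card - J.card) * E J ≤ 8 * (mi * x) + y := by
  classical
  have key : ∀ J ∈ I.powerset,
      mi ^ (I.card - J.card) * E J ≤ mi * x + if J = I then y else 0 := by
    intro J hJ
    have hJ' := Finset.mem_powerset.1 hJ
    by_cases e : J = I
    · subst e
      simp only [Nat.sub_self, pow_zero, one_mul, if_true]
      exact h2.trans le_add_self
    · have hlt : J.card < I.card := Finset.card_lt_card (Finset.ssubset_iff_subset_ne.2 ⟨hJ', e⟩)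
      have : mi ^ (I.card - J.card) ≤ mi := pow_le_of_le_one zero_le hmi (by omega)
      rw [if_neg e, add_zero]
      exact mul_le_mul' this (h1 J hJ' e)
  refine (Finset.sum_le_sum key).trans ?_
  rw [Finset.sum_add_distrib, Finset.sum_ite_eq' I.powerset I (fun _ => y),
    if_pos (Finset.mem_powerset_self I)]
  gcongr
  exact sum_le8 I _ fun _ _ => le_rfl

theorem one_le_two_rpow {p : ℝ} (hp : 0 ≤ p) : (1 : ℝ≥0∞) ≤ 2 ^ p :=
  by simpa using ENNReal.rpow_le_rpow (x := 1) (y := 2) (by norm_num) hp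

theorem enorm_sub_rpow_le {E : Type} [NormedAddCommGroup E] {p : ℝ} (hp : 1 ≤ p) (X Y Z : E) :
    ‖X - Y‖ₑ ^ p ≤ 2 ^ p * (‖X - Z‖ₑ ^ p + ‖Y - Z‖ₑ ^ p) := by
  have h1 : ‖X - Y‖ₑ ≤ ‖X - Z‖ₑ + ‖Y - Z‖ₑ := by
    have e : X - Y = (X - Z) - (Y - Z) := by abel
    rw [e]
    exact enorm_sub_le
  calc _ ≤ (‖X - Z‖ₑ + ‖Y - Z‖ₑ) ^ p := ENNReal.rpow_le_rpow h1 (by linarith)
    _ ≤ 2 ^ (p - 1) * (‖X - Z‖ₑ ^ p + ‖Y - Z‖ₑ ^ p) :=
        ENNReal.rpow_add_le_mul_rpow_add_rpow _ _ hp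
    _ ≤ _ := by
        gcongr
        · norm_num
        · linarith

theorem two_rpow_ne_top {p : ℝ} (hp : 0 ≤ p) : (2 : ℝ≥0∞) ^ p ≠ ⊤ :=
  ENNReal.rpow_ne_top_of_nonneg hp (by norm_num)

theorem meas_pow {F : E3 → (E3 →L[ℝ] E3)} (hF : Measurable F) (A : E3 →L[ℝ] E3) (p : ℝ) :
    Measurable fun x => ‖F x - A‖ₑ ^ p :=
  (hF.sub measurable_const).enorm.pow_const p

theorem lint_split {p : ℝ} (hp : 1 ≤ p) (X : Set E3) (D : E3 → (E3 →L[ℝ] E3))
    {F : E3 → (E3 →L[ℝ] E3)} (A : E3 →L[ℝ] E3) (hF : Measurable F) :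
    ∫⁻ x in X, ‖D x - F x‖ₑ ^ p ≤
      2 ^ p * ((∫⁻ x in X, ‖D x - A‖ₑ ^ p) + ∫⁻ x in X, ‖F x - A‖ₑ ^ p) := by
  rw [← lintegral_add_right _ (meas_pow hF A p),
    ← lintegral_const_mul' _ _ (two_rpow_ne_top (by linarith))]
  exact lintegral_mono fun x => enorm_sub_rpow_le hp _ _ _

theorem lint_biUnion_le {ι : Type} (s : Finset ι) (X : ι → Set E3) (g : E3 → ℝ≥0∞) :
    ∫⁻ x in ⋃ i ∈ s, X i, g x ≤ ∑ i ∈ s, ∫⁻ x in X i, g x := by
  classical
  induction s using Finset.induction_on with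
  | empty => simp
  | insert a s ha ih =>
    rw [Finset.set_biUnion_insert, Finset.sum_insert ha]
    exact (lintegral_union_le _ _ _).trans (add_le_add le_rfl ih)

theorem inner_alg {T c V β α γ τ lam bad D ε u v e mi nr tp I : ℝ≥0∞}
    (h1 : β * α = u) (h2 : V * β * γ ≤ v * e) (h3 : β * τ ≤ u * tp) (hmi : mi ≤ 1) (hT : 1 ≤ T)
    (hI : I ≤ V * β * (T * (8 * (mi * (T * (c * (α + γ * lam) + D + α))) +
      (c * (τ + α * nr * bad + γ * lam) + D)) + ε)) :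
    I ≤ 9 * T ^ 2 * (c + 1) * u * (mi + tp) * V + 9 * T ^ 2 * (c + 1) * u * (V * nr) * bad +
      9 * T ^ 2 * (c + 1) * v * e * lam + V * β * (9 * T ^ 2 * (c + 1) * D + ε) := by
  have hT2 : T ≤ T ^ 2 := by
    rw [sq]
    exact le_mul_of_one_le_left zero_le hT
  have a1 : 8 * T ^ 2 * (c + 1) ≤ 9 * T ^ 2 * (c + 1) := by
    gcongr
    norm_num
  have a2 : 8 * T ^ 2 * c * mi + T * c ≤ 9 * T ^ 2 * (c + 1) := by
    calc _ ≤ 8 * T ^ 2 * (c + 1) * 1 + T ^ 2 * (c + 1) := by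
          gcongr <;> exact le_self_add
      _ = _ := by ring
  have a3 : 8 * T ^ 2 * mi + T ≤ 9 * T ^ 2 * (c + 1) := by
    calc _ ≤ 8 * T ^ 2 * 1 + T ^ 2 := by gcongr
      _ = 9 * T ^ 2 * 1 := by ring
      _ ≤ _ := by
          gcongr
          exact le_add_self
  have a4 : T * c ≤ 9 * T ^ 2 * (c + 1) := le_add_self.trans a2
  calc I ≤ _ := hI
    _ = 8 * T ^ 2 * (c + 1) * (mi * V) * (β * α) +
        (8 * T ^ 2 * c * mi + T * c) * (V * β * γ) * lam + (8 * T ^ 2 * mi + T) * (V * β * D) +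
        T * c * V * (β * τ) + T * c * (V * nr * bad) * (β * α) + V * β * ε := by ring
    _ ≤ 9 * T ^ 2 * (c + 1) * (mi * V) * u +
        9 * T ^ 2 * (c + 1) * (v * e) * lam + 9 * T ^ 2 * (c + 1) * (V * β * D) +
        9 * T ^ 2 * (c + 1) * V * (u * tp) + 9 * T ^ 2 * (c + 1) * (V * nr * bad) * u +
        V * β * ε := by
          rw [h1]
          gcongr
    _ = _ := by ring

theorem buf_alg {Cs c V β α γ lam D ε u v e I : ℝ≥0∞}
    (h1 : β * α = u) (h2 : V * β * γ ≤ v * e)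
    (hI : I ≤ V * β * (Cs * (8 * (c * (α + γ * lam) + D)) + ε)) :
    I ≤ 8 * Cs * c * u * V + 0 * 0 + 8 * Cs * c * v * e * lam + V * β * (8 * Cs * D + ε) := by
  calc I ≤ _ := hI
    _ = 8 * Cs * c * V * (β * α) + 8 * Cs * c * (V * β * γ) * lam +
        V * β * (8 * Cs * D + ε) := by ring
    _ ≤ 8 * Cs * c * V * u + 8 * Cs * c * (v * e) * lam + V * β * (8 * Cs * D + ε) := by
          rw [h1]
          gcongr
    _ = _ := by ring

theorem sum_alg {ι : Type} (s : Finset ι) {I bad lam : ι → ℝ≥0∞} {x y w r V U Bd L : ℝ≥0∞}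
    (h : ∀ z ∈ s, I z ≤ x * V + y * bad z + w * lam z + r) (hV : (s.card : ℝ≥0∞) * V ≤ U)
    (hB : ∑ z ∈ s, bad z ≤ Bd) (hL : ∑ z ∈ s, lam z ≤ L) :
    ∑ z ∈ s, I z ≤ x * U + y * Bd + w * L + s.card * r := by
  refine (Finset.sum_le_sum h).trans ?_
  simp only [Finset.sum_add_distrib, ← Finset.mul_sum, Finset.sum_const, nsmul_eq_mul]
  gcongr

/-- first constant -/
noncomputable def u (p : ℝ) (b : ℕ) : ℝ≥0 := Real.toNNReal (((b : ℝ) ^ 3) ^ p)

/-- second constant -/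
noncomputable def v (p : ℝ) (b m : ℕ) : ℝ≥0 :=
  Real.toNNReal (6 * (b : ℝ) ^ 3 * ((b : ℝ) * m) ^ p * (b : ℝ) ^ (p - 1))

theorem num1 {p a : ℝ} (hp : 0 ≤ p) (ha : 0 < a) (b : ℕ) :
    ENNReal.ofReal (b / a) ^ p * ENNReal.ofReal ((b : ℝ) ^ 2 * a) ^ p = u p b := by
  rw [← ENNReal.mul_rpow_of_nonneg _ _ hp, ← ENNReal.ofReal_mul (by positivity),
    ENNReal.ofReal_rpow_of_nonneg (by positivity) hp]
  have e : (b : ℝ) / a * ((b : ℝ) ^ 2 * a) = (b : ℝ) ^ 3 := by field_simp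
  rw [e]
  rfl

theorem num3 {p a t : ℝ} (hp : 0 ≤ p) (ha : 0 < a) (ht : 0 ≤ t) {b : ℕ} (hb : 1 ≤ b) :
    ENNReal.ofReal (b / a) ^ p * ENNReal.ofReal (t * b * a) ^ p ≤
      u p b * ENNReal.ofReal t ^ p := by
  have hb' : (1 : ℝ) ≤ b := by exact_mod_cast hb
  rw [← num1 hp ha b, mul_assoc (ENNReal.ofReal (b / a) ^ p),
    ← ENNReal.mul_rpow_of_nonneg _ (ENNReal.ofReal t) hp, ← ENNReal.ofReal_mul (by positivity)]
  refine mul_le_mul' le_rfl (ENNReal.rpow_le_rpow (ENNReal.ofReal_le_ofReal ?_) hp)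
  have : t * b * a * 1 ≤ t * b * a * b := by gcongr
  nlinarith

theorem num2 {p η : ℝ} (hp : 1 ≤ p) (hη : 0 < η) (b : ℕ) {m : ℕ} (hm : 1 ≤ m) {V : ℝ≥0∞}
    (hV : V ≤ ENNReal.ofReal (6 * ((b : ℝ) * η) ^ 3)) :
    V * ENNReal.ofReal (b / (η / m)) ^ p * ENNReal.ofReal ((b : ℝ) * η) ^ (p - 1) ≤
      v p b m * ENNReal.ofReal η ^ 2 := by
  have hm' : (0 : ℝ) < m := by exact_mod_cast hm
  refine (mul_le_mul' (mul_le_mul' hV le_rfl) le_rfl).trans (le_of_eq ?_)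
  rw [ENNReal.ofReal_rpow_of_nonneg (by positivity) (by linarith),
    ENNReal.ofReal_rpow_of_nonneg (by positivity) (by linarith),
    ← ENNReal.ofReal_mul (by positivity), ← ENNReal.ofReal_mul (by positivity),
    ← ENNReal.ofReal_pow hη.le]
  show _ = ENNReal.ofReal _ * _
  rw [← ENNReal.ofReal_mul (by positivity)]
  congr 1
  have e1 : (b : ℝ) / (η / m) = b * m / η := by field_simp
  have e2 : η ^ (p - 1) = η ^ p / η := Real.rpow_sub_one hη.ne' p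
  have e3 : 0 < η ^ p := Real.rpow_pos_of_pos hη p
  rw [e1, Real.div_rpow (by positivity) hη.le, Real.mul_rpow (by positivity) hη.le, e2]
  field_simp

end Det

end P073
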