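import Vale.Agent.P073Z.ACC.Mid
import Vale.Agent.P073Z.ACC.Fin1
import Vale.Agent.P073Z.ACC.Fin3
import Vale.Agent.P073Z.ACC.Tool

/-!
# The choice of the parameters
-/

open Set Metric Topology Filter MeasureTheory
open scoped ENNReal NNReal

namespace P073

namespace ACC

theorem ev_ofReal {X e : ℝ≥0∞} (hX : X ≠ ⊤) (he : e ≠ 0) :
    ∀ᶠ t in 𝓝[>] (0:ℝ), X * ENNReal.ofReal t ≤ e := by
  have h : Tendsto (fun t : ℝ => X * ENNReal.ofReal t) (𝓝 0) (𝓝 (X * ENNReal.ofReal 0)) :=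
    ENNReal.Tendsto.const_mul (ENNReal.continuous_ofReal.tendsto 0) (Or.inr hX)
  rw [ENNReal.ofReal_zero, mul_zero] at h
  exact (h.mono_left nhdsWithin_le_nhds).eventually (ge_mem_nhds (pos_iff_ne_zero.2 he))

theorem ev_nat {X e : ℝ≥0∞} (hX : X ≠ ⊤) (he : e ≠ 0) :
    ∀ᶠ n : ℕ in atTop, X * (n : ℝ≥0∞)⁻¹ ≤ e := by
  have h := ENNReal.Tendsto.const_mul (a := X) ENNReal.tendsto_inv_nat_nhds_zero (Or.inr hX)
  rw [mul_zero] at h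
  exact h.eventually (ge_mem_nhds (pos_iff_ne_zero.2 he))

theorem ev_rho (a η m : ℝ) {β : ℝ} (hβ : 0 < β) :
    ∀ᶠ n : ℕ in atTop, a * (η / (m * n)) ≤ β := by
  have h := (tendsto_const_div_atTop_nhds_zero_nat (𝕜 := ℝ) (η / m)).const_mul a
  rw [mul_zero] at h
  filter_upwards [h.eventually (ge_mem_nhds hβ)] with n hn
  rwa [div_div] at hn

theorem rpow_le_self {x : ℝ≥0∞} {p : ℝ} (hx : x ≤ 1) (hp : 1 ≤ p) : x ^ p ≤ x := by
  conv_rhs => rw [← ENNReal.rpow_one x]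
  exact ENNReal.rpow_le_rpow_of_exponent_ge hx hp

/-- the arithmetic of one type -/
theorem one_le {c₁ c₂ c₃ e M u₁ u₂ u₃ V t t' s a₁ a₂ a₃ a₄ a₅ δ Y : ℝ≥0∞} (h1 : c₁ * u₁ ≤ s)
    (h2 : c₁ * u₂ ≤ s) (h3 : c₁ * u₃ ≤ s) (h4 : c₂ * e * t ≤ s) (h5 : t' ≤ t) (k1 : a₁ ≤ δ)
    (k2 : a₂ ≤ t * V + δ) (k3 : a₃ ≤ Y) (k4 : a₄ ≤ t' * V + δ) (k5 : a₅ ≤ δ) :
    c₁ * ((u₁ + u₂ + u₃) * V) + c₂ * (e * (a₁ + a₂ + a₃ + a₄)) + c₃ * (M * a₅) ≤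
      5 * s * V + (3 * (c₂ * e) + c₃ * M) * δ + c₂ * e * Y := by
  calc _ ≤ c₁ * ((u₁ + u₂ + u₃) * V) + c₂ * (e * (δ + (t * V + δ) + Y + (t * V + δ))) +
        c₃ * (M * δ) := by
        gcongr
        exact k4.trans (by gcongr)
    _ = (c₁ * u₁ + c₁ * u₂ + c₁ * u₃ + c₂ * e * t + c₂ * e * t) * V +
        (3 * (c₂ * e) + c₃ * M) * δ + c₂ * e * Y := by ring
    _ ≤ (s + s + s + s + s) * V + (3 * (c₂ * e) + c₃ * M) * δ + c₂ * e * Y := by gcongr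
    _ = _ := by ring

end ACC

open ACC in
theorem pla_of (hMid : MID) (hK : KSEL) (hH : HAJ) (hB : GENBV) (hMe : MEAN) (hGa : GAUGE)
    (hCu : CUBE) : PLA := by
  intro Ω Λ f f' F₀ p ε hΩ hΛ cΩ cΛ bΩ bΛ hp hp2 hε hf hF₀ hi₀ hw₀
  obtain ⟨F, hF, -, hFe, hFi, hi, hw⟩ := exists_borel hΩ bΩ hp hF₀ hi₀ hw₀
  have hiΩ : ∫⁻ x in Ω, ‖F x‖ₑ ^ p < ⊤ := (setLIntegral_le_lintegral _ _).trans_lt hi
  have hli : LocallyIntegrableOn F Ω volume := hFi.locallyIntegrable.locallyIntegrableOn Ω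
  have hY : ∫⁻ x, ‖F x‖ₑ ≠ ⊤ := hFi.2.ne
  have hV : volume Ω ≠ ⊤ := bΩ.measure_lt_top.ne
  obtain ⟨τ₁, Cg, c₀, c₁, c₂, c₃, Mt, S, hτ, hS, hMid⟩ := hMid hp hp2
  obtain ⟨C, hC, hH⟩ := hH
  obtain ⟨e₀, e, hW⟩ := exists_w hMe
  obtain ⟨ς, hς, hς', hGa⟩ := hGa hΩ hΛ bΩ hf (half_pos hε)
  obtain ⟨E, hE⟩ : ∃ E, E = ENNReal.ofReal (ε / 10) := ⟨_, rfl⟩
  have hE0 : E ≠ 0 := by rw [hE]; exact (ENNReal.ofReal_pos.2 (by positivity)).ne'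
  obtain ⟨s, hs, hs0⟩ := ((ev_ofReal hV hE0).and self_mem_nhdsWithin).exists
  have hs1 : ENNReal.ofReal s ≠ 0 := (ENNReal.ofReal_pos.2 hs0).ne'
  obtain ⟨τ₀, ⟨h01, h02⟩, h03⟩ := (((ev_ofReal (X := c₀ * ((e₀ + 1) * (volume Ω + 1)))
    (by finiteness) hE0).and (ev_mul_le 1 one_pos)).and self_mem_nhdsWithin).exists
  choose m hm hm2 using fun b => ((ev_nat (X := c₁ b) ENNReal.coe_ne_top hs1).and
    (eventually_ge_atTop 2)).exists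
  have key : ∀ b, ∃ t : ℝ, (((c₁ b * ENNReal.ofReal (Cg b * C) * ENNReal.ofReal t ≤
      ENNReal.ofReal s ∧ c₂ b (m b) * e b (m b) * ENNReal.ofReal t ≤ ENNReal.ofReal s) ∧
      C * t ≤ τ₁ b ∧ Cg b * C * t ≤ 1) ∧ 1 * t ≤ 1) ∧ t ∈ Ioi 0 := fun b =>
    (((((ev_ofReal (by finiteness) hs1).and (ev_ofReal (by finiteness) hs1)).and
      ((ev_mul_le _ (hτ b).1).and (ev_mul_le _ one_pos))).and (ev_mul_le _ one_pos)).and
      self_mem_nhdsWithin).exists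
  choose t ht ht0 using key
  obtain ⟨N, T, K, r₁, hr, hK1, hK2, hK3⟩ := hK (F := F) (p := p) (τ₀ := τ₀)
    (δ := ENNReal.ofReal τ₀) t hΩ bΩ hp hF.aestronglyMeasurable hiΩ h03
    (ENNReal.ofReal_pos.2 h03) ht0
  obtain ⟨δ, hδ, hδ0⟩ := ((ev_ofReal (X := ∑ j, (3 * (c₂ (T j).b (m (T j).b) * e (T j).b (m (T j).b))
    + c₃ (T j) (m (T j).b) * Mt (T j) (m (T j).b) : ℝ≥0∞))
    (ENNReal.sum_ne_top.2 fun j _ => by finiteness) hE0).and self_mem_nhdsWithin).exists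
  let P₀ : Par := ⟨N, T, fun j => m (T j).b, K, ς, 0, 1, 0⟩
  obtain ⟨k, hOk, hk⟩ := exists_eta (F := F) (p := p) (δ := ENNReal.ofReal δ) P₀
    (fun j => t (T j).b) bΩ hp hiΩ.ne hr (fun j => (one_le_two.trans (hm2 _)))
    (fun j => ⟨(hK1 j).1, (hK1 j).2.1, fun x hx => ((hK1 j).2.2 x hx).1⟩) hK2 hς
    (fun x hx => ⟨(hς' x hx).1, (hς' x hx).2.1⟩) (ENNReal.ofReal_pos.2 hδ0).ne'
  obtain ⟨η, hη⟩ : ∃ η, η = (2:ℝ)⁻¹ ^ k := ⟨_, rfl⟩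
  have hη0 : 0 < η := by rw [hη]; positivity
  obtain ⟨d, ⟨hd, hd1⟩, hd0⟩ := (((ev_ofReal (X := ∑ j, (c₂ (T j).b (m (T j).b) *
    e (T j).b (m (T j).b) * (ENNReal.ofReal ((T j).b * m (T j).b / η) * ∫⁻ x, ‖F x‖ₑ) : ℝ≥0∞))
    (ENNReal.sum_ne_top.2 fun j _ => by finiteness) hE0).and (eventually_all.2 fun j =>
      ev_mul_le (10 * (T j).b * m (T j).b) hη0)).and self_mem_nhdsWithin).exists
  obtain ⟨β, hβ, hGa⟩ := hGa (⋃ j, cthickening r₁ (K j)) d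
    (isCompact_iUnion fun j => (hK1 j).1.cthickening) (iUnion_subset fun j => (hK1 j).2.1) hd0
  obtain ⟨g1, g2, g3⟩ := hGa β hβ le_rfl
  obtain ⟨n, ⟨hn1, hn2, hn3⟩, hn⟩ := (((eventually_all.2 fun j =>
    ev_nat (X := c₁ (T j).b) ENNReal.coe_ne_top hs1).and ((eventually_all.2 fun j =>
      ev_rho (Cg (T j).b) η (m (T j).b) hβ).and (eventually_all.2 fun j =>
      ev_rho (((T j).b + 1) * (T j).b) η (m (T j).b) hβ))).and (eventually_ge_atTop 1)).exists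
  obtain ⟨hk3, hk⟩ := hk n
  have hP := hOk n hn
  have hb0 : ∀ j, (0:ℝ) < (T j).b := fun j => by exact_mod_cast (T j).b_pos
  have hm0 : ∀ j, (0:ℝ) < m (T j).b := fun j => by exact_mod_cast zero_lt_two.trans_le (hm2 _)
  obtain ⟨w, hw1, hw2⟩ := hW (P₀.upd k n) p (fun j => (T j).b * m (T j).b * d / η) c₀
    (fun j => c₁ (T j).b * (((m (T j).b : ℝ≥0∞)⁻¹ + ENNReal.ofReal (Cg (T j).b * (C * t (T j).b)) ^ p
      + (n : ℝ≥0∞)⁻¹) * volume ((P₀.upd k n).U j))) (fun j => c₂ (T j).b (m (T j).b))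
    (fun j => c₃ (T j) (m (T j).b)) (fun j => S (T j) (m (T j).b)) (fun j => Mt (T j) (m (T j).b))
    hΩ hP hf.cont hF hli hw (fun j => div_pos (mul_pos (mul_pos (hb0 j) (hm0 j)) hd0) hη0)
    fun j => hS _ _
  subst hη
  obtain ⟨h, h', Z, h1, h2, h3, h4, h5⟩ := hMid (X := ⋃ j, cthickening r₁ (K j)) (β := β) (d := d)
    (ε₀ := ε / 2) (ε := E) ((P₀.upd k n).shift w) (fun j => C * t (T j).b) hΩ hΛ cΩ cΛ bΛ hf
    (hB hΩ hf.cont hli hw) hF (hP.shift w) (fun j => hm2 _) hβ (pos_iff_ne_zero.2 hE0)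
    (fun j => ⟨(mul_pos hC (ht0 _)).le, (ht _).1.2.1, (mul_assoc _ _ _).ge.trans (ht _).1.2.2,
      fun x hx y hy hxy => by
        have hb : ∀ z ∈ K j, ball z (3 * (2:ℝ)⁻¹ ^ k) ⊆ Ω := fun z hz =>
          ((ball_subset_ball hk3).trans (ball_subset_closedBall.trans
            (closedBall_subset_cthickening hz r₁))).trans (hK1 j).2.1
        have hM : ∀ z ∈ K j, MaxLe F (T j).A z (3 * (2:ℝ)⁻¹ ^ k) (t (T j).b) :=
          fun z hz ρ hρ => ((hK1 j).2.2 z hz).2 ρ ⟨hρ.1, hρ.2.trans hk3⟩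
        exact hH (T j).A hΩ hf.cont hli hw (le_of_lt (ht0 _)) (hb x hx) (hb y hy) (hM x hx)
          (hM y hy) hxy⟩)
    (fun j => by
      refine subset_iUnion_of_subset j ((thickening_mono ?_ _).trans
        (thickening_subset_cthickening _ _))
      have h1 : 100 * ((T j).b : ℝ) * (2:ℝ)⁻¹ ^ k ≤ r₁ := (hk j).1
      have h2 := mul_pos (hb0 j) hη0
      change 20 * ((T j).b : ℝ) * (2:ℝ)⁻¹ ^ k ≤ r₁
      linarith)
    g1 (fun j => ⟨hd1 j, hn2 j, hn3 j⟩) g2 g3 (fun x hx => (hς' x hx).2.2) hw1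
  refine ⟨h, h', Z, h1, h2, h3, fun x hx => (h4 x hx).trans_eq (by ring), ?_⟩
  have e1 : ∫⁻ x in Ω, ‖fderiv ℝ h x - F₀ x‖ₑ ^ p = ∫⁻ x in Ω, ‖fderiv ℝ h x - F x‖ₑ ^ p :=
    lintegral_congr_ae (hFe.mono fun x hx => by simp only [hx])
  rw [e1]
  refine (h5.trans (add_le_add hw2 le_rfl)).trans_lt ?_
  have b1 : c₀ * ((e₀ + 1) * ∫⁻ x in Ω \ (P₀.upd k n).KK, ‖F x‖ₑ ^ p) ≤ E := by
    refine le_trans ?_ h01
    rw [mul_assoc, mul_assoc, add_mul (volume Ω), one_mul, mul_comm (volume Ω)]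
    gcongr
    refine hK3.trans ?_
    gcongr
    exact rpow_le_self (ENNReal.ofReal_le_one.2 (by linarith)) hp
  have hc := hCu _ hΩ hP
  refine lt_of_le_of_lt (add_le_add (add_le_add b1 (Finset.sum_le_sum fun j _ =>
    one_le (s := ENNReal.ofReal s) (δ := ENNReal.ofReal δ)
      (Y := ENNReal.ofReal ((T j).b * m (T j).b / (2:ℝ)⁻¹ ^ k) * (∫⁻ x, ‖F x‖ₑ) * ENNReal.ofReal d)
      (hm _) ?_ (hn1 j) (ht _).1.1.2 ?_
      (hk j).2.1 (hk j).2.2.2.1 ?_ (hk j).2.2.2.2 (hk j).2.2.1)) le_rfl) ?_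
  · refine le_trans ?_ (ht (T j).b).1.1.1
    have hCg : 0 ≤ Cg (T j).b := zero_le_one.trans (hτ _).2
    rw [mul_assoc, ← ENNReal.ofReal_mul (mul_nonneg hCg hC.le), ← mul_assoc (Cg _)]
    exact mul_le_mul_right (rpow_le_self (ENNReal.ofReal_le_one.2 (ht _).1.2.2) hp) _
  · exact rpow_le_self (ENNReal.ofReal_le_one.2 (by linarith [(ht (T j).b).2])) hp
  · refine (mul_le_mul_right (setLIntegral_le_lintegral _ _) _).trans_eq ?_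
    rw [mul_right_comm _ _ (ENNReal.ofReal d),
      ← ENNReal.ofReal_mul (div_pos (mul_pos (hb0 j) (hm0 j)) hη0).le, div_mul_eq_mul_div]
  · rw [Finset.sum_add_distrib, Finset.sum_add_distrib, ← Finset.mul_sum, ← Finset.sum_mul]
    simp only [← mul_assoc _ _ (ENNReal.ofReal d)]
    rw [← Finset.sum_mul]
    calc _ ≤ E + (5 * E + E + E) + E := by
          refine add_le_add (add_le_add le_rfl (add_le_add (add_le_add ?_ hδ) hd)) le_rfl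
          rw [mul_assoc, mul_comm (ENNReal.ofReal s)]
          exact mul_le_mul_right ((mul_le_mul_left hc.sum_U _).trans hs) _
      _ = ENNReal.ofReal (9 * (ε / 10)) := by
          rw [ENNReal.ofReal_mul (by norm_num), ← hE, ENNReal.ofReal_ofNat]; ring
      _ < _ := (ENNReal.ofReal_lt_ofReal_iff hε).2 (by linarith)

end P073
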