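import Vale.Agent.P073Z.STRF
import Vale.Agent.P073Z.TOPO
import Vale.Agent.P073Z.GRID
import Vale.Agent.P073Z.SQ
import Vale.Agent.P073Z.FLAT
import Vale.Agent.P073Z.MESH
import Vale.Agent.P073Z.STAIR
import Vale.Agent.P073Z.KSELFin
import Vale.Agent.P073Z.HAJ
import Vale.Agent.P073Z.ACC.Det
import Vale.Agent.P073Z.ACC.Farn
import Vale.Agent.P073Z.ACC.Stairs
import Vale.Agent.P073Z.ACC.Cell
import Vale.Agent.P073Z.ACC.Tools
import Vale.Agent.P073Z.ACC.Mean
import Vale.Agent.P073Z.ACC.Gauge
import Vale.Agent.P073Z.ACC.Final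

/-!
# The piecewise linear approximation from the four remaining blocks
-/

namespace P073

theorem topo_of_t0 (t0 : T0) : TOPO := topo_of grid t0 sq_thm str_thm flat fill_thm

theorem det_of_box (hC : CUBE) (hB : BOX) : DET :=
  det_of hC (cell_of hC) ena hB (farn_of hC (cell_of hC) scale ena chain)
    (stairs_of stair hC (cell_of hC))

theorem pla_of_rest (t0 : T0) (hG : GOOD) (hC : CUBE) (hB : BOX) : PLA :=
  pla_of (mid_of (topo_of_t0 t0) mesh hG wire hC (cell_of hC) (det_of_box hC hB)) ksel haj genbv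
    mean gauge_thm hC

end P073
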