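import Vale.Agent.P073Z.Gauge
import Vale.Agent.P073Z.RCX

/-!
# The outer scale function and the convex neighbourhoods of the images of the cells
-/

open Set Metric Topology Filter

namespace P073

namespace ACC

theorem exists_delta {Λ : Set E3} (hΛ : IsOpen Λ) (hb : Bornology.IsBounded Λ) {ε : ℝ}
    (hε : 0 < ε) : ∃ δ : E3 → ℝ, (∀ y ∈ Λ, 0 < δ y) ∧ (∀ y, δ y ≤ ε / 4) ∧
      (∀ y y', δ y ≤ δ y' + dist y y' / 10) ∧ ∀ y ∈ Λ, closedBall y (5 * δ y) ⊆ Λ := by
  have hne : (Λᶜ).Nonempty := by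
    by_contra h
    rw [not_nonempty_iff_eq_empty, compl_empty_iff] at h
    exact NormedSpace.unbounded_univ ℝ E3 (h ▸ hb)
  have hpos : ∀ y ∈ Λ, 0 < infDist y Λᶜ := fun y hy =>
    (hΛ.isClosed_compl.notMem_iff_infDist_pos hne).1 (fun h => h hy)
  refine ⟨fun y => min (ε / 4) (infDist y Λᶜ / 10), fun y hy =>
    lt_min (by positivity) (div_pos (hpos y hy) (by norm_num)), fun y => min_le_left _ _,
    fun y y' => ?_, fun y hy z hz => ?_⟩
  · have h1 := infDist_le_infDist_add_dist (x := y) (y := y') (s := Λᶜ)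
    have h2 : 0 ≤ dist y y' := dist_nonneg
    beta_reduce
    rcases le_total (ε / 4) (infDist y' Λᶜ / 10) with h | h
    · rw [min_eq_left h]; linarith [min_le_left (ε / 4) (infDist y Λᶜ / 10)]
    · rw [min_eq_right h]; linarith [min_le_right (ε / 4) (infDist y Λᶜ / 10)]
  · by_contra hn
    have h1 := infDist_le_dist_of_mem (x := y) (show z ∈ Λᶜ from hn)
    rw [mem_closedBall, dist_comm] at hz
    have h2 := min_le_right (ε / 4) (infDist y Λᶜ / 10)
    linarith [hpos y hy]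

/-- the scale function and the convex sets -/
theorem exists_scale {Ω Λ : Set E3} {f f' : E3 → E3} (hΩ : IsOpen Ω) (hΛ : IsOpen Λ)
    (hb : Bornology.IsBounded Λ) (hf : HomeoOn f f' Ω Λ) {ε : ℝ} (hε : 0 < ε) :
    ∃ ς : E3 → ℝ, LipschitzWith (1 / 10) ς ∧ (∀ x ∈ Ω, 0 < ς x ∧ closedBall x (ς x) ⊆ Ω) ∧
      ∀ Y : Set E3, IsCompact Y → Y ⊆ Λ → ∃ β₀ : ℝ, 0 < β₀ ∧ ∀ β : ℝ, β ≤ β₀ →
        cthickening (200 * β) Y ⊆ Λ ∧ ∀ K : RCx E3, K.carrier = Ω →
          (∀ i, ∀ x ∈ K.cell i, ∀ y ∈ K.cell i, dist x y ≤ 2 * ς x) →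
          ∃ (O : K.ι → Set E3) (ϱ : K.ι → ℝ),
            (∀ i, Convex ℝ (O i) ∧ O i ⊆ Λ ∧ 0 < ϱ i ∧ thickening (ϱ i) (f '' K.cell i) ⊆ O i ∧
              ((thickening (200 * β) Y ∩ f '' K.cell i).Nonempty → 100 * β ≤ ϱ i)) ∧
            LFIn O Λ ∧ ∀ i, ∀ y ∈ O i, ∀ y' ∈ O i, dist y y' ≤ ε := by
  obtain ⟨δ, hδ0, hδε, hδl, hδb⟩ := exists_delta hΛ hb hε
  obtain ⟨r, hr, hrl, -, hrp⟩ := exists_gauge (X := Ω)
    (p := fun x a => closedBall x a ⊆ Ω ∧ ∀ y ∈ Ω, dist y x ≤ a → dist (f y) (f x) < δ (f x))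
    (fun x _ a b _ hab hb => ⟨(closedBall_subset_closedBall hab).trans hb.1,
      fun y hy h => hb.2 y hy (h.trans hab)⟩) (by
    intro x hx
    have h0 := hδ0 _ (hf.mapsTo hx)
    have hc : ContinuousAt f x := hf.cont.continuousAt (hΩ.mem_nhds hx)
    have h1 : ∀ᶠ y in 𝓝 x, y ∈ Ω ∧ dist (f y) (f x) < δ (f x) / 4 :=
      (hΩ.eventually_mem hx).and (hc.eventually (ball_mem_nhds _ (by positivity)))
    obtain ⟨a, ha, hab⟩ := Metric.nhds_basis_closedBall.mem_iff.1 h1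
    refine ⟨a / 2, half_pos ha, ?_⟩
    filter_upwards [mem_nhdsWithin_of_mem_nhds (ball_mem_nhds x (half_pos ha))] with y hy
    rw [mem_ball] at hy
    have key : ∀ z, dist z y ≤ a / 2 → z ∈ closedBall x a := fun z hz => by
      rw [mem_closedBall]; linarith [dist_triangle z y x]
    refine ⟨fun z hz => (hab (key z hz)).1, fun z _ hz => ?_⟩
    have a1 := (hab (key z hz)).2
    have a2 := (hab (key y (by rw [dist_self]; linarith))).2
    have a3 := hδl (f x) (f y)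
    have a4 := dist_triangle_right (f z) (f y) (f x)
    rw [dist_comm] at a3
    linarith)
  refine ⟨fun x => r x / 10, ?_, fun x hx => ⟨div_pos (hr.2 x hx) (by norm_num),
    (closedBall_subset_closedBall (by linarith [hr.2 x hx])).trans (hrp x hx).1⟩,
    fun Y hY hYΛ => ?_⟩
  · refine LipschitzWith.of_le_add_mul _ fun x y => ?_
    have := hrl x y
    push_cast
    linarith
  have hδc : Continuous δ := by
    refine (LipschitzWith.of_le_add_mul (1 / 10) fun x y => ?_).continuous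
    have := hδl x y
    push_cast
    linarith
  obtain ⟨c, hc, hcY⟩ := Gauge.exists_lower (r := δ) (X := Λ) ⟨hδc.continuousOn, hδ0⟩ hY hYΛ
  refine ⟨c / 400, by positivity, fun β hβ => ⟨fun z hz => ?_, fun K hK hs => ?_⟩⟩
  · have h1 : z ∈ thickening c Y :=
      cthickening_subset_thickening' hc (by linarith) Y hz
    obtain ⟨y, hy, hzy⟩ := mem_thickening_iff.1 h1
    refine hδb y (hYΛ hy) (mem_closedBall.2 ?_)
    linarith [hcY y hy]
  choose x hx using K.cell_nonempty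
  have hcell : ∀ i, K.cell i ⊆ Ω := fun i => hK ▸ K.cell_subset_carrier i
  have hxΛ : ∀ i, f (x i) ∈ Λ := fun i => hf.mapsTo (hcell i (hx i))
  have hnear : ∀ i, ∀ y ∈ K.cell i, dist (f y) (f (x i)) < δ (f (x i)) := fun i y hy =>
    (hrp _ (hcell i (hx i))).2 y (hcell i hy) (by
      have := hs i _ (hx i) y hy
      rw [dist_comm]
      linarith [hr.2 _ (hcell i (hx i))])
  refine ⟨fun i => ball (f (x i)) (2 * δ (f (x i))), fun i => δ (f (x i)), fun i =>
    ⟨convex_ball _ _, ?_, hδ0 _ (hxΛ i), ?_, ?_⟩, fun y hy => ?_, fun i y hy y' hy' => ?_⟩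
  · exact (ball_subset_closedBall.trans (closedBall_subset_closedBall
      (by linarith [hδ0 _ (hxΛ i)]))).trans (hδb _ (hxΛ i))
  · intro z hz
    obtain ⟨_, ⟨y, hy, rfl⟩, hzy⟩ := mem_thickening_iff.1 hz
    rw [mem_ball]
    linarith [hnear i y hy, dist_triangle z (f y) (f (x i))]
  · rintro ⟨_, hz, y, hy, rfl⟩
    obtain ⟨y₀, hy₀, hzy⟩ := mem_thickening_iff.1 hz
    have a1 := hδl y₀ (f y)
    have a2 := hδl (f y) (f (x i))
    have a3 := hnear i y hy
    have a4 := hcY y₀ hy₀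
    rw [dist_comm] at a1
    linarith
  · have h0 := hδ0 y hy
    have hC : closedBall y (5 * δ y) ⊆ Λ := hδb y hy
    have hC' : IsCompact (f' '' closedBall y (5 * δ y)) :=
      (isCompact_closedBall _ _).image_of_continuousOn (hf.cont_inv.mono hC)
    refine ⟨ball y (δ y), ball_mem_nhds _ h0, (K.finite_meet hC' (hK ▸ ?_)).subset ?_⟩
    · rintro _ ⟨z, hz, rfl⟩
      exact hf.mapsTo_inv (hC hz)
    · rintro i ⟨z, hz, hz'⟩
      refine ⟨x i, hx i, f (x i), ?_, hf.left_inv (hcell i (hx i))⟩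
      rw [mem_ball] at hz hz'
      have a1 := hδl (f (x i)) y
      have a2 := dist_triangle_left (f (x i)) y z
      rw [mem_closedBall]
      linarith
  · rw [mem_ball] at hy hy'
    linarith [dist_triangle_right y y' (f (x i)), hδε (f (x i))]

end ACC

end P073
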